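import Crest.Agent.R215.Defs

/-! Row 215: basic facts on the normal density/cdf, on `stdGaussian`, and on configurations. -/

set_option autoImplicit false

namespace Crest.Agent.R215

open MeasureTheory ProbabilityTheory Set Filter Topology
open scoped RealInnerProductSpace

universe u

/-! ### One-dimensional facts -/

lemma gphi_eq_pdf (t : ℝ) : gphi t = gaussianPDFReal 0 1 t := by
  simp [gphi, gaussianPDFReal_def]

lemma gphi_pos (t : ℝ) : 0 < gphi t := by
  unfold gphi
  have := Real.pi_pos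
  positivity

lemma gphi_neg (t : ℝ) : gphi (-t) = gphi t := by simp [gphi]

lemma gphi_zero : gphi 0 = (√(2 * Real.pi))⁻¹ := by simp [gphi]

lemma gphi_le_zero (t : ℝ) : gphi t ≤ gphi 0 := by
  rw [gphi_zero, gphi]
  have h : Real.exp (-t ^ 2 / 2) ≤ 1 := Real.exp_le_one_iff.2 (by nlinarith [sq_nonneg t])
  have := Real.pi_pos
  exact mul_le_of_le_one_right (by positivity) h

lemma gphi_zero_sq : gphi 0 ^ 2 = 1 / (2 * Real.pi) := by
  have := Real.pi_pos
  rw [gphi_zero, inv_pow, Real.sq_sqrt (by positivity), one_div]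

@[fun_prop] lemma continuous_gphi : Continuous gphi := by
  unfold gphi; fun_prop

@[fun_prop] lemma measurable_gphi : Measurable gphi := continuous_gphi.measurable

lemma hasDerivAt_gphi (t : ℝ) : HasDerivAt gphi (-t * gphi t) t := by
  have h1 : HasDerivAt (fun t : ℝ => -t ^ 2 / 2) (-t) t := by
    exact (((hasDerivAt_pow 2 t).neg).div_const 2).congr_deriv (by simp; ring)
  exact ((h1.exp).const_mul (√(2 * Real.pi))⁻¹).congr_deriv (by unfold gphi; ring)

lemma integrable_gphi : Integrable gphi := by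
  have : gphi = gaussianPDFReal 0 1 := funext gphi_eq_pdf
  rw [this]; exact integrable_gaussianPDFReal 0 1

lemma tendsto_gphi_atTop : Tendsto gphi atTop (𝓝 0) := by
  have h1 : Tendsto (fun t : ℝ => -t ^ 2 / 2) atTop atBot :=
    (tendsto_neg_atTop_atBot.comp (tendsto_pow_atTop two_ne_zero)).atBot_div_const two_pos
  have := (Real.tendsto_exp_atBot.comp h1).const_mul (√(2 * Real.pi))⁻¹
  rw [mul_zero] at this
  exact this

lemma tendsto_gphi_atBot : Tendsto gphi atBot (𝓝 0) := by
  have := tendsto_gphi_atTop.comp tendsto_neg_atBot_atTop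
  refine this.congr fun t => ?_
  simp [gphi_neg]

lemma g1_eq_withDensity : g1 = volume.withDensity fun t => ENNReal.ofReal (gphi t) := by
  rw [g1, gaussianReal_of_var_ne_zero 0 one_ne_zero]
  congr 1
  ext t
  simp [gaussianPDF, gphi_eq_pdf]

lemma integral_g1 (f : ℝ → ℝ) : ∫ t, f t ∂g1 = ∫ t, gphi t * f t := by
  rw [g1, integral_gaussianReal_eq_integral_smul one_ne_zero]
  simp [gphi_eq_pdf]

lemma setIntegral_g1 (f : ℝ → ℝ) {s : Set ℝ} (hs : MeasurableSet s) :
    ∫ t in s, f t ∂g1 = ∫ t in s, gphi t * f t := by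
  rw [← integral_indicator hs, ← integral_indicator hs, integral_g1]
  congr 1
  ext t
  by_cases h : t ∈ s <;> simp [h]

lemma g1_real (s : Set ℝ) : g1.real s = ∫ t in s, gphi t := by
  rw [Measure.real, g1, gaussianReal_apply_eq_integral 0 one_ne_zero,
    ENNReal.toReal_ofReal (integral_nonneg fun t => gaussianPDFReal_nonneg 0 1 t)]
  simp [gphi_eq_pdf]

instance : NullSingletonClass g1 := nullSingletonClass_gaussianReal one_ne_zero

lemma g1_map_neg : g1.map (fun x => -x) = g1 := by
  simpa using gaussianReal_map_neg (μ := 0) (v := 1)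

lemma gPhi_eq_integral (t : ℝ) : gPhi t = ∫ x in Iic t, gphi x := g1_real _

lemma gPhi_sub (a b : ℝ) : gPhi b - gPhi a = ∫ x in a..b, gphi x := by
  rw [gPhi_eq_integral, gPhi_eq_integral]
  exact intervalIntegral.integral_Iic_sub_Iic integrable_gphi.integrableOn
    integrable_gphi.integrableOn

lemma hasDerivAt_gPhi (t : ℝ) : HasDerivAt gPhi (gphi t) t := by
  have h : gPhi = fun b => gPhi 0 + ∫ x in (0 : ℝ)..b, gphi x := by
    ext b; rw [← gPhi_sub]; ring
  rw [h]
  exact ((continuous_gphi.integral_hasStrictDerivAt 0 t).hasDerivAt).const_add _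

@[fun_prop] lemma continuous_gPhi : Continuous gPhi :=
  continuous_iff_continuousAt.2 fun t => (hasDerivAt_gPhi t).continuousAt

@[fun_prop] lemma measurable_gPhi : Measurable gPhi := continuous_gPhi.measurable

lemma strictMono_gPhi : StrictMono gPhi :=
  strictMono_of_hasDerivAt_pos hasDerivAt_gPhi gphi_pos

lemma gPhi_lt_iff {a b : ℝ} : gPhi a < gPhi b ↔ a < b := strictMono_gPhi.lt_iff_lt

lemma gPhi_le_iff {a b : ℝ} : gPhi a ≤ gPhi b ↔ a ≤ b := strictMono_gPhi.le_iff_le

lemma gPhi_nonneg (t : ℝ) : 0 ≤ gPhi t := measureReal_nonneg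

lemma gPhi_le_one (t : ℝ) : gPhi t ≤ 1 := measureReal_le_one

lemma gPhi_pos (t : ℝ) : 0 < gPhi t :=
  (gPhi_nonneg (t - 1)).trans_lt (strictMono_gPhi (by linarith))

lemma gPhi_lt_one (t : ℝ) : gPhi t < 1 :=
  (strictMono_gPhi (by linarith : t < t + 1)).trans_le (gPhi_le_one _)

lemma g1_real_Iic (t : ℝ) : g1.real (Iic t) = gPhi t := rfl

lemma g1_real_Iio (t : ℝ) : g1.real (Iio t) = gPhi t := by
  rw [gPhi, Measure.real, Measure.real, measure_congr Iio_ae_eq_Iic]

lemma g1_real_Ici (t : ℝ) : g1.real (Ici t) = gPhi (-t) := by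
  conv_lhs => rw [← g1_map_neg]
  rw [map_measureReal_apply (by fun_prop) measurableSet_Ici, gPhi]
  congr 1
  ext x
  simp

lemma g1_real_Ioi (t : ℝ) : g1.real (Ioi t) = gPhi (-t) := by
  rw [← g1_real_Ici, Measure.real, Measure.real, measure_congr Ioi_ae_eq_Ici]

lemma gPhi_neg (t : ℝ) : gPhi (-t) = 1 - gPhi t := by
  rw [← g1_real_Ioi, ← compl_Iic, probReal_compl_eq_one_sub measurableSet_Iic, gPhi]

lemma gPhi_zero : gPhi 0 = 1 / 2 := by
  have := gPhi_neg 0
  rw [neg_zero] at this
  linarith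

lemma g1_real_Ioc {a b : ℝ} (h : a ≤ b) : g1.real (Ioc a b) = gPhi b - gPhi a := by
  rw [gPhi_sub, intervalIntegral.integral_of_le h, g1_real]

lemma g1_real_Icc {a b : ℝ} (h : a ≤ b) : g1.real (Icc a b) = gPhi b - gPhi a := by
  rw [← g1_real_Ioc h, Measure.real, Measure.real, measure_congr Ioc_ae_eq_Icc]

lemma g1_real_Ioo {a b : ℝ} (h : a ≤ b) : g1.real (Ioo a b) = gPhi b - gPhi a := by
  rw [← g1_real_Ioc h, Measure.real, Measure.real, measure_congr Ioo_ae_eq_Ioc]

lemma tendsto_gPhi_atBot : Tendsto gPhi atBot (𝓝 0) := by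
  have := tendsto_cdf_atBot g1
  refine this.congr fun t => ?_
  rw [cdf_eq_real]; rfl

lemma tendsto_gPhi_atTop : Tendsto gPhi atTop (𝓝 1) := by
  have := tendsto_cdf_atTop g1
  refine this.congr fun t => ?_
  rw [cdf_eq_real]; rfl

lemma exists_gPhi_eq {p : ℝ} (h0 : 0 < p) (h1 : p < 1) : ∃ a, gPhi a = p := by
  obtain ⟨a, ha⟩ := (tendsto_gPhi_atBot.eventually (gt_mem_nhds h0)).exists
  obtain ⟨b, hb⟩ := (tendsto_gPhi_atTop.eventually (lt_mem_nhds h1)).exists
  exact intermediate_value_univ a b continuous_gPhi ⟨ha.le, hb.le⟩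

/-- `Φ` is Lipschitz with constant `φ(0)`. -/
lemma gPhi_sub_le {a b : ℝ} (h : a ≤ b) : gPhi b - gPhi a ≤ gphi 0 * (b - a) := by
  rw [gPhi_sub]
  have := intervalIntegral.integral_mono_on h (continuous_gphi.intervalIntegrable a b)
    (continuous_const.intervalIntegrable (μ := volume) a b) (fun x _ => gphi_le_zero x)
  simpa [mul_comm] using this

/-- Lower Mills-ratio bound. -/
lemma mills (u : ℝ) : u * gphi u < (1 + u ^ 2) * gPhi (-u) := by
  let q : ℝ → ℝ := fun u => gPhi (-u) - u * gphi u / (1 + u ^ 2)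
  have hd : ∀ u, HasDerivAt q (-(2 * gphi u / (1 + u ^ 2) ^ 2)) u := by
    intro u
    have h1 : HasDerivAt (fun u => gPhi (-u)) (gphi (-u) * (-1)) u :=
      (hasDerivAt_gPhi (-u)).comp u (hasDerivAt_neg u)
    have h2 : HasDerivAt (fun u => u * gphi u) (1 * gphi u + u * (-u * gphi u)) u :=
      (hasDerivAt_id u).mul (hasDerivAt_gphi u)
    have h3 : HasDerivAt (fun u : ℝ => 1 + u ^ 2) (2 * u) u := by
      simpa using (hasDerivAt_pow 2 u).const_add 1
    have hne : (1 + u ^ 2) ≠ 0 := by positivity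
    refine (h1.sub (h2.div h3 hne)).congr_deriv ?_
    rw [gphi_neg]
    field_simp
    ring
  have hanti : StrictAnti q := strictAnti_of_hasDerivAt_neg hd fun u => by
    have := gphi_pos u
    have : 0 < 2 * gphi u / (1 + u ^ 2) ^ 2 := by positivity
    linarith
  have hlim : Tendsto q atTop (𝓝 0) := by
    have h1 : Tendsto (fun u => gPhi (-u)) atTop (𝓝 0) :=
      tendsto_gPhi_atBot.comp tendsto_neg_atTop_atBot
    have h2 : Tendsto (fun u => u * gphi u / (1 + u ^ 2)) atTop (𝓝 0) := by
      refine squeeze_zero_norm (fun u => ?_) tendsto_gphi_atTop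
      have hp := gphi_pos u
      rw [Real.norm_eq_abs, abs_div, abs_mul, abs_of_pos hp, abs_of_pos (by positivity : (0:ℝ) < 1 + u ^ 2),
        div_le_iff₀ (by positivity)]
      have : |u| ≤ 1 + u ^ 2 := by
        rw [← sq_abs]; nlinarith [sq_nonneg (|u| - 1)]
      nlinarith
    simpa using h1.sub h2
  have hq : 0 ≤ q (u + 1) := hanti.antitone.le_of_tendsto hlim _
  have : q (u + 1) < q u := hanti (by linarith)
  have hq' : 0 < q u := by linarith
  simp only [q] at hq'
  have h2 : u * gphi u / (1 + u ^ 2) < gPhi (-u) := by linarith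
  rw [div_lt_iff₀ (by positivity)] at h2
  linarith

lemma integrable_id_g1 : Integrable (fun x : ℝ => x) g1 := IsGaussian.integrable_id

lemma integral_Ioi_mul_gphi (t : ℝ) : ∫ x in Ioi t, gphi x * x = gphi t := by
  have hint : Integrable fun x => gphi x * x := by
    have := integrable_id_g1
    rw [g1_eq_withDensity, integrable_withDensity_iff_integrable_smul' (by fun_prop)
      (by simp)] at this
    refine this.congr (Eventually.of_forall fun x => ?_)
    simp [ENNReal.toReal_ofReal (gphi_pos x).le]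
  have h := integral_Ioi_of_hasDerivAt_of_tendsto' (f := fun x => -gphi x)
    (f' := fun x => gphi x * x) (a := t) (m := 0)
    (fun x _ => (hasDerivAt_gphi x).neg.congr_deriv (by ring))
    hint.integrableOn (by simpa using tendsto_gphi_atTop.neg)
  simpa using h

/-- `∫_{x>t} x dγ = φ(t)`. -/
lemma setIntegral_Ioi_id (t : ℝ) : ∫ x in Ioi t, x ∂g1 = gphi t := by
  rw [setIntegral_g1 _ measurableSet_Ioi, integral_Ioi_mul_gphi]

/-- `E (X + a)_+ = φ(a) + a Φ(a)`. -/
lemma integral_posPart (a : ℝ) : ∫ x, max 0 (x + a) ∂g1 = gphi a + a * gPhi a := by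
  have h : (fun x : ℝ => max 0 (x + a)) = (Ioi (-a)).indicator fun x => x + a := by
    ext x
    by_cases hx : x ∈ Ioi (-a)
    · rw [indicator_of_mem hx, max_eq_right]; simp at hx; linarith
    · rw [indicator_of_notMem hx, max_eq_left]; simp at hx; linarith
  rw [h, integral_indicator measurableSet_Ioi, integral_add integrable_id_g1.integrableOn
    (integrable_const a), setIntegral_Ioi_id, gphi_neg]
  simp [g1_real_Ioi, mul_comm]

lemma gphi_add_mul_pos (a : ℝ) : 0 < gphi a + a * gPhi a := by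
  rcases le_or_gt 0 a with h | h
  · have := gphi_pos a
    have := gPhi_pos a
    positivity
  · have h1 : gPhi a = g1.real (Ioi (-a)) := by rw [g1_real_Ioi, neg_neg]
    have h2 := integral_posPart a
    have h3 := integral_posPart (a - 1)
    have h4 : 0 ≤ ∫ x, max 0 (x + (a - 1)) ∂g1 := integral_nonneg fun x => le_max_left _ _
    have hd : ∀ b, HasDerivAt (fun b => gphi b + b * gPhi b) (gPhi b) b := by
      intro b
      exact ((hasDerivAt_gphi b).add ((hasDerivAt_id b).mul (hasDerivAt_gPhi b))).congr_deriv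
        (by simp)
    have := strictMono_of_hasDerivAt_pos hd gPhi_pos (by linarith : a - 1 < a)
    simp only at this
    linarith

lemma hfun_pos (a : ℝ) : 0 < hfun a := mul_pos (gphi_pos a) (gphi_add_mul_pos a)

lemma c0_pos : 0 < c0 := by unfold c0; have := Real.pi_pos; positivity

lemma c0_gt : (0.35809 : ℝ) < c0 := by
  unfold c0
  have := Real.pi_lt_d6
  have := Real.pi_pos
  rw [lt_div_iff₀ (by positivity)]
  linarith

lemma c0_lt : c0 < (0.3581 : ℝ) := by
  unfold c0
  have := Real.pi_gt_d6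
  have := Real.pi_pos
  rw [div_lt_iff₀ (by positivity)]
  linarith

/-! ### The standard Gaussian on a Euclidean space -/

section Gauss

variable {E : Type u} [NormedAddCommGroup E] [InnerProductSpace ℝ E] [FiniteDimensional ℝ E]
  [MeasurableSpace E] [BorelSpace E]

lemma integrable_id_std : Integrable (fun x : E => x) (stdGaussian E) := IsGaussian.integrable_id

lemma integrable_inner_std (a : E) : Integrable (fun x : E => ⟪a, x⟫) (stdGaussian E) :=
  integrable_id_std.const_inner a

lemma std_map_neg : (stdGaussian E).map (fun x => -x) = stdGaussian E :=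
  stdGaussian_map (LinearIsometryEquiv.neg ℝ (E := E))

/-- Orthonormal coordinates of a standard Gaussian vector are i.i.d. standard normal. -/
lemma map_orthonormal {ι : Type*} [Fintype ι] {e : ι → E} (he : Orthonormal ℝ e) :
    (stdGaussian E).map (fun x i => ⟪e i, x⟫) = Measure.pi fun _ : ι => g1 := by
  classical
  have hm : Measurable (fun (x : E) (i : ι) => ⟪e i, x⟫) := by fun_prop
  have h1 : ((stdGaussian E).map (fun x i => ⟪e i, x⟫)).map (WithLp.toLp 2) =
      stdGaussian (EuclideanSpace ℝ ι) := by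
    rw [Measure.map_map (by fun_prop) hm]
    have : IsProbabilityMeasure ((stdGaussian E).map
        ((WithLp.toLp 2 : (ι → ℝ) → EuclideanSpace ℝ ι) ∘ fun x i => ⟪e i, x⟫)) :=
      Measure.isProbabilityMeasure_map (by fun_prop)
    apply Measure.ext_of_charFun
    ext t
    rw [charFun_apply, integral_map (by fun_prop) (Measurable.aestronglyMeasurable (by fun_prop)),
      charFun_stdGaussian]
    have h2 : ∀ x : E, (⟪((WithLp.toLp 2 : (ι → ℝ) → EuclideanSpace ℝ ι) ∘ fun x i => ⟪e i, x⟫) x, t⟫ : ℝ)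
        = ⟪x, ∑ i, t i • e i⟫ := by
      intro x
      simp [PiLp.inner_apply, inner_sum, real_inner_smul_right, real_inner_comm x]
    simp_rw [h2]
    rw [← charFun_apply, charFun_stdGaussian]
    have h3 : ‖∑ i, t i • e i‖ ^ 2 = ‖t‖ ^ 2 := by
      rw [← real_inner_self_eq_norm_sq, he.inner_sum, EuclideanSpace.real_norm_sq_eq]
      simp [sq]
    have h4 : ((‖∑ i, t i • e i‖ : ℝ) : ℂ) ^ 2 = (‖t‖ : ℂ) ^ 2 := by exact_mod_cast h3
    rw [h4]
  rw [← map_pi_eq_stdGaussian] at h1
  exact (MeasurableEquiv.toLp 2 (ι → ℝ)).measurableEmbedding.map_injective h1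

/-- A unit linear functional of a standard Gaussian vector is standard normal. -/
lemma map_inner_unit {u : E} (hu : ‖u‖ = 1) : (stdGaussian E).map (fun x => ⟪u, x⟫) = g1 := by
  have he : Orthonormal ℝ (fun _ : Unit => u) := by
    simp [orthonormal_subsingleton_iff, hu]
  have h := map_orthonormal he
  have h2 := (measurePreserving_eval (fun _ : Unit => g1) ()).map_eq
  rw [← h, Measure.map_map (by fun_prop) (by fun_prop)] at h2
  exact h2

lemma measurePreserving_inner_unit {u : E} (hu : ‖u‖ = 1) :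
    MeasurePreserving (fun x => ⟪u, x⟫) (stdGaussian E) g1 :=
  ⟨by fun_prop, map_inner_unit hu⟩

lemma std_real_halfspace {a : E} (ha : a ≠ 0) (t : ℝ) :
    (stdGaussian E).real {x | t < ⟪a, x⟫} = gPhi (-(t / ‖a‖)) := by
  have hn : 0 < ‖a‖ := norm_pos_iff.2 ha
  have hu : ‖(‖a‖⁻¹ : ℝ) • a‖ = 1 := by rw [norm_smul, norm_inv, norm_norm]; field_simp
  rw [← g1_real_Ioi, ← map_inner_unit hu, map_measureReal_apply (by fun_prop) measurableSet_Ioi]
  congr 1
  ext x
  simp only [mem_ofPred_eq, mem_preimage, mem_Ioi, real_inner_smul_left]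
  rw [div_lt_iff₀ hn, mul_comm, ← mul_assoc, mul_inv_cancel₀ hn.ne', one_mul]

lemma std_hyperplane {a : E} (ha : a ≠ 0) (t : ℝ) : stdGaussian E {x | ⟪a, x⟫ = t} = 0 := by
  have hn : 0 < ‖a‖ := norm_pos_iff.2 ha
  have hu : ‖(‖a‖⁻¹ : ℝ) • a‖ = 1 := by rw [norm_smul, norm_inv, norm_norm]; field_simp
  have h := (measurePreserving_inner_unit hu).measure_preimage
    (measurableSet_singleton (‖a‖⁻¹ * t)).nullMeasurableSet
  rw [measure_singleton] at h
  refine measure_mono_null (fun x hx => ?_) h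
  simp only [mem_ofPred_eq] at hx
  simp [real_inner_smul_left, hx]

/-- `E |⟪a, X⟫| = 2 φ(0) ‖a‖`. -/
lemma integral_abs_inner (a : E) : ∫ x, |⟪a, x⟫| ∂(stdGaussian E) = 2 * gphi 0 * ‖a‖ := by
  rcases eq_or_ne a 0 with rfl | ha
  · simp
  have hn : 0 < ‖a‖ := norm_pos_iff.2 ha
  have hu : ‖(‖a‖⁻¹ : ℝ) • a‖ = 1 := by rw [norm_smul, norm_inv, norm_norm]; field_simp
  have h1 : ∫ t, |t| ∂g1 = 2 * gphi 0 := by
    have h2 : ∀ t : ℝ, |t| = 2 * max 0 (t + 0) - t := by
      intro t
      rcases le_total 0 t with h | h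
      · rw [abs_of_nonneg h, add_zero, max_eq_right h]; ring
      · rw [abs_of_nonpos h, add_zero, max_eq_left h]; ring
    simp_rw [h2]
    have hi : Integrable (fun t : ℝ => max 0 (t + 0)) g1 :=
      (integrable_const (0 : ℝ)).sup (integrable_id_g1.add (integrable_const 0))
    rw [integral_sub (hi.const_mul 2) integrable_id_g1, integral_const_mul, integral_posPart]
    simp [g1]
  rw [← h1, ← map_inner_unit hu, integral_map (by fun_prop) (by fun_prop), ← integral_mul_const]
  congr 1
  ext x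
  rw [real_inner_smul_left, abs_mul, abs_inv, abs_norm]
  field_simp

end Gauss

/-! ### Cells and configurations -/

section Conf

variable {E : Type u} [NormedAddCommGroup E] [InnerProductSpace ℝ E]
  {ι : Type} [Fintype ι] {z : ι → E}

omit [Fintype ι] in
lemma convex_cell (z : ι → E) (i : ι) : Convex ℝ (cell z i) := by
  intro x hx y hy a b ha hb hab j hj
  have h1 := hx j hj
  have h2 := hy j hj
  rw [inner_add_right, real_inner_smul_right, real_inner_smul_right]
  rcases ha.eq_or_lt with rfl | ha'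
  · have : b = 1 := by linarith
    subst this; simpa using h2
  · positivity

lemma isOpen_cell (z : ι → E) (i : ι) : IsOpen (cell z i) := by
  have : cell z i = ⋂ j : {j // j ≠ i}, {x | 0 < ⟪z i - z j.1, x⟫} := by
    ext x; simp [cell]
  rw [this]
  exact isOpen_iInter_of_finite fun j => isOpen_lt continuous_const (by fun_prop)

lemma measurableSet_cell [MeasurableSpace E] [BorelSpace E] (z : ι → E) (i : ι) :
    MeasurableSet (cell z i) := (isOpen_cell z i).measurableSet

/-- The only linear relations among the `z j` are multiples of `∑ z j = 0`. -/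
lemma kernel_const (hs : ∑ i, z i = 0) (hneg : ∀ i j, i ≠ j → ⟪z i, z j⟫ < 0) (a : ι → ℝ)
    (ha : ∑ j, a j • z j = 0) (j l : ι) : a j = a l := by
  classical
  obtain ⟨m, -, hm⟩ := Finset.exists_max_image Finset.univ a ⟨j, Finset.mem_univ _⟩
  have h0 : ∑ j, (a j - a m) * ⟪z m, z j⟫ = 0 := by
    have : ∑ j, (a j - a m) * ⟪z m, z j⟫ = ⟪z m, ∑ j, a j • z j - a m • ∑ j, z j⟫ := by
      simp only [inner_sub_right, inner_sum, real_inner_smul_right, Finset.mul_sum,
        ← Finset.sum_sub_distrib, sub_mul]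
    rw [this, ha, hs]; simp
  have hnn : ∀ j ∈ Finset.univ, 0 ≤ (a j - a m) * ⟪z m, z j⟫ := by
    intro j _
    rcases eq_or_ne m j with rfl | h
    · simp
    · exact mul_nonneg_of_nonpos_of_nonpos (sub_nonpos.2 (hm j (Finset.mem_univ _))) (hneg m j h).le
  have hz := (Finset.sum_eq_zero_iff_of_nonneg hnn).1 h0
  have key : ∀ j, a j = a m := by
    intro j
    rcases eq_or_ne m j with rfl | h
    · rfl
    · have := hz j (Finset.mem_univ _)
      rcases mul_eq_zero.1 this with h1 | h1
      · linarith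
      · exact absurd h1 (hneg m j h).ne
  rw [key j, key l]

/-- The normals `z i - z j` (`j ≠ i`) of a cell are linearly independent. -/
lemma linearIndependent_normals (hs : ∑ i, z i = 0) (hneg : ∀ i j, i ≠ j → ⟪z i, z j⟫ < 0)
    (i : ι) : LinearIndependent ℝ (fun j : {j // j ≠ i} => z i - z j.1) := by
  classical
  rw [Fintype.linearIndependent_iff]
  intro g hg j
  let a : ι → ℝ := fun l => if h : l = i then ∑ j, g j else -g ⟨l, h⟩
  have ha : ∑ l, a l • z l = 0 := by
    rw [Fintype.sum_eq_add_sum_subtype_ne _ i, ← hg]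
    have h1 : a i = ∑ j, g j := by simp [a]
    have h2 : ∀ l : {j // j ≠ i}, a l.1 = -g l := fun l => by simp [a, l.2]
    simp only [h1, h2, smul_sub, Finset.sum_sub_distrib, Finset.sum_smul, neg_smul,
      Finset.sum_neg_distrib]
    rw [sub_eq_add_neg]
  have hk : ∀ l : {j // j ≠ i}, g l = -∑ j, g j := by
    intro l
    have := kernel_const hs hneg a ha l.1 i
    simp only [a, dif_neg l.2, dif_pos] at this
    linarith
  have hsum : ∑ j, g j = (Fintype.card {j // j ≠ i} : ℝ) * (-∑ j, g j) := by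
    conv_lhs => rw [Finset.sum_congr rfl fun l _ => hk l]
    simp
  have : ∑ j, g j = 0 := by
    have h0 : (0 : ℝ) ≤ Fintype.card {j // j ≠ i} := Nat.cast_nonneg _
    have : (1 + (Fintype.card {j // j ≠ i} : ℝ)) * ∑ j, g j = 0 := by linarith
    rcases mul_eq_zero.1 this with h | h
    · linarith
    · exact h
  rw [hk j, this, neg_zero]

omit [Fintype ι] in
lemma sub_ne_zero_of_neg (hneg : ∀ i j, i ≠ j → ⟪z i, z j⟫ < 0) {i j : ι} (h : i ≠ j) :
    z i - z j ≠ 0 := by
  intro h0
  have h1 := hneg i j h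
  rw [sub_eq_zero.1 h0] at h1
  exact absurd h1 (not_lt.2 real_inner_self_nonneg)

variable [FiniteDimensional ℝ E] [MeasurableSpace E] [BorelSpace E]

lemma Config.exists_ne (h : Config z) (i : ι) : ∃ j, j ≠ i :=
  Fintype.exists_ne_of_one_lt_card (by have := h.card; omega) i

lemma Config.ne_zero (h : Config z) (i : ι) : z i ≠ 0 := by
  obtain ⟨j, hj⟩ := h.exists_ne i
  intro h0
  have := h.neg i j hj.symm
  simp [h0] at this

lemma Config.p_le_half (h : Config z) (i : ι) : (stdGaussian E).real (cell z i) ≤ 1 / 2 := by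
  obtain ⟨j, hj⟩ := h.exists_ne i
  have h1 := std_real_halfspace (sub_ne_zero_of_neg h.neg hj.symm) 0
  rw [zero_div, neg_zero, gPhi_zero] at h1
  rw [← h1]
  exact measureReal_mono fun x hx => hx j hj

lemma Config.p_pos (h : Config z) (i : ι) : 0 < (stdGaussian E).real (cell z i) := by
  refine measureReal_nonneg.lt_of_ne fun h0 => h.ne_zero i ?_
  rw [← h.moment i]
  have : stdGaussian E (cell z i) = 0 := (measureReal_eq_zero_iff).1 h0.symm
  rw [Measure.restrict_eq_zero.2 this, integral_zero_measure]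

end Conf

end Crest.Agent.R215
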