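import Crest.Agent.R215.Disc

/-! Row 215, subtask C: the first moment of a three-dimensional cone. -/

set_option autoImplicit false
set_option linter.unusedSectionVars false
set_option linter.unusedVariables false

namespace Crest.Agent.R215

open MeasureTheory ProbabilityTheory Set Filter Topology
open scoped RealInnerProductSpace Real

universe u

namespace Cap

/-- The standard Gaussian measure on `ℝ × ℝ × ℝ`. -/
noncomputable abbrev g3 : Measure (ℝ × ℝ × ℝ) := g1.prod (g1.prod g1)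

/-- The Euclidean norm. -/
noncomputable def N (q : ℝ × ℝ × ℝ) : ℝ := √(q.1 ^ 2 + (q.2.1 ^ 2 + q.2.2 ^ 2))

@[fun_prop] lemma measurable_N : Measurable N := by
  unfold N
  fun_prop

lemma N_smul {r : ℝ} (hr : 0 ≤ r) (q : ℝ × ℝ × ℝ) : N (r • q) = r * N q := by
  unfold N
  rw [← Real.sqrt_sq hr, ← Real.sqrt_mul (sq_nonneg _), Real.sqrt_sq hr]
  congr 1
  simp only [Prod.smul_fst, Prod.smul_snd, smul_eq_mul]
  ring

/-- Coordinates on `EuclideanSpace ℝ (Fin 3)`. -/
def T (x : EuclideanSpace ℝ (Fin 3)) : ℝ × ℝ × ℝ := (x 0, x 1, x 2)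

lemma T_vol : MeasurePreserving T volume volume :=
  ((MeasurePreserving.id volume).prod (volume_preserving_finTwoArrow ℝ)).comp
    ((volume_preserving_piFinSuccAbove (fun _ : Fin 3 => ℝ) 0).comp
      (PiLp.volume_preserving_ofLp (Fin 3)))

lemma N_T (x : EuclideanSpace ℝ (Fin 3)) : N (T x) = ‖x‖ := by
  rw [EuclideanSpace.norm_eq, Fin.sum_univ_three, N]
  simp [T, add_assoc]

lemma integral_g3 (h : ℝ × ℝ × ℝ → ℝ) :
    ∫ q, h q ∂g3 = ∫ q, gphi 0 ^ 2 * gphi (N q) * h q := by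
  have hm : Measurable fun t => ENNReal.ofReal (gphi t) := measurable_gphi.ennreal_ofReal
  have h0 : ∀ t, ENNReal.ofReal (gphi t) ≠ ⊤ := fun _ => ENNReal.ofReal_ne_top
  rw [g3, g1_eq_withDensity, prod_withDensity hm hm, prod_withDensity hm (by fun_prop),
    integral_withDensity_eq_integral_toReal_smul (by fun_prop) (ae_of_all _ fun q =>
      (ENNReal.mul_ne_top (h0 _) (ENNReal.mul_ne_top (h0 _) (h0 _))).lt_top)]
  refine integral_congr_ae (ae_of_all _ fun q => ?_)
  simp only [ENNReal.toReal_mul, ENNReal.toReal_ofReal (gphi_pos _).le, smul_eq_mul]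
  congr 1
  rw [gphi_zero, gphi, gphi, gphi, gphi, N, Real.sq_sqrt (by positivity),
    show -(q.1 ^ 2 + (q.2.1 ^ 2 + q.2.2 ^ 2)) / 2 =
      -q.1 ^ 2 / 2 + (-q.2.1 ^ 2 / 2 + -q.2.2 ^ 2 / 2) by ring, Real.exp_add, Real.exp_add]
  ring

lemma radial : ∃ I : (ℝ → ℝ) → ℝ, ∀ B : Set (ℝ × ℝ × ℝ), MeasurableSet B →
    (∀ r : ℝ, 0 < r → ∀ q, r • q ∈ B ↔ q ∈ B) → ∃ σ : ℝ, ∀ f : ℝ → ℝ, Measurable f →
      ∫ q in B, f (N q) ∂g3 = σ * I f := by
  refine ⟨fun f => ∫ y : Ioi (0 : ℝ), gphi 0 ^ 2 * gphi y * f y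
    ∂Measure.volumeIoiPow (Module.finrank ℝ (EuclideanSpace ℝ (Fin 3)) - 1), fun B hB hc =>
    ⟨∫ θ : Metric.sphere (0 : EuclideanSpace ℝ (Fin 3)) 1, B.indicator 1 (T θ)
      ∂(volume : Measure (EuclideanSpace ℝ (Fin 3))).toSphere, fun f hf => ?_⟩⟩
  have hm : Measurable fun q => gphi 0 ^ 2 * gphi (N q) * B.indicator (fun q => f (N q)) q :=
    Measurable.mul (by fun_prop) (Measurable.indicator (by fun_prop) hB)
  have key : ∀ g : EuclideanSpace ℝ (Fin 3) → ℝ, ∫ x, g x =
      ∫ x : ({0}ᶜ : Set (EuclideanSpace ℝ (Fin 3))), g x ∂(volume.comap Subtype.val) := fun g => by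
    rw [integral_subtype_comap (measurableSet_singleton _).compl, restrict_compl_singleton]
  rw [← integral_indicator hB, integral_g3, ← T_vol.map_eq,
    integral_map T_vol.measurable.aemeasurable hm.aestronglyMeasurable, ← integral_prod_mul,
    ← (Measure.measurePreserving_homeomorphUnitSphereProd volume).integral_comp
      (Homeomorph.measurableEmbedding _), key]
  refine integral_congr_ae (ae_of_all _ fun x => ?_)
  have hx : 0 < ‖x.1‖ := norm_pos_iff.2 x.2
  have h1 : T (‖x.1‖⁻¹ • x.1) ∈ B ↔ T x.1 ∈ B := hc _ (inv_pos.2 hx) (T x.1)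
  by_cases h : T x.1 ∈ B
  · simp [N_T, h, h1]
  · simp [h, h1]

lemma integral_N_eq {B R : Set (ℝ × ℝ × ℝ)} (hB : MeasurableSet B) (hR : MeasurableSet R)
    (hBc : ∀ r : ℝ, 0 < r → ∀ q, r • q ∈ B ↔ q ∈ B) (hRc : ∀ r : ℝ, 0 < r → ∀ q, r • q ∈ R ↔ q ∈ R)
    (h : g3.real B = g3.real R) : ∫ q in B, N q ∂g3 = ∫ q in R, N q ∂g3 := by
  obtain ⟨I, hI⟩ := radial
  obtain ⟨σ₁, h₁⟩ := hI B hB hBc
  obtain ⟨σ₂, h₂⟩ := hI R hR hRc
  obtain ⟨σ₃, h₃⟩ := hI univ .univ (by simp)
  have e₁ := h₁ (fun _ => 1) measurable_const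
  have e₂ := h₂ (fun _ => 1) measurable_const
  have e₃ := h₃ (fun _ => 1) measurable_const
  simp only [integral_const, MeasurableSet.univ, measureReal_restrict_apply, univ_inter,
    smul_eq_mul, mul_one, probReal_univ] at e₁ e₂ e₃
  have e₄ : σ₁ = σ₂ := mul_right_cancel₀ (right_ne_zero_of_mul_eq_one e₃.symm) (by linarith)
  exact (h₁ id measurable_id).trans (e₄ ▸ (h₂ id measurable_id).symm)

lemma integrable_fst : Integrable (fun q : ℝ × ℝ × ℝ => q.1) g3 :=
  integrable_id_g1.comp_fst _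

lemma integrable_N : Integrable N g3 := by
  have h2 : Integrable (fun q : ℝ × ℝ × ℝ => q.2.1) g3 := (integrable_id_g1.comp_fst _).comp_snd _
  have h3 : Integrable (fun q : ℝ × ℝ × ℝ => q.2.2) g3 := (integrable_id_g1.comp_snd _).comp_snd _
  refine Integrable.mono' ((integrable_fst.abs.add h2.abs).add h3.abs)
    measurable_N.aestronglyMeasurable (ae_of_all _ fun q => ?_)
  rw [Real.norm_eq_abs, N, abs_of_nonneg (Real.sqrt_nonneg _)]
  simp only [Pi.add_apply]
  refine Real.sqrt_le_iff.2 ⟨by positivity, ?_⟩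
  rw [← sq_abs q.1, ← sq_abs q.2.1, ← sq_abs q.2.2]
  nlinarith [mul_nonneg (abs_nonneg q.1) (abs_nonneg q.2.1),
    mul_nonneg (abs_nonneg q.1) (abs_nonneg q.2.2), mul_nonneg (abs_nonneg q.2.1) (abs_nonneg q.2.2)]

lemma integral_round {c : ℝ} (hc : 0 < c) (hc1 : c ≤ 1) {h : ℝ → ℝ} (hh : Integrable h g1) :
    ∫ q in {q | c * N q ≤ q.1}, h q.1 ∂g3 =
      ∫ s in Ioi (0 : ℝ), (gphi s - gphi (s * c⁻¹)) * h s := by
  have hR : MeasurableSet {q | c * N q ≤ q.1} := measurableSet_le (by fun_prop) (by fun_prop)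
  rw [← integral_indicator hR, integral_prod _ ((hh.comp_fst _).indicator hR), integral_g1,
    ← integral_Ici_eq_integral_Ioi, ← integral_indicator measurableSet_Ici]
  refine integral_congr_ae (ae_of_all _ fun s => ?_)
  by_cases hs : 0 ≤ s
  · have h1 : 0 ≤ (s * c⁻¹) ^ 2 - s ^ 2 := by
      have : s ≤ s * c⁻¹ := le_mul_of_one_le_right hs ((one_le_inv₀ hc).2 hc1)
      nlinarith
    have h2 : (fun z : ℝ × ℝ => {q | c * N q ≤ q.1}.indicator (fun q : ℝ × ℝ × ℝ => h q.1) (s, z)) =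
        {z : ℝ × ℝ | z.1 ^ 2 + z.2 ^ 2 ≤ (s * c⁻¹) ^ 2 - s ^ 2}.indicator fun _ => h s := by
      ext z
      have : c * N (s, z) ≤ s ↔ z.1 ^ 2 + z.2 ^ 2 ≤ (s * c⁻¹) ^ 2 - s ^ 2 := by
        rw [mul_comm, ← le_mul_inv_iff₀ hc, N, Real.sqrt_le_left (by positivity),
          le_sub_iff_add_le']
      simp only [indicator, mem_ofPred_eq, this]
    simp only
    rw [h2, integral_indicator (measurableSet_le (by fun_prop) measurable_const),
      setIntegral_const, g2_disc _ h1, indicator_of_mem (mem_Ici.2 hs), gphi, gphi,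
      show -(s * c⁻¹) ^ 2 / 2 = -s ^ 2 / 2 + -((s * c⁻¹) ^ 2 - s ^ 2) / 2 by ring, Real.exp_add,
      smul_eq_mul]
    ring
  · have h2 : (fun z : ℝ × ℝ => {q | c * N q ≤ q.1}.indicator (fun q : ℝ × ℝ × ℝ => h q.1) (s, z)) =
        fun _ => 0 := by
      ext z
      exact indicator_of_notMem (fun h' => hs (le_trans (mul_nonneg hc.le (Real.sqrt_nonneg _)) h')) _
    simp only
    rw [h2, indicator_of_notMem (by simpa using hs)]
    simp

lemma integrable_gphi_mul : Integrable fun x => gphi x * x := by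
  have := integrable_id_g1
  rw [g1_eq_withDensity, integrable_withDensity_iff_integrable_smul' (by fun_prop)
    (ae_of_all _ fun _ => ENNReal.ofReal_lt_top)] at this
  simpa only [ENNReal.toReal_ofReal (gphi_pos _).le, smul_eq_mul] using this

lemma cone_le {B : Set (ℝ × ℝ × ℝ)} (hB : MeasurableSet B)
    (hBc : ∀ r : ℝ, 0 < r → ∀ q, r • q ∈ B ↔ q ∈ B) (h0 : 0 < g3.real B) (h1 : g3.real B ≤ 1 / 2) :
    ∫ q in B, q.1 ∂g3 ≤ (1 - (1 - 2 * g3.real B) ^ 2) * gphi 0 := by
  set c := 1 - 2 * g3.real B with hc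
  rcases (show 0 ≤ c by linarith).eq_or_lt with hc0 | hc0
  · have h2 : Integrable (fun q : ℝ × ℝ × ℝ => max 0 (q.1 + 0)) g3 := by
      simpa only [add_zero, max_comm] using integrable_fst.pos_part
    refine (integral_mono integrable_fst.integrableOn h2.integrableOn fun q => by simp).trans
      ((setIntegral_le_integral h2 (ae_of_all _ fun q => le_max_left _ _)).trans (le_of_eq ?_))
    rw [integral_fun_fst (fun x : ℝ => max 0 (x + 0)), integral_posPart, ← hc0]
    simp
  have hc1 : c ≤ 1 := by linarith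
  set R := {q | c * N q ≤ q.1} with hR
  have hRm : MeasurableSet R := measurableSet_le (by fun_prop) (by fun_prop)
  have hRc : ∀ r : ℝ, 0 < r → ∀ q, r • q ∈ R ↔ q ∈ R := fun r hr q => by
    simp only [hR, mem_ofPred_eq, N_smul hr.le, Prod.smul_fst, smul_eq_mul, mul_left_comm c r]
    exact mul_le_mul_iff_right₀ hr
  have hci : 0 < c⁻¹ := inv_pos.2 hc0
  have e1 : g3.real R = g3.real B := by
    have := integral_round hc0 hc1 (integrable_const (1 : ℝ))
    simp only [integral_const, MeasurableSet.univ, measureReal_restrict_apply, univ_inter,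
      smul_eq_mul, mul_one] at this
    rw [hR, this, integral_sub integrable_gphi.integrableOn
      (integrable_gphi.comp_mul_right' hci.ne').integrableOn,
      integral_comp_mul_right_Ioi gphi 0 hci, zero_mul, ← g1_real, g1_real_Ioi, neg_zero, gPhi_zero,
      inv_inv, smul_eq_mul, hc]
    ring
  have e2 : ∫ q in R, q.1 ∂g3 = (1 - c ^ 2) * gphi 0 := by
    have h2 : ∀ s, (gphi s - gphi (s * c⁻¹)) * s =
        gphi s * s - c * (gphi (s * c⁻¹) * (s * c⁻¹)) := fun s => by
      field_simp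
    rw [hR, integral_round hc0 hc1 integrable_id_g1]
    simp only [h2]
    rw [integral_sub integrable_gphi_mul.integrableOn
      ((integrable_gphi_mul.comp_mul_right' hci.ne').const_mul c).integrableOn, integral_const_mul,
      integral_comp_mul_right_Ioi (fun x => gphi x * x) 0 hci, zero_mul, integral_Ioi_mul_gphi,
      inv_inv, smul_eq_mul]
    ring
  have e3 := integral_N_eq hB hRm hBc hRc e1.symm
  have i1 : Integrable (fun q => q.1 - c * N q) g3 := integrable_fst.sub (integrable_N.const_mul c)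
  have e4 : ∫ q in B, (q.1 - c * N q) ∂g3 ≤ ∫ q in R, (q.1 - c * N q) ∂g3 := by
    rw [← integral_indicator hB, ← integral_indicator hRm]
    refine integral_mono (i1.indicator hB) (i1.indicator hRm) fun q => ?_
    by_cases hq : q ∈ R
    · rw [indicator_of_mem hq]
      exact indicator_apply_le' (fun _ => le_rfl) fun _ => sub_nonneg.2 hq
    · rw [indicator_of_notMem hq]
      exact indicator_apply_le' (fun _ => (sub_neg.2 (not_le.1 hq)).le) fun _ => le_rfl
  rw [integral_sub integrable_fst.integrableOn (integrable_N.const_mul c).integrableOn,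
    integral_sub integrable_fst.integrableOn (integrable_N.const_mul c).integrableOn,
    integral_const_mul, integral_const_mul, e3, e2] at e4
  linarith

end Cap

theorem capStmt : CapStmt.{u} := by
  intro E _ _ _ _ _ ι _ z hz hcard i
  classical
  set n : {j // j ≠ i} → E := fun j => z i - z j.1 with hn
  set W := Submodule.span ℝ (range n) with hW
  have hrank : Module.finrank ℝ W = Fintype.card (Fin 3) := by
    rw [hW, finrank_span_eq_card (linearIndependent_normals hz.sum_zero hz.neg i)]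
    simp [hcard]
  have hnW : ∀ j, n j ∈ W := fun j => Submodule.subset_span ⟨j, rfl⟩
  have hzW : z i ∈ W := by
    have h1 : ∑ j, n j = (4 : ℝ) • z i := by
      have h2 := hz.sum_zero
      rw [← Finset.add_sum_erase _ _ (Finset.mem_univ i)] at h2
      rw [← Finset.sum_subtype (Finset.univ.erase i) (by simp) fun j => z i - z j,
        Finset.sum_sub_distrib, eq_neg_of_add_eq_zero_right h2, Finset.sum_const,
        Finset.card_erase_of_mem (Finset.mem_univ i), Finset.card_univ, hcard]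
      module
    exact (W.smul_mem_iff (by norm_num : (4 : ℝ) ≠ 0)).1 (h1 ▸ W.sum_mem fun j _ => hnW j)
  have hz0 : 0 < ‖z i‖ := norm_pos_iff.2 (hz.ne_zero i)
  set u : E := ‖z i‖⁻¹ • z i with hu
  have hu1 : ‖u‖ = 1 := by
    rw [hu, norm_smul, norm_inv, norm_norm, inv_mul_cancel₀ hz0.ne']
  obtain ⟨b, hb⟩ := Orthonormal.exists_orthonormalBasis_extension_of_card_eq hrank
    (v := fun _ => (⟨u, W.smul_mem _ hzW⟩ : W)) (s := {0}) (by
      rw [orthonormal_subsingleton_iff]
      intro _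
      exact hu1)
  have hb0 : (b 0 : E) = u := by rw [hb 0 rfl]
  have hon : Orthonormal ℝ ![(b 0 : E), b 1, b 2] := by
    have : ![(b 0 : E), b 1, b 2] = W.subtypeₗᵢ ∘ b := by
      ext l
      fin_cases l <;> rfl
    rw [this]
    exact W.subtypeₗᵢ.orthonormal_comp_iff.2 b.orthonormal
  have hmp := measurePreserving_triple hon
  set B : Set (ℝ × ℝ × ℝ) := {q | ∀ j, 0 < ⟪(b 0 : E), n j⟫ * q.1 + ⟪(b 1 : E), n j⟫ * q.2.1 +
    ⟪(b 2 : E), n j⟫ * q.2.2} with hB
  have hBm : MeasurableSet B := by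
    rw [hB, ofPred_forall]
    exact MeasurableSet.iInter fun j => measurableSet_lt measurable_const (by fun_prop)
  have hBc : ∀ r : ℝ, 0 < r → ∀ q, r • q ∈ B ↔ q ∈ B := fun r hr q => by
    simp only [hB, mem_ofPred_eq, Prod.smul_fst, Prod.smul_snd, smul_eq_mul, mul_left_comm _ r,
      ← mul_add, mul_pos_iff_of_pos_left hr]
  have hcell : cell z i = (fun x => (⟪(b 0 : E), x⟫, ⟪(b 1 : E), x⟫, ⟪(b 2 : E), x⟫)) ⁻¹' B := by
    have h1 : ∀ j x, ⟪n j, x⟫ = ⟪(b 0 : E), n j⟫ * ⟪(b 0 : E), x⟫ +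
        ⟪(b 1 : E), n j⟫ * ⟪(b 1 : E), x⟫ + ⟪(b 2 : E), n j⟫ * ⟪(b 2 : E), x⟫ := fun j x => by
      have h2 := congrArg (fun w : W => ⟪(w : E), x⟫) (b.sum_repr' ⟨n j, hnW j⟩)
      simp only [Fin.sum_univ_three, Submodule.coe_add, Submodule.coe_smul, inner_add_left,
        real_inner_smul_left, Submodule.coe_inner] at h2
      exact h2.symm
    ext x
    simp only [hB, mem_preimage, mem_ofPred_eq, ← h1]
    exact ⟨fun h j => h j.1 j.2, fun h j hj => h ⟨j, hj⟩⟩
  have hp : (stdGaussian E).real (cell z i) = Cap.g3.real B := by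
    rw [hcell]
    exact hmp.measureReal_preimage hBm.nullMeasurableSet
  have hm : ‖z i‖ = ∫ q in B, q.1 ∂Cap.g3 := by
    have h1 : ⟪u, z i⟫ = ‖z i‖ := by
      rw [hu, real_inner_smul_left, real_inner_self_eq_norm_sq]
      field_simp
    rw [← h1, ← hz.moment i, ← integral_inner integrable_id_std.integrableOn, hcell, ← hb0,
      Cap.g3, ← hmp.map_eq, setIntegral_map hBm (by fun_prop) hmp.measurable.aemeasurable]
  have h := Cap.cone_le hBm hBc (hp ▸ hz.p_pos i) (hp ▸ hz.p_le_half i)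
  rw [← hm, ← hp] at h
  refine (pow_le_pow_left₀ (norm_nonneg _) h 2).trans (le_of_eq ?_)
  rw [mul_pow, gphi_zero_sq]
  ring

end Crest.Agent.R215
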