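import Crest.Agent.R215.Defs2

/-! Row 215: per-cell rational inequalities and the real-variable end game. -/

set_option autoImplicit false

namespace Crest.Agent.R215.Fin6

variable {p y : ℝ}

/-- Case split over the pieces, each closed by linear arithmetic (with chords of `p²`). -/
macro "cell_lin" h:ident : tactic =>
  `(tactic| (
    obtain ⟨h0, h1, h2, h3, h4⟩ := $h
    rcases h4 with h | ⟨ha, hb, hc⟩ | ⟨ha, hb, hc⟩ | ⟨ha, hb, hc⟩ | ⟨ha, hb, hc⟩ | ⟨ha, hb, hc⟩ |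
      ⟨ha, hb, hc⟩ | ⟨ha, hb, hc, hd, he⟩
    · have h5 : _ ≤ _ := mul_le_mul_of_nonneg_left h h0.le
      nlinarith
    all_goals linarith))

lemma A1 (h : CellP p y) : y ≤ 0.27 * p + 0.0435 := by cell_lin h
lemma A2 (h : CellP p y) (hy : y ≤ 0.046) : y ≤ 0.27 * p := by cell_lin h
lemma A3 (h : CellP p y) (hy : y ≤ 0.03) : y ≤ 0.22 * p := by cell_lin h
lemma A4 (h : CellP p y) : y ≤ 0.41 * p := by cell_lin h
lemma C1 (h : CellP p y) : y ≤ 0.3 * p + 0.033 := by cell_lin h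
lemma C2 (h : CellP p y) (hy : y ≤ 0.066) : y ≤ 0.3 * p + 0.0027 := by cell_lin h
lemma C3 (h : CellP p y) (hp : 0.0606 ≤ p) (hy : y ≤ 0.03) : y ≤ 0.3 * p - 0.011 := by cell_lin h
lemma L1 (h : CellP p y) (hy : 0.046 ≤ y) : y ≤ 0.58 * p - 0.0533 := by cell_lin h
lemma L2 (h : CellP p y) (hy : 0.066 ≤ y) : y ≤ 0.61 * p - 0.0623 := by cell_lin h
lemma L3 (h : CellP p y) (hy : 0.01349 ≤ y) (hy' : y ≤ 0.03) : y ≤ 0.61 * p - 0.0414 := by
  cell_lin h
lemma L4 (h : CellP p y) (hy : 0.03 ≤ y) : y ≤ 0.58 * p - 0.0493 := by cell_lin h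
lemma M1 (h : CellP p y) (hy : y ≤ 0.03) : 0.53618 * y ≤ 0.12 * p := by cell_lin h
lemma M2 (h : CellP p y) (hy : y ≤ 0.092) : 0.45618 * y ≤ 0.14 * p + 0.0063 := by cell_lin h
lemma P1 (h : CellP p y) (hy : 0.01349 ≤ y) : 0.09 ≤ p := by cell_lin h
lemma P2 (h : CellP p y) (hy : 0.092 ≤ y) : 0.254 ≤ p := by cell_lin h
lemma K1 (h : CellP p y) (hp : 0.09 ≤ p) (hp' : p ≤ 0.1377) : y ≤ 0.43428 * p - 0.0255 := by
  cell_lin h
lemma K2 (h : CellP p y) (hp : 0.0606 ≤ p) (hp' : p ≤ 0.0901) : y ≤ 0.244 * p - 0.00849 := by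
  cell_lin h

lemma chord {a b : ℝ} (ha : a ≤ y) (hb : y ≤ b) : y ^ 2 ≤ (a + b) * y - a * b := by
  nlinarith [mul_nonneg (sub_nonneg.2 ha) (sub_nonneg.2 hb)]

lemma Q1 (h : CellP p y) (hy : 0.046 ≤ y) : y ^ 2 ≤ -0.0122 + 0.05 * y + 0.07 * p := by
  obtain ⟨h0, h1, h2, h3, h4⟩ := h
  rcases h4 with h | ⟨ha, hb, hc⟩ | ⟨ha, hb, hc⟩ | ⟨ha, hb, hc⟩ | ⟨ha, hb, hc⟩ | ⟨ha, hb, hc⟩ |
      ⟨ha, hb, hc⟩ | ⟨ha, hb, hc, hd, he⟩
  · nlinarith
  · linarith
  · linarith
  · linarith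
  · have := chord hy (by linarith : y ≤ 0.0665); linarith
  · rcases le_total y 0.0664 with h | h
    · have := chord hy h; linarith
    · have := chord h (by linarith : y ≤ 0.0916); linarith
  · rcases le_total y 0.0916 with h | h
    · have := chord hy h; linarith
    · have := chord h (by linarith : y ≤ 0.1215); linarith
  · rcases le_total y 0.1215 with h | h
    · have := chord hy h; linarith
    rcases le_total y 0.1322 with h' | h'
    · have := chord h h'; linarith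
    rcases le_total y 0.1483 with h'' | h''
    · have := chord h' h''; linarith
    · have := chord h'' he; linarith

lemma Q2 (h : CellP p y) (hy : 0.066 ≤ y) : y ^ 2 ≤ -0.0142 + 0.09 * y + 0.06 * p := by
  obtain ⟨h0, h1, h2, h3, h4⟩ := h
  rcases h4 with h | ⟨ha, hb, hc⟩ | ⟨ha, hb, hc⟩ | ⟨ha, hb, hc⟩ | ⟨ha, hb, hc⟩ | ⟨ha, hb, hc⟩ |
      ⟨ha, hb, hc⟩ | ⟨ha, hb, hc, hd, he⟩
  · nlinarith
  · linarith
  · linarith
  · linarith
  · have := chord hy (by linarith : y ≤ 0.0665); linarith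
  · rcases le_total y 0.0664 with h | h
    · have := chord hy h; linarith
    · have := chord h (by linarith : y ≤ 0.0916); linarith
  · rcases le_total y 0.0916 with h | h
    · have := chord hy h; linarith
    · have := chord h (by linarith : y ≤ 0.1215); linarith
  · rcases le_total y 0.1215 with h | h
    · have := chord hy h; linarith
    rcases le_total y 0.1322 with h' | h'
    · have := chord h h'; linarith
    rcases le_total y 0.1483 with h'' | h''
    · have := chord h' h''; linarith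
    · have := chord h'' he; linarith

/-- A cell smaller than `x ≤ r²/2` has `y ≤ r p`. -/
lemma tail_ratio {x r : ℝ} (h : CellP p y) (hy : y ≤ x) (hr : 0 ≤ r) (hx : 2 * x ≤ r ^ 2) :
    y ≤ r * p := by
  obtain ⟨h0, -, h2, h3, -⟩ := h
  refine abs_le_of_sq_le_sq' ?_ (by positivity) |>.2
  have : y * y ≤ x * (2 * p ^ 2) := mul_le_mul hy h3 h2 (h2.trans hy)
  nlinarith [sq_nonneg p]

end Crest.Agent.R215.Fin6
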