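import Mathlib

/-! Row 215 (S0334, Gaussian propeller inequality): definitions and the interface statements of the
independent pieces of the proof. -/

set_option autoImplicit false

namespace Crest.Agent.R215

open MeasureTheory ProbabilityTheory Set
open scoped RealInnerProductSpace

universe u v

/-- The standard normal law on `ℝ`. -/
noncomputable abbrev g1 : Measure ℝ := gaussianReal 0 1

/-- The standard normal density. -/
noncomputable def gphi (t : ℝ) : ℝ := (√(2 * Real.pi))⁻¹ * Real.exp (-t ^ 2 / 2)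

/-- The standard normal distribution function. -/
noncomputable def gPhi (t : ℝ) : ℝ := g1.real (Iic t)

/-- `h(a) = φ(a) (φ(a) + a Φ(a))`. -/
noncomputable def hfun (a : ℝ) : ℝ := gphi a * (gphi a + a * gPhi a)

/-- The propeller constant. -/
noncomputable def c0 : ℝ := 9 / (8 * Real.pi)

/-- Ehrhard's inequality for convex sets, in three-set form. -/
def EhrhardProp {V : Type*} [AddCommGroup V] [Module ℝ V] [MeasurableSpace V] (μ : Measure V) :
    Prop :=
  ∀ (θ : ℝ), 0 ≤ θ → θ ≤ 1 → ∀ K₀ K₁ K₂ : Set V,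
    MeasurableSet K₀ → MeasurableSet K₁ → MeasurableSet K₂ →
    Convex ℝ K₀ → Convex ℝ K₁ → Convex ℝ K₂ →
    (∀ a ∈ K₀, ∀ b ∈ K₁, (1 - θ) • a + θ • b ∈ K₂) →
    ∀ y₀ y₁ : ℝ, gPhi y₀ < μ.real K₀ → gPhi y₁ < μ.real K₁ →
      gPhi ((1 - θ) * y₀ + θ * y₁) < μ.real K₂

/-- Ehrhard on the line. -/
def Ehr1Stmt : Prop := EhrhardProp g1

/-- The Gaussian isoperimetric inequality for intervals. -/
def Iso1Stmt : Prop :=
  ∀ (I J : Set ℝ), MeasurableSet I → Convex ℝ I → Convex ℝ J → ∀ r y : ℝ, 0 ≤ r →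
    (∀ a ∈ I, a - r ∈ J ∧ a + r ∈ J) → gPhi y < g1.real I → gPhi (y + r) < g1.real J

/-- Ehrhard in every finite-dimensional Euclidean space. -/
def EhrStmt : Prop :=
  ∀ (E : Type u) [NormedAddCommGroup E] [InnerProductSpace ℝ E] [FiniteDimensional ℝ E]
    [MeasurableSpace E] [BorelSpace E], EhrhardProp (stdGaussian E)

section Geom

variable {E : Type u} [NormedAddCommGroup E] [InnerProductSpace ℝ E]

/-- Gram determinant of two vectors. -/
def gram2 (a b : E) : ℝ := ‖a‖ ^ 2 * ‖b‖ ^ 2 - ⟪a, b⟫ ^ 2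

/-- Component of `a` orthogonal to `ξ`. -/
noncomputable def perp (ξ a : E) : E := a - (⟪a, ξ⟫ / ‖ξ‖ ^ 2) • ξ

/-- The open Voronoi-type cone of index `i`. -/
def cell {ι : Type} (z : ι → E) (i : ι) : Set E := {x | ∀ j, j ≠ i → 0 < ⟪z i - z j, x⟫}

/-- The positive part of the margin by which index `i` wins at `x`. -/
noncomputable def gap {ι : Type} (z : ι → E) (i : ι) (x : E) : ℝ :=
  max 0 (⨅ j : {j // j ≠ i}, ⟪z i - z j.1, x⟫)

end Geom

/-- The structure of a minimal counterexample. -/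
structure Config {E : Type u} [NormedAddCommGroup E] [InnerProductSpace ℝ E]
    [FiniteDimensional ℝ E] [MeasurableSpace E] [BorelSpace E]
    {ι : Type} [Fintype ι] (z : ι → E) : Prop where
  card : 4 ≤ Fintype.card ι
  big : c0 < ∑ i, ‖z i‖ ^ 2
  sum_zero : ∑ i, z i = 0
  neg : ∀ i j, i ≠ j → ⟪z i, z j⟫ < 0
  moment : ∀ i, ∫ x in cell z i, x ∂(stdGaussian E) = z i
  total : ∑ i, (stdGaussian E).real (cell z i) = 1
  removal : ∀ i, ∑ j, ‖z j‖ ^ 2 ≤
    √c0 * √(∑ j, ‖z j‖ ^ 2 - ‖z i‖ ^ 2 * ((Fintype.card ι : ℝ) / ((Fintype.card ι : ℝ) - 1))) +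
      ∫ x, gap z i x ∂(stdGaussian E)

/-- T3: if no minimal counterexample exists in `E`, the propeller inequality holds in `E`. -/
def StructStmt : Prop :=
  ∀ (E : Type u) [NormedAddCommGroup E] [InnerProductSpace ℝ E] [FiniteDimensional ℝ E]
    [MeasurableSpace E] [BorelSpace E],
    (∀ (ι : Type) [Fintype ι] (z : ι → E), ¬ Config z) →
    ∀ (ι : Type v) [Fintype ι] (A : ι → Set E), (∀ i, MeasurableSet (A i)) →
      (Pairwise fun i j => Disjoint (A i) (A j)) → ⋃ i, A i = Set.univ →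
      ∑ i, ‖∫ x in A i, x ∂stdGaussian E‖ ^ 2 ≤ 9 / (8 * Real.pi)

/-- T7: Neyman-Pearson bound and the Ehrhard bound on the mean margin, for each cell. -/
def CellStmt : Prop :=
  ∀ (E : Type u) [NormedAddCommGroup E] [InnerProductSpace ℝ E] [FiniteDimensional ℝ E]
    [MeasurableSpace E] [BorelSpace E] (ι : Type) [Fintype ι] (z : ι → E), Config z → ∀ i,
    ∃ α : ℝ, α ≤ 0 ∧ gPhi α = (stdGaussian E).real (cell z i) ∧ ‖z i‖ ≤ gphi α ∧
      ∫ x, gap z i x ∂(stdGaussian E) ≤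
        hfun α * ((Fintype.card ι : ℝ) / ((Fintype.card ι : ℝ) - 1))

/-- T4: the thin-cone lemma. -/
def ThinStmt : Prop :=
  ∀ (E : Type u) [NormedAddCommGroup E] [InnerProductSpace ℝ E] [FiniteDimensional ℝ E]
    [MeasurableSpace E] [BorelSpace E] (a b ξ : E) (D0 : ℝ) (A : Set E), ξ ≠ 0 → 0 < D0 →
    D0 ^ 2 ≤ gram2 (perp ξ a) (perp ξ b) →
    (∀ x ∈ A, 0 ≤ ⟪a, x⟫ ∧ 0 ≤ ⟪b, x⟫ ∧ ⟪a, x⟫ + ⟪b, x⟫ ≤ ⟪ξ, x⟫) →
    1 ≤ (1 - 2 * (stdGaussian E).real A) ^ 2 * (1 + ‖ξ‖ ^ 2 / (2 * Real.pi * D0))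

/-- T5: the cap lemma for four cells. -/
def CapStmt : Prop :=
  ∀ (E : Type u) [NormedAddCommGroup E] [InnerProductSpace ℝ E] [FiniteDimensional ℝ E]
    [MeasurableSpace E] [BorelSpace E] (ι : Type) [Fintype ι] (z : ι → E), Config z →
    Fintype.card ι = 4 → ∀ i,
    ‖z i‖ ^ 2 ≤ 8 / Real.pi *
      ((stdGaussian E).real (cell z i) * (1 - (stdGaussian E).real (cell z i))) ^ 2

end Crest.Agent.R215
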