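import Crest.Agent.R215.Basic

/-! Row 215: the piecewise linear rational description of the pair (mass, squared moment) of a cell. -/

set_option autoImplicit false

namespace Crest.Agent.R215

/-- Rational constraints on the mass `p` and the squared first moment `y` of a cell. -/
def CellP (p y : ℝ) : Prop :=
  0 < p ∧ p ≤ 1 / 2 ∧ 0 ≤ y ∧ y ≤ 2 * p ^ 2 ∧
  (p ≤ 0.06059 ∨
   (0.06056 ≤ p ∧ p ≤ 0.09014 ∧ y ≤ 0.244 * p - 0.00849) ∨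
   (0.09011 ≤ p ∧ p ≤ 0.13351 ∧ y ≤ 0.345 * p - 0.01756) ∨
   (0.13348 ≤ p ∧ p ≤ 0.17107 ∧ y ≤ 0.442 * p - 0.03051) ∨
   (0.17104 ≤ p ∧ p ≤ 0.21187 ∧ y ≤ 0.521 * p - 0.04398) ∨
   (0.21184 ≤ p ∧ p ≤ 0.25464 ∧ y ≤ 0.587 * p - 0.05792) ∨
   (0.25461 ≤ p ∧ p ≤ 0.30155 ∧ y ≤ 0.635 * p - 0.07007) ∨
   (0.30152 ≤ p ∧ y ≤ 0.362 * p + 0.01241 ∧ y ≤ 0.269 * p + 0.04319 ∧
     y ≤ 0.156 * p + 0.08735 ∧ y ≤ 0.15916))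

/-- T1: numerics. `κ = k / (k - 1)`. -/
def NumStmt : Prop :=
  ∀ α y s κ : ℝ, α ≤ 0 → 1 ≤ κ → κ ≤ 4 / 3 → c0 < s → 0 ≤ y → y ≤ gphi α ^ 2 →
    s ≤ √c0 * √(s - y * κ) + hfun α * κ → CellP (gPhi α) y

end Crest.Agent.R215
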