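import Crest.Agent.R215.Basic

/-! Gaussian measure of a disc, and orthonormal triples. -/

set_option autoImplicit false

namespace Crest.Agent.R215

open MeasureTheory ProbabilityTheory Set
open scoped RealInnerProductSpace Real

theorem g2_real {K : Set (ℝ × ℝ)} (hK : MeasurableSet K) :
    (g1.prod g1).real K = ∫ q in K, Real.exp (-(q.1 ^ 2 + q.2 ^ 2) / 2) / (2 * π) := by
  have hm : Measurable fun t => ENNReal.ofReal (gphi t) :=
    continuous_gphi.measurable.ennreal_ofReal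
  rw [g1_eq_withDensity, prod_withDensity hm hm, Measure.real, withDensity_apply _ hK,
    integral_eq_lintegral_of_nonneg_ae (ae_of_all _ fun q => by positivity)
      (Measurable.aestronglyMeasurable (by fun_prop))]
  congr 1
  refine lintegral_congr fun q => ?_
  rw [← ENNReal.ofReal_mul (gphi_pos _).le]
  congr 1
  have h : (√(2 * π))⁻¹ * (√(2 * π))⁻¹ = (2 * π)⁻¹ := by
    rw [← mul_inv, Real.mul_self_sqrt (by positivity)]
  rw [gphi, gphi, mul_mul_mul_comm, h, ← Real.exp_add, div_eq_inv_mul _ (2 * π)]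
  congr 2
  ring

theorem radial_disc {R : ℝ} (hR : 0 ≤ R) (c : ℝ) :
    ∫ q in {q : ℝ × ℝ | q.1 ^ 2 + q.2 ^ 2 ≤ R}, (Real.exp (-(q.1 ^ 2 + q.2 ^ 2) / 2) / (2 * π) - c)
      = 1 - Real.exp (-R / 2) - c * π * R := by
  have hD : MeasurableSet {q : ℝ × ℝ | q.1 ^ 2 + q.2 ^ 2 ≤ R} :=
    measurableSet_le (by fun_prop) measurable_const
  have hpi := Real.pi_pos
  rw [← integral_indicator hD, ← integral_comp_polarCoord_symm, polarCoord_target]
  have e : ∀ p ∈ Ioi (0 : ℝ) ×ˢ Ioo (-π) π, p.1 • ({q : ℝ × ℝ | q.1 ^ 2 + q.2 ^ 2 ≤ R}.indicator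
      (fun q => Real.exp (-(q.1 ^ 2 + q.2 ^ 2) / 2) / (2 * π) - c) (polarCoord.symm p))
      = (Iic √R).indicator (fun r => r * (Real.exp (-r ^ 2 / 2) / (2 * π) - c)) p.1 * 1 := by
    intro p hp
    have h1 : (p.1 * Real.cos p.2) ^ 2 + (p.1 * Real.sin p.2) ^ 2 = p.1 ^ 2 := by
      linear_combination p.1 ^ 2 * Real.cos_sq_add_sin_sq p.2
    have h2 : p.1 ^ 2 ≤ R ↔ p.1 ≤ √R := (Real.le_sqrt (le_of_lt hp.1) hR).symm
    simp only [polarCoord_symm_apply, indicator, mem_ofPred_eq, h1, h2, mem_Iic, smul_eq_mul,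
      mul_ite, mul_zero, mul_one]
  rw [setIntegral_congr_fun (measurableSet_Ioi.prod measurableSet_Ioo) e, Measure.volume_eq_prod,
    setIntegral_prod_mul _ (fun _ => (1 : ℝ)), setIntegral_indicator measurableSet_Iic,
    Ioi_inter_Iic, ← intervalIntegral.integral_of_le (Real.sqrt_nonneg R),
    intervalIntegral.integral_eq_sub_of_hasDerivAt
      (f := fun r => -(Real.exp (-r ^ 2 / 2) / (2 * π)) - c * r ^ 2 / 2)
      (fun r _ => (((((hasDerivAt_pow 2 r).neg.div_const 2).exp.div_const _).neg).sub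
        (((hasDerivAt_pow 2 r).const_mul c).div_const 2)).congr_deriv (by simp; ring))
      (Continuous.intervalIntegrable (by fun_prop) _ _)]
  rw [Real.sq_sqrt hR]
  simp [hpi.le]
  field_simp
  ring

theorem g2_disc (R : ℝ) (hR : 0 ≤ R) :
    (g1.prod g1).real {q | q.1 ^ 2 + q.2 ^ 2 ≤ R} = 1 - Real.exp (-R / 2) := by
  rw [g2_real (measurableSet_le (by fun_prop) measurable_const)]
  simpa using radial_disc hR 0

/-- Coordinates with respect to an orthonormal triple. -/
theorem measurePreserving_triple {E : Type*} [NormedAddCommGroup E] [InnerProductSpace ℝ E]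
    [FiniteDimensional ℝ E] [MeasurableSpace E] [BorelSpace E] {u e₁ e₂ : E}
    (h : Orthonormal ℝ ![u, e₁, e₂]) :
    MeasurePreserving (fun x => (⟪u, x⟫, ⟪e₁, x⟫, ⟪e₂, x⟫)) (stdGaussian E)
      (g1.prod (g1.prod g1)) := by
  have h1 : MeasurePreserving (fun x i => ⟪![u, e₁, e₂] i, x⟫) (stdGaussian E)
      (Measure.pi fun _ : Fin 3 => g1) := ⟨by fun_prop, map_orthonormal h⟩
  exact ((MeasurePreserving.id g1).prod (measurePreserving_finTwoArrow g1)).comp
    ((measurePreserving_piFinSuccAbove (fun _ : Fin 3 => g1) 0).comp h1)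

end Crest.Agent.R215
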