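import Crest.Agent.R215.Basic

/-! Row 215: Ehrhard's inequality and the Gaussian isoperimetric inequality for intervals. -/

set_option autoImplicit false

namespace Crest.Agent.R215

open MeasureTheory ProbabilityTheory Set Filter Topology

namespace E1

/-- `u Φ(-u) / φ(u)` is strictly increasing. -/
lemma strictMono_r : StrictMono fun u : ℝ => u * gPhi (-u) / gphi u := by
  have hd : ∀ u : ℝ, HasDerivAt (fun u : ℝ => u * gPhi (-u) / gphi u)
      (((1 + u ^ 2) * gPhi (-u) - u * gphi u) / gphi u) u := by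
    intro u
    have h1 : HasDerivAt (fun u => gPhi (-u)) (gphi (-u) * (-1)) u :=
      (hasDerivAt_gPhi (-u)).comp u (hasDerivAt_neg u)
    have h2 := ((hasDerivAt_id u).mul h1).div (hasDerivAt_gphi u) (gphi_pos u).ne'
    refine h2.congr_deriv ?_
    have := (gphi_pos u).ne'
    simp only [gphi_neg, id, Pi.mul_apply]
    field_simp
    ring
  refine strictMono_of_hasDerivAt_pos hd fun u => ?_
  have := mills u
  exact div_pos (by linarith) (gphi_pos u)

/-- `φ / Φ` is strictly decreasing. -/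
lemma strictAnti_q : StrictAnti fun u : ℝ => gphi u / gPhi u := by
  have hd : ∀ u : ℝ, HasDerivAt (fun u : ℝ => gphi u / gPhi u)
      (-(gphi u * (gphi u + u * gPhi u) / gPhi u ^ 2)) u := by
    intro u
    have h2 := (hasDerivAt_gphi u).div (hasDerivAt_gPhi u) (gPhi_pos u).ne'
    refine h2.congr_deriv ?_
    have := (gPhi_pos u).ne'
    field_simp
    ring
  refine strictAnti_of_hasDerivAt_neg hd fun u => ?_
  have h1 := gphi_add_mul_pos u
  have h2 := gphi_pos u
  have h3 := gPhi_pos u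
  have : 0 < gphi u * (gphi u + u * gPhi u) / gPhi u ^ 2 := by positivity
  linarith

lemma ratio_lt {c u : ℝ} (hu : 0 < u) (h : c < u) :
    c * gPhi (-c) * (gphi u / u) < gPhi (-u) * gphi c := by
  have h1 := strictMono_r h
  simp only at h1
  have h2 := gphi_pos c
  have h3 := gphi_pos u
  rw [div_lt_div_iff₀ h2 h3] at h1
  rw [← mul_div_assoc, div_lt_iff₀ hu]
  linarith

lemma secondB_aux {c1 c2 c3 d1 d2 d3 : ℝ} (hs : gPhi c1 + gPhi c2 + gPhi c3 = 1)
    (h0 : gphi c1 * d1 + gphi c2 * d2 + gphi c3 * d3 = 0) (hd : d1 ≠ 0 ∨ d2 ≠ 0 ∨ d3 ≠ 0)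
    (hc : 0 ≤ c1) :
    c1 * gphi c1 * d1 ^ 2 + c2 * gphi c2 * d2 ^ 2 + c3 * gphi c3 * d3 ^ 2 < 0 := by
  have p1 := gphi_pos c1
  have p2 := gphi_pos c2
  have p3 := gphi_pos c3
  have q2 := gPhi_pos c2
  have q3 := gPhi_pos c3
  have hn := gPhi_neg c1
  have h2 : c2 < -c1 := gPhi_lt_iff.1 (by linarith)
  have h3 : c3 < -c1 := gPhi_lt_iff.1 (by linarith)
  have u2 : 0 < -c2 := by linarith
  have u3 : 0 < -c3 := by linarith
  have r2 := ratio_lt u2 (by linarith : c1 < -c2)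
  have r3 := ratio_lt u3 (by linarith : c1 < -c3)
  rw [neg_neg, gphi_neg] at r2 r3
  have q1 := gPhi_pos (-c1)
  have hr : c1 * (gphi c2 / (-c2) + gphi c3 / (-c3)) < gphi c1 := by
    have : gPhi (-c1) * (c1 * (gphi c2 / (-c2) + gphi c3 / (-c3))) < gPhi (-c1) * gphi c1 := by
      have e : gPhi (-c1) * gphi c1 = gPhi c2 * gphi c1 + gPhi c3 * gphi c1 := by
        have : gPhi (-c1) = gPhi c2 + gPhi c3 := by linarith
        rw [this]; ring
      rw [e]
      nlinarith
    exact lt_of_mul_lt_mul_left this q1.le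
  -- the positive quadratic form
  set A := (-c2) * gphi c2 * d2 ^ 2 + (-c3) * gphi c3 * d3 ^ 2 with hA
  have hd' : d2 ≠ 0 ∨ d3 ≠ 0 := by
    by_contra hcon
    push Not at hcon
    obtain ⟨rfl, rfl⟩ := hcon
    have : d1 = 0 := by
      have : gphi c1 * d1 = 0 := by linarith
      rcases mul_eq_zero.1 this with h | h
      · exact absurd h p1.ne'
      · exact h
    simp [this] at hd
  have hApos : 0 < A := by
    rcases hd' with h | h
    · have : 0 < (-c2) * gphi c2 * d2 ^ 2 := by positivity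
      have : 0 ≤ (-c3) * gphi c3 * d3 ^ 2 := by positivity
      linarith
    · have : 0 ≤ (-c2) * gphi c2 * d2 ^ 2 := by positivity
      have : 0 < (-c3) * gphi c3 * d3 ^ 2 := by positivity
      linarith
  set B := gphi c2 / (-c2) + gphi c3 / (-c3) with hB
  have hCS : (gphi c2 * d2 + gphi c3 * d3) ^ 2 ≤ B * A := by
    have e : B * A - (gphi c2 * d2 + gphi c3 * d3) ^ 2 =
        gphi c2 * gphi c3 * ((-c2) * d2 - (-c3) * d3) ^ 2 / ((-c2) * (-c3)) := by
      rw [hA, hB]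
      have := u2.ne'
      have := u3.ne'
      have : c2 ≠ 0 := by linarith
      have : c3 ≠ 0 := by linarith
      field_simp
      ring
    have : 0 ≤ gphi c2 * gphi c3 * ((-c2) * d2 - (-c3) * d3) ^ 2 / ((-c2) * (-c3)) := by
      positivity
    linarith
  have e1 : (gphi c1 * d1) ^ 2 = (gphi c2 * d2 + gphi c3 * d3) ^ 2 := by
    have : gphi c1 * d1 = -(gphi c2 * d2 + gphi c3 * d3) := by linarith
    rw [this]; ring
  have key : gphi c1 * (c1 * gphi c1 * d1 ^ 2) < gphi c1 * A := by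
    calc gphi c1 * (c1 * gphi c1 * d1 ^ 2) = c1 * (gphi c1 * d1) ^ 2 := by ring
      _ ≤ c1 * (B * A) := by rw [e1]; exact mul_le_mul_of_nonneg_left hCS hc
      _ = (c1 * B) * A := by ring
      _ < gphi c1 * A := mul_lt_mul_of_pos_right hr hApos
  have := lt_of_mul_lt_mul_left key p1.le
  linarith

lemma secondB {c1 c2 c3 d1 d2 d3 : ℝ} (hs : gPhi c1 + gPhi c2 + gPhi c3 = 1)
    (h0 : gphi c1 * d1 + gphi c2 * d2 + gphi c3 * d3 = 0) (hd : d1 ≠ 0 ∨ d2 ≠ 0 ∨ d3 ≠ 0) :
    c1 * gphi c1 * d1 ^ 2 + c2 * gphi c2 * d2 ^ 2 + c3 * gphi c3 * d3 ^ 2 < 0 := by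
  rcases le_or_gt 0 c1 with h1 | h1
  · exact secondB_aux hs h0 hd h1
  rcases le_or_gt 0 c2 with h2 | h2
  · have := secondB_aux (c1 := c2) (c2 := c1) (c3 := c3) (d1 := d2) (d2 := d1) (d3 := d3)
      (by linarith) (by linarith) (by tauto) h2
    linarith
  rcases le_or_gt 0 c3 with h3 | h3
  · have := secondB_aux (c1 := c3) (c2 := c1) (c3 := c2) (d1 := d3) (d2 := d1) (d3 := d2)
      (by linarith) (by linarith) (by tauto) h3
    linarith
  have p1 := gphi_pos c1
  have p2 := gphi_pos c2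
  have p3 := gphi_pos c3
  have u1 : 0 < -c1 := by linarith
  have u2 : 0 < -c2 := by linarith
  have u3 : 0 < -c3 := by linarith
  have a1 : 0 ≤ (-c1) * gphi c1 * d1 ^ 2 := by positivity
  have a2 : 0 ≤ (-c2) * gphi c2 * d2 ^ 2 := by positivity
  have a3 : 0 ≤ (-c3) * gphi c3 * d3 ^ 2 := by positivity
  rcases hd with h | h | h
  · have : 0 < (-c1) * gphi c1 * d1 ^ 2 := by positivity
    linarith
  · have : 0 < (-c2) * gphi c2 * d2 ^ 2 := by positivity
    linarith
  · have : 0 < (-c3) * gphi c3 * d3 ^ 2 := by positivity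
    linarith

lemma hasDerivAt_lin (a d t : ℝ) : HasDerivAt (fun t : ℝ => a + t * d) d t := by
  simpa using ((hasDerivAt_id t).mul_const d).const_add a

/-- Along a non-constant line, `ΣΦ` has no local maximum at level `1`. -/
lemma no_localMax {a1 a2 a3 d1 d2 d3 t : ℝ} (hd : d1 ≠ 0 ∨ d2 ≠ 0 ∨ d3 ≠ 0)
    (hs : gPhi (a1 + t * d1) + gPhi (a2 + t * d2) + gPhi (a3 + t * d3) = 1) :
    ¬ IsLocalMax (fun t => gPhi (a1 + t * d1) + gPhi (a2 + t * d2) + gPhi (a3 + t * d3)) t := by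
  intro hmax
  set G : ℝ → ℝ := fun t => gPhi (a1 + t * d1) + gPhi (a2 + t * d2) + gPhi (a3 + t * d3) with hG
  set G1 : ℝ → ℝ := fun t =>
    gphi (a1 + t * d1) * d1 + gphi (a2 + t * d2) * d2 + gphi (a3 + t * d3) * d3 with hG1
  have hd1 : ∀ t, HasDerivAt G (G1 t) t := fun t =>
    (((hasDerivAt_gPhi _).comp t (hasDerivAt_lin a1 d1 t)).add
      ((hasDerivAt_gPhi _).comp t (hasDerivAt_lin a2 d2 t))).add
      ((hasDerivAt_gPhi _).comp t (hasDerivAt_lin a3 d3 t))
  have hd2 : HasDerivAt G1 (-((a1 + t * d1) * gphi (a1 + t * d1) * d1 ^ 2 +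
      (a2 + t * d2) * gphi (a2 + t * d2) * d2 ^ 2 +
      (a3 + t * d3) * gphi (a3 + t * d3) * d3 ^ 2)) t := by
    refine (((((hasDerivAt_gphi _).comp t (hasDerivAt_lin a1 d1 t)).mul_const d1).add
      (((hasDerivAt_gphi _).comp t (hasDerivAt_lin a2 d2 t)).mul_const d2)).add
      (((hasDerivAt_gphi _).comp t (hasDerivAt_lin a3 d3 t)).mul_const d3)).congr_deriv ?_
    ring
  have h0 : G1 t = 0 := hmax.hasDerivAt_eq_zero (hd1 t)
  have hB := secondB hs h0 hd
  have hder : deriv G = G1 := funext fun t => (hd1 t).deriv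
  have hpos : deriv (deriv G) t > 0 := by
    rw [hder, hd2.deriv]; linarith
  have hmin : IsLocalMin G t :=
    isLocalMin_of_deriv_deriv_pos hpos (by rw [hder]; exact h0) (hd1 t).continuousAt
  have hconst : G =ᶠ[𝓝 t] fun _ => G t := by
    filter_upwards [hmax, hmin] with x h1 h2 using le_antisymm h1 h2
  have h2 := hconst.deriv.deriv_eq
  rw [h2] at hpos
  simp at hpos

/-- The set `{Φ a₁ + Φ a₂ + Φ a₃ < 1}` is convex. -/
lemma key {a1 a2 a3 b1 b2 b3 θ : ℝ} (h0 : 0 ≤ θ) (h1 : θ ≤ 1)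
    (ha : gPhi a1 + gPhi a2 + gPhi a3 < 1) (hb : gPhi b1 + gPhi b2 + gPhi b3 < 1) :
    gPhi ((1 - θ) * a1 + θ * b1) + gPhi ((1 - θ) * a2 + θ * b2) +
      gPhi ((1 - θ) * a3 + θ * b3) < 1 := by
  by_contra hcon
  push Not at hcon
  set d1 := b1 - a1 with hd1
  set d2 := b2 - a2 with hd2
  set d3 := b3 - a3 with hd3
  have e1 : (1 - θ) * a1 + θ * b1 = a1 + θ * d1 := by rw [hd1]; ring
  have e2 : (1 - θ) * a2 + θ * b2 = a2 + θ * d2 := by rw [hd2]; ring
  have e3 : (1 - θ) * a3 + θ * b3 = a3 + θ * d3 := by rw [hd3]; ring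
  rw [e1, e2, e3] at hcon
  have hd : d1 ≠ 0 ∨ d2 ≠ 0 ∨ d3 ≠ 0 := by
    by_contra h
    push Not at h
    obtain ⟨h1, h2, h3⟩ := h
    simp only [h1, h2, h3, mul_zero, add_zero] at hcon
    linarith
  let g : ℝ → ℝ → ℝ := fun s t =>
    gPhi (a1 - s + t * d1) + gPhi (a2 - s + t * d2) + gPhi (a3 - s + t * d3)
  have hg : Continuous ↿g := by
    change Continuous fun p : ℝ × ℝ => gPhi (a1 - p.1 + p.2 * d1) + gPhi (a2 - p.1 + p.2 * d2) +
      gPhi (a3 - p.1 + p.2 * d3)
    fun_prop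
  have hgs : ∀ s, Continuous (g s) := fun s => by
    change Continuous fun t : ℝ => gPhi (a1 - s + t * d1) + gPhi (a2 - s + t * d2) +
      gPhi (a3 - s + t * d3)
    fun_prop
  let M : ℝ → ℝ := fun s => sSup (g s '' Icc 0 1)
  have hM : Continuous M := isCompact_Icc.continuous_sSup hg
  have hmax : ∀ s, ∃ t ∈ Icc (0 : ℝ) 1, M s = g s t ∧ ∀ y ∈ Icc (0 : ℝ) 1, g s y ≤ g s t :=
    fun s => isCompact_Icc.exists_sSup_image_eq_and_ge ⟨0, by simp⟩ (hgs s).continuousOn
  obtain ⟨m, hm⟩ := exists_gPhi_eq (p := 1 / 3) (by norm_num) (by norm_num)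
  set S := |a1| + |b1| + |a2| + |b2| + |a3| + |b3| + |m| with hS
  have hS0 : 0 ≤ S := by positivity
  have hM0 : 1 ≤ M 0 := by
    obtain ⟨t, -, h2, h3⟩ := hmax 0
    rw [h2]
    refine le_trans ?_ (h3 θ ⟨h0, h1⟩)
    simpa [g] using hcon
  have hMS : M S ≤ 1 := by
    obtain ⟨t, ⟨ht0, ht1⟩, h2, -⟩ := hmax S
    rw [h2]
    have aux : ∀ a b : ℝ, a + t * (b - a) ≤ |a| + |b| := by
      intro a b
      have h1 := le_abs_self a
      have h2 := le_abs_self b
      have h3 := abs_nonneg a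
      have h4 := abs_nonneg b
      nlinarith
    have hm' := neg_abs_le m
    have x1 := aux a1 b1
    have x2 := aux a2 b2
    have x3 := aux a3 b3
    have := abs_nonneg a1
    have := abs_nonneg a2
    have := abs_nonneg a3
    have := abs_nonneg b1
    have := abs_nonneg b2
    have := abs_nonneg b3
    have y1 : gPhi (a1 - S + t * d1) ≤ gPhi m := gPhi_le_iff.2 (by linarith)
    have y2 : gPhi (a2 - S + t * d2) ≤ gPhi m := gPhi_le_iff.2 (by linarith)
    have y3 : gPhi (a3 - S + t * d3) ≤ gPhi m := gPhi_le_iff.2 (by linarith)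
    simp only [g]
    linarith
  obtain ⟨s, ⟨hs0, -⟩, hs⟩ := intermediate_value_Icc' hS0 hM.continuousOn ⟨hMS, hM0⟩
  obtain ⟨t, ⟨ht0, ht1⟩, h2, h3⟩ := hmax s
  have hgt : g s t = 1 := by rw [← h2, hs]
  have ht0' : 0 < t := by
    refine ht0.lt_of_ne fun h => ?_
    subst h
    have y1 : gPhi (a1 - s + 0 * d1) ≤ gPhi a1 := gPhi_le_iff.2 (by linarith)
    have y2 : gPhi (a2 - s + 0 * d2) ≤ gPhi a2 := gPhi_le_iff.2 (by linarith)
    have y3 : gPhi (a3 - s + 0 * d3) ≤ gPhi a3 := gPhi_le_iff.2 (by linarith)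
    simp only [g] at hgt
    linarith
  have ht1' : t < 1 := by
    refine ht1.lt_of_ne fun h => ?_
    subst h
    have y1 : gPhi (a1 - s + 1 * d1) ≤ gPhi b1 := gPhi_le_iff.2 (by linarith)
    have y2 : gPhi (a2 - s + 1 * d2) ≤ gPhi b2 := gPhi_le_iff.2 (by linarith)
    have y3 : gPhi (a3 - s + 1 * d3) ≤ gPhi b3 := gPhi_le_iff.2 (by linarith)
    simp only [g] at hgt
    linarith
  refine no_localMax hd hgt ?_
  filter_upwards [Icc_mem_nhds ht0' ht1'] with y hy using h3 y hy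

/-- The isoperimetric direction `(-1, 1, -1)` is a recession direction. -/
lemma iso_key {a y c r : ℝ} (hr : 0 ≤ r) (h : gPhi a + gPhi y + gPhi c < 1) :
    gPhi (a - r) + gPhi (y + r) + gPhi (c - r) < 1 := by
  have pa := gPhi_pos a
  have pc := gPhi_pos c
  have py := gPhi_pos y
  obtain ⟨y', hy'⟩ := exists_gPhi_eq (p := 1 - gPhi a - gPhi c) (by linarith) (by linarith)
  have hyy : y < y' := gPhi_lt_iff.1 (by linarith)
  let G : ℝ → ℝ := fun r => gPhi (a - r) + gPhi (y' + r) + gPhi (c - r)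
  have hd : ∀ r, HasDerivAt G (-gphi (a - r) + gphi (y' + r) - gphi (c - r)) r := by
    intro r
    refine ((((hasDerivAt_gPhi _).comp r ((hasDerivAt_id r).const_sub a)).add
      ((hasDerivAt_gPhi _).comp r ((hasDerivAt_id r).const_add y'))).add
      ((hasDerivAt_gPhi _).comp r ((hasDerivAt_id r).const_sub c))).congr_deriv ?_
    simp only [id]
    ring
  have hle : G r ≤ 1 := by
    refine image_le_of_deriv_right_lt_deriv_boundary (f := G) (a := 0) (b := r)
      (B := fun _ => 1) (B' := fun _ => 0)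
      (fun x _ => (hd x).continuousAt.continuousWithinAt)
      (fun x _ => (hd x).hasDerivWithinAt) ?_ (fun x => hasDerivAt_const x 1) ?_ ⟨hr, le_rfl⟩
    · simp only [G, sub_zero, add_zero]; linarith
    · intro x _ hx
      simp only [G] at hx
      have hw := gPhi_neg (y' + x)
      have p1 := gPhi_pos (a - x)
      have p2 := gPhi_pos (c - x)
      have p3 := gPhi_pos (-(y' + x))
      have l1 : a - x < -(y' + x) := gPhi_lt_iff.1 (by linarith)
      have l2 : c - x < -(y' + x) := gPhi_lt_iff.1 (by linarith)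
      have q1 := strictAnti_q l1
      have q2 := strictAnti_q l2
      simp only [gphi_neg] at q1 q2
      rw [div_lt_div_iff₀ p3 p1] at q1
      rw [div_lt_div_iff₀ p3 p2] at q2
      have e : gPhi (-(y' + x)) = gPhi (a - x) + gPhi (c - x) := by linarith
      have : gphi (y' + x) * gPhi (-(y' + x)) <
          (gphi (a - x) + gphi (c - x)) * gPhi (-(y' + x)) := by
        calc gphi (y' + x) * gPhi (-(y' + x))
            = gphi (y' + x) * gPhi (a - x) + gphi (y' + x) * gPhi (c - x) := by rw [e]; ring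
          _ < _ := by linarith
      have := lt_of_mul_lt_mul_right this p3.le
      linarith
  have : gPhi (y + r) < gPhi (y' + r) := strictMono_gPhi (by linarith)
  simp only [G] at hle
  linarith

lemma exists_Icc {K : Set ℝ} (hm : MeasurableSet K) {y : ℝ} (h : gPhi y < g1.real K) :
    ∃ a ∈ K, ∃ b ∈ K, a ≤ b ∧ gPhi y < gPhi b - gPhi a := by
  have h1 : ENNReal.ofReal (gPhi y) < g1 K :=
    (ENNReal.ofReal_lt_iff_lt_toReal (gPhi_nonneg y) (measure_ne_top _ _)).2 h
  obtain ⟨C, hCK, hC, h2⟩ := hm.exists_lt_isCompact h1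
  have hne : C.Nonempty := by
    rcases C.eq_empty_or_nonempty with rfl | h
    · simp at h2
    · exact h
  obtain ⟨a, ha⟩ := hC.exists_isLeast hne
  obtain ⟨b, hb⟩ := hC.exists_isGreatest hne
  have hab : a ≤ b := ha.2 hb.1
  refine ⟨a, hCK ha.1, b, hCK hb.1, hab, ?_⟩
  rw [← g1_real_Icc hab]
  have h3 : gPhi y < g1.real C :=
    (ENNReal.ofReal_lt_iff_lt_toReal (gPhi_nonneg y) (measure_ne_top _ _)).1 h2
  exact h3.trans_le (measureReal_mono fun x hx => ⟨ha.2 hx, hb.2 hx⟩)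

lemma le_real_of_convex {K : Set ℝ} (hK : Convex ℝ K) {a b : ℝ} (ha : a ∈ K) (hb : b ∈ K)
    (hab : a ≤ b) : gPhi b - gPhi a ≤ g1.real K := by
  rw [← g1_real_Icc hab]
  exact measureReal_mono (hK.ordConnected.out ha hb)

end E1

theorem ehr1Stmt : Ehr1Stmt := by
  intro θ h0 h1 K₀ K₁ K₂ m0 m1 _ _ _ c2 hK y₀ y₁ hy0 hy1
  obtain ⟨a0, ha0, b0, hb0, hab0, h2⟩ := E1.exists_Icc m0 hy0
  obtain ⟨a1, ha1, b1, hb1, hab1, h3⟩ := E1.exists_Icc m1 hy1
  have n0 := gPhi_neg b0
  have n1 := gPhi_neg b1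
  have hk := E1.key (a1 := a0) (a2 := y₀) (a3 := -b0) (b1 := a1) (b2 := y₁) (b3 := -b1) h0 h1
    (by linarith) (by linarith)
  have e : (1 - θ) * -b0 + θ * -b1 = -((1 - θ) * b0 + θ * b1) := by ring
  rw [e, gPhi_neg] at hk
  have hle := E1.le_real_of_convex c2 (hK a0 ha0 a1 ha1) (hK b0 hb0 b1 hb1) (by
    simp only [smul_eq_mul]
    nlinarith)
  simp only [smul_eq_mul] at hle
  linarith

theorem iso1Stmt : Iso1Stmt := by
  intro I J mI _ cJ r y hr hIJ hy
  obtain ⟨a, ha, b, hb, hab, h2⟩ := E1.exists_Icc mI hy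
  have n0 := gPhi_neg b
  have hk := E1.iso_key (a := a) (y := y) (c := -b) hr (by linarith)
  have e : -b - r = -(b + r) := by ring
  rw [e, gPhi_neg] at hk
  have hle := E1.le_real_of_convex cJ (hIJ a ha).1 (hIJ b hb).2 (by linarith)
  linarith

end Crest.Agent.R215
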