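import Crest.Agent.R215.Basic

/-! Row 215: Ehrhard's inequality for convex sets in every dimension, by symmetrisation. -/

set_option autoImplicit false

namespace Crest.Agent.R215

open MeasureTheory ProbabilityTheory Set Filter Topology

namespace EhrN

/-- The inclusion hypothesis of Ehrhard's inequality. -/
def Rel {V : Type*} [AddCommGroup V] [Module ℝ V] (θ : ℝ) (K₀ K₁ K₂ : Set V) : Prop :=
  ∀ a ∈ K₀, ∀ b ∈ K₁, (1 - θ) • a + θ • b ∈ K₂

section Sym

variable {V W : Type*} [AddCommGroup V] [Module ℝ V] [MeasurableSpace V] [AddCommGroup W]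
  [Module ℝ W] [MeasurableSpace W]

omit [MeasurableSpace V] [MeasurableSpace W] in
lemma Rel.preimage {θ : ℝ} {K₀ K₁ K₂ : Set W} (h : Rel θ K₀ K₁ K₂) {f : V → W}
    (hf : IsLinearMap ℝ f) : Rel θ (f ⁻¹' K₀) (f ⁻¹' K₁) (f ⁻¹' K₂) := fun a ha b hb => by
  rw [mem_preimage, hf.map_add, hf.map_smul, hf.map_smul]
  exact h _ ha _ hb

lemma transfer {μ : Measure V} {ν : Measure W} {f : V → W} (hf : IsLinearMap ℝ f)
    (hm : MeasurePreserving f μ ν) (h : EhrhardProp μ) : EhrhardProp ν := by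
  intro θ h0 h1 K₀ K₁ K₂ m0 m1 m2 c0 c1 c2 hR y₀ y₁ hy₀ hy₁
  rw [← hm.measureReal_preimage m0.nullMeasurableSet] at hy₀
  rw [← hm.measureReal_preimage m1.nullMeasurableSet] at hy₁
  rw [← hm.measureReal_preimage m2.nullMeasurableSet]
  exact h θ h0 h1 _ _ _ (hm.measurable m0) (hm.measurable m1) (hm.measurable m2)
    (c0.is_linear_preimage hf) (c1.is_linear_preimage hf) (c2.is_linear_preimage hf)
    (Rel.preimage hR hf) y₀ y₁ hy₀ hy₁

/-- Ehrhard's symmetrisation. -/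
def T (μ : Measure V) (K : Set (ℝ × V)) : Set (ℝ × ℝ) :=
  {q | gPhi (-q.2) < μ.real (Prod.mk q.1 ⁻¹' K)}

omit [AddCommGroup V] [Module ℝ V] in
lemma measurableSet_T (μ : Measure V) [SFinite μ] {K : Set (ℝ × V)} (hK : MeasurableSet K) :
    MeasurableSet (T μ K) :=
  measurableSet_lt (continuous_gPhi.measurable.comp measurable_snd.neg)
    ((measurable_measure_prodMk_left hK).ennreal_toReal.comp measurable_fst)

omit [MeasurableSpace V] in
lemma convex_section {K : Set (ℝ × V)} (hK : Convex ℝ K) (x : ℝ) : Convex ℝ (Prod.mk x ⁻¹' K) := by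
  intro a ha b hb s t hs ht hst
  have := hK ha hb hs ht hst
  simp only [Prod.smul_mk, Prod.mk_add_mk, smul_eq_mul, ← add_mul, hst, one_mul] at this
  exact this

lemma rel_T {μ : Measure V} (h : EhrhardProp μ) {θ : ℝ} (h0 : 0 ≤ θ) (h1 : θ ≤ 1)
    {K₀ K₁ K₂ : Set (ℝ × V)} (m0 : MeasurableSet K₀) (m1 : MeasurableSet K₁)
    (m2 : MeasurableSet K₂) (c0 : Convex ℝ K₀) (c1 : Convex ℝ K₁) (c2 : Convex ℝ K₂)
    (hR : Rel θ K₀ K₁ K₂) : Rel θ (T μ K₀) (T μ K₁) (T μ K₂) := by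
  intro a ha b hb
  have := h θ h0 h1 _ _ (Prod.mk ((1 - θ) * a.1 + θ * b.1) ⁻¹' K₂) (measurable_prodMk_left m0)
    (measurable_prodMk_left m1) (measurable_prodMk_left m2) (convex_section c0 _)
    (convex_section c1 _) (convex_section c2 _) (fun u hu v hv => hR _ hu _ hv) _ _ ha hb
  change gPhi (-((1 - θ) * a.2 + θ * b.2)) < _
  rw [show -((1 - θ) * a.2 + θ * b.2) = (1 - θ) * -a.2 + θ * -b.2 by ring]
  exact this

omit [MeasurableSpace V] in
lemma convex_iff_rel {K : Set V} : Convex ℝ K ↔ ∀ θ, 0 ≤ θ → θ ≤ 1 → Rel θ K K K := by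
  constructor
  · intro h θ h0 h1 a ha b hb
    exact h ha hb (by linarith) h0 (by ring)
  · intro h a ha b hb s t hs ht hst
    obtain rfl : s = 1 - t := by linarith
    exact h t ht (by linarith) a ha b hb

lemma convex_T {μ : Measure V} (h : EhrhardProp μ) {K : Set (ℝ × V)} (m : MeasurableSet K)
    (c : Convex ℝ K) : Convex ℝ (T μ K) :=
  convex_iff_rel.2 fun θ h0 h1 => rel_T h h0 h1 m m m c c c (convex_iff_rel.1 c θ h0 h1)

lemma g1_level {m : ℝ} (h0 : 0 ≤ m) (h1 : m ≤ 1) : g1.real {y | gPhi (-y) < m} = m := by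
  rcases h0.eq_or_lt with rfl | h0
  · have : {y | gPhi (-y) < 0} = (∅ : Set ℝ) :=
      eq_empty_of_forall_notMem fun y hy => (gPhi_nonneg _).not_gt hy
    rw [this, measureReal_empty]
  rcases h1.eq_or_lt with rfl | h1
  · have : {y | gPhi (-y) < 1} = (univ : Set ℝ) := eq_univ_of_forall fun y => gPhi_lt_one _
    rw [this, probReal_univ]
  obtain ⟨a, rfl⟩ := exists_gPhi_eq h0 h1
  have : {y | gPhi (-y) < gPhi a} = Ioi (-a) := by
    ext y
    simp only [mem_ofPred_eq, gPhi_lt_iff, mem_Ioi]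
    constructor <;> intro h <;> linarith
  rw [this, g1_real_Ioi, neg_neg]

omit [AddCommGroup V] [Module ℝ V] in
lemma measure_T (μ : Measure V) [IsProbabilityMeasure μ] {K : Set (ℝ × V)} (hK : MeasurableSet K) :
    (g1.prod g1).real (T μ K) = (g1.prod μ).real K := by
  rw [Measure.real, Measure.real, Measure.prod_apply hK, Measure.prod_apply (measurableSet_T μ hK)]
  congr 1
  refine lintegral_congr fun x => ?_
  rw [← ENNReal.toReal_eq_toReal_iff' (measure_ne_top _ _) (measure_ne_top _ _)]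
  exact g1_level (m := μ.real (Prod.mk x ⁻¹' K)) measureReal_nonneg measureReal_le_one

omit [AddCommGroup V] [Module ℝ V] in
lemma up_T (μ : Measure V) {K : Set (ℝ × V)} {x y t : ℝ} (h : (x, y) ∈ T μ K) (ht : 0 ≤ t) :
    (x, y + t) ∈ T μ K :=
  lt_of_le_of_lt (gPhi_le_iff.2 (by simp only; linarith)) h

end Sym

/-- Stability under a cone of slope `l`. -/
def Inv (l : ℝ) (K : Set (ℝ × ℝ)) : Prop :=
  ∀ q ∈ K, ∀ s t : ℝ, 0 ≤ s → |t| ≤ l * s → (q.1 + s, q.2 + t) ∈ K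

lemma Inv.mono {l l' : ℝ} {K : Set (ℝ × ℝ)} (h : Inv l K) (hl : l' ≤ l) : Inv l' K :=
  fun q hq s t hs ht => h q hq s t hs (ht.trans (mul_le_mul_of_nonneg_right hl hs))

lemma slant_T (h2 : Iso1Stmt) {l : ℝ} (hl : 0 ≤ l) {K : Set (ℝ × ℝ)} (m : MeasurableSet K)
    (c : Convex ℝ K) (hK : Inv l K) {x y s : ℝ} (h : (x, y) ∈ T g1 K) (hs : 0 ≤ s) :
    (x + s, y - l * s) ∈ T g1 K := by
  have hls : 0 ≤ l * s := mul_nonneg hl hs
  have := h2 _ (Prod.mk (x + s) ⁻¹' K) (measurable_prodMk_left m) (convex_section c x)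
    (convex_section c _) (l * s) (-y) hls (fun a ha =>
      ⟨hK _ ha s (-(l * s)) hs (by rw [abs_neg, abs_of_nonneg hls]),
        hK _ ha s (l * s) hs (by rw [abs_of_nonneg hls])⟩) h
  change gPhi (-(y - l * s)) < _
  rw [show -(y - l * s) = -y + l * s by ring]
  exact this

lemma exists_rot {c d : ℝ} (h : c ^ 2 + d ^ 2 = 1) :
    MeasurePreserving (fun q : ℝ × ℝ => (c * q.1 + d * q.2, -d * q.1 + c * q.2)) (g1.prod g1)
      (g1.prod g1) := by
  have hz : ‖(⟨c, d⟩ : ℂ)‖ = 1 := by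
    rw [Complex.norm_eq_sqrt_sq_add_sq, h, Real.sqrt_one]
  have hz0 : (⟨c, d⟩ : ℂ) ≠ 0 := fun h0 => by simp [h0] at hz
  have e1 := Complex.cos_arg hz0
  have e2 := Complex.sin_arg (⟨c, d⟩ : ℂ)
  rw [hz, div_one] at e1 e2
  refine ⟨by fun_prop, ?_⟩
  have := IsGaussian.map_rotation_eq_self (μ := g1) (by simp) (Complex.arg ⟨c, d⟩)
  refine Eq.trans ?_ this
  congr 1
  funext q
  rw [ContinuousLinearMap.rotation_apply, e1, e2]
  rfl

/-- An operation on convex sets of the plane that keeps the measure and the inclusion relation and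
produces stability under the cone of slope `l`. -/
def Op (l : ℝ) (S : Set (ℝ × ℝ) → Set (ℝ × ℝ)) : Prop :=
  (∀ K, MeasurableSet K → Convex ℝ K → MeasurableSet (S K) ∧ Convex ℝ (S K) ∧
    (g1.prod g1).real (S K) = (g1.prod g1).real K ∧ Inv l (S K)) ∧
  ∀ θ, 0 ≤ θ → θ ≤ 1 → ∀ K₀ K₁ K₂, MeasurableSet K₀ → MeasurableSet K₁ → MeasurableSet K₂ →
    Convex ℝ K₀ → Convex ℝ K₁ → Convex ℝ K₂ → Rel θ K₀ K₁ K₂ → Rel θ (S K₀) (S K₁) (S K₂)

lemma op_zero (h1 : Ehr1Stmt) : Op 0 fun K => Prod.swap ⁻¹' T g1 K := by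
  have hl : IsLinearMap ℝ (Prod.swap : ℝ × ℝ → ℝ × ℝ) := ⟨fun _ _ => rfl, fun _ _ => rfl⟩
  refine ⟨fun K m c => ⟨measurable_swap (measurableSet_T _ m),
    (convex_T h1 m c).is_linear_preimage hl, ?_, fun q hq s t hs ht => ?_⟩,
    fun θ h0 h1' K₀ K₁ K₂ m0 m1 m2 c0 c1 c2 hR =>
      (rel_T h1 h0 h1' m0 m1 m2 c0 c1 c2 hR).preimage hl⟩
  · rw [Measure.measurePreserving_swap.measureReal_preimage
      (measurableSet_T _ m).nullMeasurableSet, measure_T _ m]
  · obtain rfl : t = 0 := by simpa using ht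
    simpa using up_T g1 (x := q.2) (y := q.1) hq hs

lemma op_succ (h1 : Ehr1Stmt) (h2 : Iso1Stmt) {l : ℝ} (hl : 0 ≤ l) {S : Set (ℝ × ℝ) → Set (ℝ × ℝ)}
    (hS : Op l S) : ∃ S', Op (l + 1) S' := by
  obtain ⟨l', hl1, hl2⟩ : ∃ l' : ℝ, l + 1 ≤ l' ∧ l' ^ 2 = 2 * l * l' + 1 := by
    have e : √(1 + l ^ 2) ^ 2 = 1 + l ^ 2 := Real.sq_sqrt (by positivity)
    refine ⟨l + √(1 + l ^ 2), ?_, by nlinarith⟩
    have : 1 ≤ √(1 + l ^ 2) := Real.one_le_sqrt.2 (by nlinarith)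
    linarith
  obtain ⟨N, hN, hN2⟩ : ∃ N : ℝ, 0 < N ∧ N ^ 2 * (1 + l' ^ 2) = 1 :=
    ⟨(√(1 + l' ^ 2))⁻¹, by positivity, by
      rw [inv_pow, Real.sq_sqrt (by positivity), inv_mul_cancel₀ (by positivity)]⟩
  let R : ℝ × ℝ → ℝ × ℝ := fun q => (N * l' * q.1 + -N * q.2, -(-N) * q.1 + N * l' * q.2)
  have hm : MeasurePreserving R (g1.prod g1) (g1.prod g1) := exists_rot (by linarith)
  have hR : IsLinearMap ℝ R :=
    ⟨fun a b => by simp only [R, Prod.fst_add, Prod.snd_add, Prod.mk_add_mk]; congr 1 <;> ring,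
      fun a b => by
        simp only [R, Prod.smul_fst, Prod.smul_snd, Prod.smul_mk, smul_eq_mul]
        congr 1 <;> ring⟩
  refine ⟨fun K => R ⁻¹' T g1 (S K), fun K m c => ?_,
    fun θ h0 h1' K₀ K₁ K₂ m0 m1 m2 c0 c1 c2 hK => ?_⟩
  · obtain ⟨m', c', e', i'⟩ := hS.1 K m c
    refine ⟨hm.measurable (measurableSet_T _ m'), (convex_T h1 m' c').is_linear_preimage hR, ?_,
      Inv.mono (l := l') (fun q hq s t hs ht => ?_) hl1⟩
    · rw [hm.measureReal_preimage (measurableSet_T _ m').nullMeasurableSet, measure_T _ m', e']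
    · rw [abs_le] at ht
      have hA : 0 ≤ N * (l' * s - t) := mul_nonneg hN.le (by linarith)
      have hB : 0 ≤ N * ((1 + l * l') * s + (l' - l) * t) := by
        refine mul_nonneg hN.le ?_
        have : (l' - l) * -(l' * s) ≤ (l' - l) * t :=
          mul_le_mul_of_nonneg_left ht.1 (by linarith)
        have e : (l' - l) * -(l' * s) = -((1 + l * l') * s) := by
          linear_combination (-s) * hl2
        linarith
      have := up_T g1 (slant_T h2 hl m' c' i' (x := (R q).1) (y := (R q).2) hq hA) hB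
      refine mem_preimage.2 (Eq.mp (congrArg (· ∈ T g1 (S K)) ?_) this)
      simp only [R]
      congr 1 <;> ring
  · obtain ⟨m0', c0', -⟩ := hS.1 K₀ m0 c0
    obtain ⟨m1', c1', -⟩ := hS.1 K₁ m1 c1
    obtain ⟨m2', c2', -⟩ := hS.1 K₂ m2 c2
    exact (rel_T h1 h0 h1' m0' m1' m2' c0' c1' c2'
      (hS.2 θ h0 h1' K₀ K₁ K₂ m0 m1 m2 c0 c1 c2 hK)).preimage hR

lemma exists_op (h1 : Ehr1Stmt) (h2 : Iso1Stmt) (n : ℕ) : ∃ S, Op n S := by
  induction n with
  | zero => exact ⟨_, by simpa using op_zero h1⟩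
  | succ n ih =>
    obtain ⟨S, hS⟩ := ih
    simpa using op_succ h1 h2 (Nat.cast_nonneg n) hS

/-- A thin double cone. -/
def Wd (τ : ℝ) (n : ℕ) : Set (ℝ × ℝ) := {q | n * |q.1 - τ| ≤ |q.2|}

lemma tendsto_Wd (τ : ℝ) : Tendsto (fun n => (g1.prod g1).real (Wd τ n)) atTop (𝓝 0) := by
  have hm : ∀ n, MeasurableSet (Wd τ n) := fun n => measurableSet_le (by fun_prop) (by fun_prop)
  have h1 := tendsto_measure_iInter_atTop (μ := g1.prod g1) (s := Wd τ)
    (fun n => (hm n).nullMeasurableSet) (fun a b hab q hq =>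
      show (a : ℝ) * |q.1 - τ| ≤ |q.2| from
        (mul_le_mul_of_nonneg_right (Nat.cast_le.2 hab) (abs_nonneg _)).trans hq)
    ⟨0, measure_ne_top _ _⟩
  have h2 : (⋂ n, Wd τ n) = {τ} ×ˢ univ := by
    ext q
    simp only [mem_iInter, Wd, mem_ofPred_eq, mem_prod, mem_singleton_iff, mem_univ, and_true]
    constructor
    · intro h
      by_contra hq
      have hp : 0 < |q.1 - τ| := abs_pos.2 (sub_ne_zero.2 hq)
      obtain ⟨n, hn⟩ := exists_nat_gt (|q.2| / |q.1 - τ|)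
      rw [div_lt_iff₀ hp] at hn
      exact (h n).not_gt hn
    · intro h n
      simp [h]
  rw [h2, Measure.prod_prod, measure_singleton, zero_mul] at h1
  exact (ENNReal.tendsto_toReal ENNReal.zero_ne_top).comp h1

lemma real_half (τ : ℝ) : (g1.prod g1).real (Ioi τ ×ˢ univ) = gPhi (-τ) := by
  rw [measureReal_prod_prod, probReal_univ, mul_one, g1_real_Ioi]

lemma mem_of_lt {n : ℕ} {K : Set (ℝ × ℝ)} (hK : Inv n K) {y : ℝ}
    (h : gPhi y + (g1.prod g1).real (Wd (-y) n) < (g1.prod g1).real K) : (-y, (0 : ℝ)) ∈ K := by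
  by_contra hy
  have : K ⊆ Ioi (-y) ×ˢ univ ∪ Wd (-y) n := by
    intro q hq
    by_contra hq'
    simp only [mem_union, mem_prod, mem_Ioi, mem_univ, and_true, Wd, mem_ofPred_eq, not_or,
      not_lt, not_le] at hq'
    have := hK q hq (-y - q.1) (-q.2) (by linarith) (by
      rw [abs_neg, ← abs_of_nonneg (a := -y - q.1) (by linarith), abs_sub_comm]
      exact hq'.2.le)
    exact hy (by simpa using this)
  have h1 := (measureReal_mono (μ := g1.prod g1) this).trans (measureReal_union_le _ _)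
  rw [real_half, neg_neg] at h1
  linarith

lemma le_of_mem {n : ℕ} {K : Set (ℝ × ℝ)} (hK : Inv n K) {y : ℝ} (h : (-y, (0 : ℝ)) ∈ K) :
    gPhi y ≤ (g1.prod g1).real K + (g1.prod g1).real (Wd (-y) n) := by
  have : Ioi (-y) ×ˢ univ ⊆ K ∪ Wd (-y) n := by
    intro q hq
    have hq1 : -y < q.1 := hq.1
    by_cases hW : q ∈ Wd (-y) n
    · exact Or.inr hW
    · simp only [Wd, mem_ofPred_eq, not_le] at hW
      have := hK _ h (q.1 - -y) q.2 (by linarith) (by
        rw [abs_of_nonneg (a := q.1 - -y) (by linarith)] at hW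
        exact hW.le)
      exact Or.inl (by simpa using this)
  have h1 := (measureReal_mono (μ := g1.prod g1) this).trans (measureReal_union_le _ _)
  rwa [real_half, neg_neg] at h1

lemma plane (h1 : Ehr1Stmt) (h2 : Iso1Stmt) : EhrhardProp (g1.prod g1) := by
  intro θ h0 h1' K₀ K₁ K₂ m0 m1 m2 c0 c1 c2 hR y₀ y₁ hy₀ hy₁
  obtain ⟨η, hη, e0, e1⟩ : ∃ η : ℝ, 0 < η ∧ gPhi (y₀ + η) < (g1.prod g1).real K₀ ∧
      gPhi (y₁ + η) < (g1.prod g1).real K₁ := by
    have t : ∀ y, Tendsto (fun η => gPhi (y + η)) (𝓝[>] 0) (𝓝 (gPhi y)) := fun y =>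
      tendsto_nhdsWithin_of_tendsto_nhds
        ((by fun_prop : Continuous fun η => gPhi (y + η)).tendsto' 0 _ (by simp))
    exact (eventually_mem_nhdsWithin.and (((t y₀).eventually (gt_mem_nhds hy₀)).and
      ((t y₁).eventually (gt_mem_nhds hy₁)))).exists
  set y := (1 - θ) * y₀ + θ * y₁ with hy
  have e2 : gPhi y < gPhi (y + η) := strictMono_gPhi (by linarith)
  obtain ⟨n, n0, n1, n2⟩ := (((tendsto_Wd (-(y₀ + η))).eventually (gt_mem_nhds (sub_pos.2 e0))).and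
    (((tendsto_Wd (-(y₁ + η))).eventually (gt_mem_nhds (sub_pos.2 e1))).and
      ((tendsto_Wd (-(y + η))).eventually (gt_mem_nhds (sub_pos.2 e2))))).exists
  obtain ⟨S, hS, hS'⟩ := exists_op h1 h2 n
  obtain ⟨-, -, f0, i0⟩ := hS K₀ m0 c0
  obtain ⟨-, -, f1, i1⟩ := hS K₁ m1 c1
  obtain ⟨-, -, f2, i2⟩ := hS K₂ m2 c2
  have k := hS' θ h0 h1' K₀ K₁ K₂ m0 m1 m2 c0 c1 c2 hR _
    (mem_of_lt i0 (y := y₀ + η) (by linarith)) _ (mem_of_lt i1 (y := y₁ + η) (by linarith))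
  have k' : (-(y + η), (0 : ℝ)) ∈ S K₂ := by
    refine Eq.mp (congrArg (· ∈ S K₂) ?_) k
    simp only [Prod.smul_mk, Prod.mk_add_mk, smul_eq_mul, hy]
    congr 1 <;> ring
  have := le_of_mem i2 k'
  linarith

lemma prod_step (h1 : Ehr1Stmt) (h2 : Iso1Stmt) {V : Type*} [AddCommGroup V] [Module ℝ V]
    [MeasurableSpace V] {μ : Measure V} [IsProbabilityMeasure μ] (h : EhrhardProp μ) :
    EhrhardProp (g1.prod μ) := by
  intro θ h0 h1' K₀ K₁ K₂ m0 m1 m2 c0 c1 c2 hR y₀ y₁ hy₀ hy₁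
  rw [← measure_T μ m0] at hy₀
  rw [← measure_T μ m1] at hy₁
  rw [← measure_T μ m2]
  exact plane h1 h2 θ h0 h1' _ _ _ (measurableSet_T μ m0) (measurableSet_T μ m1)
    (measurableSet_T μ m2) (convex_T h m0 c0) (convex_T h m1 c1) (convex_T h m2 c2)
    (rel_T h h0 h1' m0 m1 m2 c0 c1 c2 hR) y₀ y₁ hy₀ hy₁

lemma point {V : Type*} [AddCommGroup V] [Module ℝ V] [MeasurableSpace V] [Subsingleton V]
    (μ : Measure V) [IsProbabilityMeasure μ] : EhrhardProp μ := by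
  intro θ _ _ K₀ K₁ K₂ _ _ _ _ _ _ hR y₀ y₁ hy₀ hy₁
  have ne : ∀ (K : Set V) y, gPhi y < μ.real K → K.Nonempty := fun K y h => by
    rw [nonempty_iff_ne_empty]
    rintro rfl
    rw [measureReal_empty] at h
    exact (gPhi_nonneg y).not_gt h
  obtain ⟨a, ha⟩ := ne _ _ hy₀
  obtain ⟨b, hb⟩ := ne _ _ hy₁
  rw [Subsingleton.eq_univ_of_nonempty ⟨_, hR a ha b hb⟩, probReal_univ]
  exact gPhi_lt_one _

lemma pi (h1 : Ehr1Stmt) (h2 : Iso1Stmt) (n : ℕ) :
    EhrhardProp (Measure.pi fun _ : Fin n => g1) := by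
  induction n with
  | zero => exact point _
  | succ n ih =>
    let e := MeasurableEquiv.piFinSuccAbove (fun _ : Fin (n + 1) => ℝ) 0
    refine transfer (f := e.symm) ⟨fun a b => e.injective ?_, fun c a => e.injective ?_⟩
      (measurePreserving_piFinSuccAbove (fun _ => g1) 0).symm (prod_step h1 h2 ih)
    · rw [show e (e.symm a + e.symm b) = e (e.symm a) + e (e.symm b) from rfl]
      simp only [MeasurableEquiv.apply_symm_apply]
    · rw [show e (c • e.symm a) = c • e (e.symm a) from rfl]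
      simp only [MeasurableEquiv.apply_symm_apply]

end EhrN

theorem ehrStmt_of (h1 : Ehr1Stmt) (h2 : Iso1Stmt) : EhrStmt := by
  intro E _ _ _ _ _
  refine EhrN.transfer (f := fun x => ∑ i, x i • stdOrthonormalBasis ℝ E i) ⟨fun a b => ?_,
    fun c a => ?_⟩ ⟨by fun_prop, rfl⟩ (EhrN.pi h1 h2 _)
  · simp [add_smul, Finset.sum_add_distrib]
  · simp [mul_smul, Finset.smul_sum]

end Crest.Agent.R215
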