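import Crest.Agent.R215.Cells

/-! Row 215: the real-variable end game. -/

set_option autoImplicit false

namespace Crest.Agent.R215.Fin6

/-- Heron-type form: `Θ(a,b,c)/4` is the Gram determinant of a zero-sum triple with squared norms
`a,b,c`. -/
def Theta (a b c : ℝ) : ℝ := (a + b + c) ^ 2 - 2 * (a ^ 2 + b ^ 2 + c ^ 2)

/-- The numerical form of the thin-cone lemma for a cell of mass `p`: `y₁,y₂,y₃` are the three big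
squared moments, `W` bounds the loss and `A` bounds `‖ξ‖²`. -/
def ThinNum (y₁ y₂ y₃ W A p : ℝ) : Prop :=
  ∃ B₁ B₂ B₃ : ℝ, 0 ≤ B₁ ∧ 0 ≤ B₂ ∧ 0 ≤ B₃ ∧ B₁ + B₂ + B₃ ≤ W ∧
    ∀ D0 : ℝ, 0 < D0 → 4 * D0 ^ 2 ≤ Theta (y₁ - B₁) (y₂ - B₂) (y₃ - B₃) →
      1 ≤ (1 - 2 * p) ^ 2 * (1 + A / (2 * Real.pi * D0))

lemma theta_lb {y₁ y₂ y₃ B₁ B₂ B₃ W lo m β T : ℝ} (h1 : 0 ≤ B₁) (h2 : 0 ≤ B₂) (h3 : 0 ≤ B₃)
    (hW : B₁ + B₂ + B₃ ≤ W) (l1 : lo ≤ y₁) (l2 : lo ≤ y₂) (l3 : lo ≤ y₃)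
    (hq : y₁ ^ 2 + y₂ ^ 2 + y₃ ^ 2 ≤ T + β * (y₁ + y₂ + y₃))
    (hm : m ≤ y₁ + y₂ + y₃) (hm1 : β + W ≤ m) (hm2 : 2 * lo ≤ m) :
    m ^ 2 - 2 * β * m - 2 * T - W * (2 * m - 4 * lo) - W ^ 2 ≤
      Theta (y₁ - B₁) (y₂ - B₂) (y₃ - B₃) := by
  set s := y₁ + y₂ + y₃ with hs
  set w := B₁ + B₂ + B₃ with hw
  have hw0 : 0 ≤ w := by positivity
  have e : Theta (y₁ - B₁) (y₂ - B₂) (y₃ - B₃) = s ^ 2 - 2 * (y₁ ^ 2 + y₂ ^ 2 + y₃ ^ 2) - 2 * s * w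
      + 4 * (y₁ * B₁ + y₂ * B₂ + y₃ * B₃) + w ^ 2 - 2 * (B₁ ^ 2 + B₂ ^ 2 + B₃ ^ 2) := by
    simp only [Theta, hs, hw]; ring
  have a1 : lo * w ≤ y₁ * B₁ + y₂ * B₂ + y₃ * B₃ := by
    have := mul_le_mul_of_nonneg_right l1 h1
    have := mul_le_mul_of_nonneg_right l2 h2
    have := mul_le_mul_of_nonneg_right l3 h3
    simp only [hw]; linarith
  have a2 : B₁ ^ 2 + B₂ ^ 2 + B₃ ^ 2 ≤ w ^ 2 := by
    have := mul_nonneg h1 h2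
    have := mul_nonneg h1 h3
    have := mul_nonneg h2 h3
    simp only [hw]; nlinarith
  have a3 : w * (2 * s - 4 * lo) ≤ W * (2 * s - 4 * lo) :=
    mul_le_mul_of_nonneg_right hW (by linarith)
  have a4 : w ^ 2 ≤ W ^ 2 := pow_le_pow_left₀ hw0 hW 2
  have a5 : 0 ≤ (s - m) * (s + m - 2 * β - 2 * W) := mul_nonneg (by linarith) (by linarith)
  rw [e]
  nlinarith

lemma thin_contra {p p' A D0 : ℝ} (h0 : 0 < p') (hp : p' ≤ p) (h1 : p ≤ 1 / 2) (hD : 0 < D0)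
    (hA0 : 0 ≤ A) (hA : A ≤ 6.283 * D0 * (4 * p' + 12 * p' ^ 2 + 32 * p' ^ 3))
    (h : 1 ≤ (1 - 2 * p) ^ 2 * (1 + A / (2 * Real.pi * D0))) : False := by
  have hpi := Real.pi_gt_d4
  have hpos : 0 < 2 * Real.pi * D0 := by positivity
  have hΨ : 0 ≤ 4 * p' + 12 * p' ^ 2 + 32 * p' ^ 3 := by positivity
  have h2 : A / (2 * Real.pi * D0) ≤ 4 * p' + 12 * p' ^ 2 + 32 * p' ^ 3 := by
    rw [div_le_iff₀ hpos]
    have : 6.283 * D0 ≤ 2 * Real.pi * D0 := by nlinarith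
    nlinarith [mul_le_mul_of_nonneg_right this hΨ]
  have h3 : (1 - 2 * p) ^ 2 ≤ (1 - 2 * p') ^ 2 := pow_le_pow_left₀ (by linarith) (by linarith) 2
  have h4 : 0 ≤ A / (2 * Real.pi * D0) := by positivity
  have h5 : (1 - 2 * p) ^ 2 * (1 + A / (2 * Real.pi * D0)) ≤
      (1 - 2 * p') ^ 2 * (1 + (4 * p' + 12 * p' ^ 2 + 32 * p' ^ 3)) :=
    mul_le_mul h3 (by linarith) (by linarith) (sq_nonneg _)
  have h6 : (1 - 2 * p') ^ 2 * (1 + (4 * p' + 12 * p' ^ 2 + 32 * p' ^ 3)) =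
      1 - p' ^ 4 * (80 - 128 * p') := by ring
  have h7 : 0 < p' ^ 4 * (80 - 128 * p') := mul_pos (by positivity) (by linarith)
  linarith

variable {p₁ p₂ p₃ p₄ p₅ y₁ y₂ y₃ y₄ y₅ σ δ : ℝ}

/-- Case Ia: the fourth cell has mass at most `0.0606`. -/
lemma caseIa (c1 : CellP p₁ y₁) (c2 : CellP p₂ y₂) (c3 : CellP p₃ y₃) (c4 : CellP p₄ y₄)
    (l1 : 0.046 ≤ y₁) (l2 : 0.046 ≤ y₂) (l3 : 0.046 ≤ y₃) (hσ : 0 ≤ σ) (hδ : 0 ≤ δ)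
    (hs : 0.35809 < y₁ + y₂ + y₃ + y₄ + σ) (hp : p₁ + p₂ + p₃ + p₄ + δ = 1)
    (ht : σ ≤ 2 * p₄ * δ) (h4 : p₄ ≤ 0.0606)
    (H : ThinNum y₁ y₂ y₃ (y₄ + σ) (16 * y₄ + σ) p₄) : False := by
  obtain ⟨B₁, B₂, B₃, b1, b2, b3, hB, H⟩ := H
  have e1 := L1 c1 l1
  have e2 := L1 c2 l2
  have e3 := L1 c3 l3
  have q1 := Q1 c1 l1
  have q2 := Q1 c2 l2
  have q3 := Q1 c3 l3
  obtain ⟨p0, p1, y0, y2, -⟩ := c4
  have hW : y₄ + σ ≤ 0.1212 * (p₄ + δ) := by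
    have := mul_le_mul_of_nonneg_right h4 (by linarith : 0 ≤ p₄ + δ)
    linarith
  have hq : p₄ + δ ≤ 0.1352 := by linarith
  have hT := theta_lb (m := 0.35809 - (y₄ + σ)) (β := 0.05) (lo := 0.046)
    (T := -0.0366 + 0.07 * (1 - p₄ - δ)) b1 b2 b3 hB l1 l2 l3
    (by linarith) (by linarith) (by linarith) (by linarith)
  refine thin_contra (D0 := 0.075) p0 le_rfl p1 (by norm_num) (by linarith) ?_
    (H _ (by norm_num) ?_)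
  · have t1 := mul_le_mul_of_nonneg_left hq p0.le
    have t2 := mul_le_mul_of_nonneg_left h4 p0.le
    have t3 := pow_pos p0 3
    linarith
  · refine le_trans ?_ hT
    have := sq_nonneg (y₄ + σ)
    linarith

/-- Case Ic: the fourth cell has mass at least `0.0606` and small moment. -/
lemma caseIc (c1 : CellP p₁ y₁) (c2 : CellP p₂ y₂) (c3 : CellP p₃ y₃) (c4 : CellP p₄ y₄)
    (l1 : 0.066 ≤ y₁) (l2 : 0.066 ≤ y₂) (l3 : 0.066 ≤ y₃) (hσ : 0 ≤ σ) (_hδ : 0 ≤ δ)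
    (hs : 0.35809 < y₁ + y₂ + y₃ + y₄ + σ) (hp : p₁ + p₂ + p₃ + p₄ + δ = 1)
    (ht : σ ≤ 0.1643 * δ) (h4 : 0.0606 ≤ p₄) (h5 : y₄ ≤ 0.01349)
    (H : ThinNum y₁ y₂ y₃ (y₄ + σ) (16 * y₄ + σ) p₄) : False := by
  obtain ⟨B₁, B₂, B₃, b1, b2, b3, hB, H⟩ := H
  have e1 := L2 c1 l1
  have e2 := L2 c2 l2
  have e3 := L2 c3 l3
  have q1 := Q2 c1 l1
  have q2 := Q2 c2 l2
  have q3 := Q2 c3 l3
  obtain ⟨p', a1, a2, a3, a4⟩ : ∃ p', 0.0606 ≤ p' ∧ p' ≤ 0.0901 ∧ p' ≤ p₄ ∧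
      y₄ ≤ 0.244 * p' - 0.00849 := by
    rcases le_total p₄ 0.0901 with h | h
    · exact ⟨p₄, h4, h, le_rfl, K2 c4 h4 h⟩
    · exact ⟨0.0901, by norm_num, le_rfl, h, by linarith⟩
  obtain ⟨p0, p1, y0, y2, -⟩ := c4
  have hT := theta_lb (m := 0.35809 - (y₄ + σ)) (β := 0.09) (lo := 0.066)
    (T := -0.0426 + 0.06 * (1 - p' - δ)) b1 b2 b3 hB l1 l2 l3
    (by linarith) (by linarith) (by linarith) (by linarith)
  refine thin_contra (D0 := 0.076) (p' := p') (by linarith) a3 p1 (by norm_num) (by linarith) ?_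
    (H _ (by norm_num) ?_)
  · have t2 : 2 * 0.0901 * p' - 0.0901 ^ 2 ≤ p' ^ 2 := by nlinarith [sq_nonneg (p' - 0.0901)]
    have t3 : 3 * 0.0901 ^ 2 * p' - 2 * 0.0901 ^ 3 ≤ p' ^ 3 := by
      nlinarith [mul_nonneg (sq_nonneg (p' - 0.0901)) (by linarith : 0 ≤ p' + 2 * 0.0901)]
    linarith
  · refine le_trans ?_ hT
    have := sq_nonneg (y₄ + σ)
    linarith

/-- Case IIIA. -/
lemma caseIIIA (c1 : CellP p₁ y₁) (c2 : CellP p₂ y₂) (c3 : CellP p₃ y₃) (c4 : CellP p₄ y₄)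
    (c5 : CellP p₅ y₅) (l1 : 0.066 ≤ y₁) (l2 : 0.066 ≤ y₂) (l3 : 0.066 ≤ y₃)
    (l4 : 0.01349 ≤ y₄) (u4 : y₄ ≤ 0.03) (u5 : y₅ ≤ 0.03) (hσ : 0 ≤ σ) (hδ : 0 ≤ δ)
    (hs : 0.35809 < y₁ + y₂ + y₃ + y₄ + y₅ + σ) (hp : p₁ + p₂ + p₃ + p₄ + p₅ + δ = 1)
    (ht : σ ≤ 2 * p₅ * δ) (ht' : σ ≤ 0.22 * δ) (ht'' : σ ≤ 2 * δ ^ 2)
    (H : ThinNum y₁ y₂ y₃ (y₅ + σ) (25 * y₅ + σ) p₅) : False := by
  obtain ⟨B₁, B₂, B₃, b1, b2, b3, hB, H⟩ := H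
  have e1 := L2 c1 l1
  have e2 := L2 c2 l2
  have e3 := L2 c3 l3
  have e4 := L3 c4 l4 u4
  have e5 := A3 c5 u5
  have q1 := Q2 c1 l1
  have q2 := Q2 c2 l2
  have q3 := Q2 c3 l3
  have m4 := M1 c4 u4
  obtain ⟨p0, p1, y0, y2, -⟩ := c5
  have hq0 : p₅ + δ ≤ 0.0606 := by linarith
  have hW0 : y₅ + σ ≤ 2 * (p₅ + δ) ^ 2 := by
    have := mul_nonneg p0.le hδ
    linarith
  have hq : p₅ + δ ≤ 0.046 := by
    by_contra hc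
    push Not at hc
    have := mul_nonneg (sub_nonneg.2 hc.le) (sub_nonneg.2 hq0)
    linarith
  have hW : y₅ + σ ≤ 0.092 * (p₅ + δ) := by
    have := mul_le_mul_of_nonneg_right hq (by linarith : 0 ≤ p₅ + δ)
    linarith
  have hT := theta_lb (m := 0.35809 - y₄ - (y₅ + σ)) (β := 0.09) (lo := 0.066)
    (T := -0.0426 + 0.06 * (1 - p₄ - p₅ - δ)) b1 b2 b3 hB l1 l2 l3
    (by linarith) (by linarith) (by linarith) (by linarith)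
  refine thin_contra (D0 := 0.082) p0 le_rfl p1 (by norm_num) (by linarith) ?_
    (H _ (by norm_num) ?_)
  · have t1 := mul_le_mul_of_nonneg_left hq p0.le
    have t2 := mul_le_mul_of_nonneg_left (by linarith : p₅ ≤ 0.046) p0.le
    have t3 := pow_pos p0 3
    linarith
  · refine le_trans ?_ hT
    have t1 := sq_nonneg (y₅ + σ)
    have t2 := sq_nonneg y₄
    have t3 := mul_nonneg (by linarith : 0 ≤ y₄) (by linarith : 0 ≤ y₅ + σ)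
    linarith

/-- Case IIIB. -/
lemma caseIIIB (c1 : CellP p₁ y₁) (c2 : CellP p₂ y₂) (c3 : CellP p₃ y₃) (c4 : CellP p₄ y₄)
    (c5 : CellP p₅ y₅) (l1 : 0.046 ≤ y₁) (l2 : 0.046 ≤ y₂) (l3 : 0.046 ≤ y₃)
    (o1 : y₄ ≤ y₁) (o2 : y₄ ≤ y₂) (o3 : y₄ ≤ y₃)
    (l4 : 0.03 ≤ y₄) (hσ : 0 ≤ σ) (hδ : 0 ≤ δ)
    (hs : 0.35809 < y₁ + y₂ + y₃ + y₄ + y₅ + σ) (hp : p₁ + p₂ + p₃ + p₄ + p₅ + δ = 1)
    (ht : σ ≤ 2 * p₅ * δ) (ht' : σ ≤ 0.41 * δ) (ht'' : σ ≤ 2 * δ ^ 2)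
    (H : ThinNum y₁ y₂ y₃ (y₅ + σ) (25 * y₅ + σ) p₅) : False := by
  obtain ⟨B₁, B₂, B₃, b1, b2, b3, hB, H⟩ := H
  have e1 := L1 c1 l1
  have e2 := L1 c2 l2
  have e3 := L1 c3 l3
  have e4 := L4 c4 l4
  have e5 := A4 c5
  have q1 := Q1 c1 l1
  have q2 := Q1 c2 l2
  have q3 := Q1 c3 l3
  obtain ⟨p0, p1, y0, y2, -⟩ := c5
  have u4 : y₄ ≤ 0.092 := by
    by_contra hc
    push Not at hc
    have := P2 c1 (by linarith)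
    have := P2 c2 (by linarith)
    have := P2 c3 (by linarith)
    have := P2 c4 (by linarith)
    linarith
  have m4 := M2 c4 u4
  have hq0 : p₅ + δ ≤ 0.075 := by linarith
  have hW0 : y₅ + σ ≤ 2 * (p₅ + δ) ^ 2 := by
    have := mul_nonneg p0.le hδ
    linarith
  have hq : p₅ + δ ≤ 0.0245 := by
    by_contra hc
    push Not at hc
    have := mul_nonneg (sub_nonneg.2 hc.le) (sub_nonneg.2 hq0)
    linarith
  have hW : y₅ + σ ≤ 0.049 * (p₅ + δ) := by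
    have := mul_le_mul_of_nonneg_right hq (by linarith : 0 ≤ p₅ + δ)
    linarith
  have hT := theta_lb (m := 0.35809 - y₄ - (y₅ + σ)) (β := 0.05) (lo := 0.046)
    (T := -0.0366 + 0.07 * (1 - p₄ - p₅ - δ)) b1 b2 b3 hB l1 l2 l3
    (by linarith) (by linarith) (by linarith) (by linarith)
  refine thin_contra (D0 := 0.05) p0 le_rfl p1 (by norm_num) (by linarith) ?_
    (H _ (by norm_num) ?_)
  · have t1 := mul_le_mul_of_nonneg_left hq p0.le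
    have t2 := mul_le_mul_of_nonneg_left (by linarith : p₅ ≤ 0.0245) p0.le
    have t3 := pow_pos p0 3
    linarith
  · refine le_trans ?_ hT
    have t1 := sq_nonneg (y₅ + σ)
    have t2 := sq_nonneg (y₄ - 0.08)
    have t3 := mul_nonneg (by linarith : 0 ≤ y₄) (by linarith : 0 ≤ y₅ + σ)
    linarith

lemma cap_quarter {p : ℝ} (h0 : 0.1377 ≤ p) (h1 : p ≤ 1 / 2) :
    (p * (1 - p)) ^ 2 ≤ 9 / 256 + 3 / 16 * (p - 1 / 4) := by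
  have : 0 ≤ -(p ^ 2 - 3 / 2 * p + 3 / 16) := by nlinarith
  nlinarith [mul_nonneg (sq_nonneg (p - 1 / 4)) this]

lemma cap_other {p y : ℝ} (h0 : 0.09 ≤ p) (h1 : p ≤ 1 / 2)
    (h : y ≤ 8 / Real.pi * (p * (1 - p)) ^ 2) : y ≤ 0.43428 * p - 0.01796 := by
  have hpi := Real.pi_gt_d6
  have h2 : 8 / Real.pi ≤ 2.5465 := by
    rw [div_le_iff₀ Real.pi_pos]; linarith
  have h3 : 8 / Real.pi * (p * (1 - p)) ^ 2 ≤ 2.5465 * (p * (1 - p)) ^ 2 :=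
    mul_le_mul_of_nonneg_right h2 (sq_nonneg _)
  have : 0 ≤ -(p ^ 2 - 1.41 * p + 0.081075) := by nlinarith
  nlinarith [mul_nonneg (sq_nonneg (p - 0.295)) this]

/-- Case II: four cells, none of them small. -/
lemma caseII (c1 : CellP p₁ y₁) (c2 : CellP p₂ y₂) (c3 : CellP p₃ y₃) (c4 : CellP p₄ y₄)
    (l1 : 0.01349 ≤ y₁) (l2 : 0.01349 ≤ y₂) (l3 : 0.01349 ≤ y₃) (l4 : 0.01349 ≤ y₄)
    (k1 : y₁ ≤ 8 / Real.pi * (p₁ * (1 - p₁)) ^ 2) (k2 : y₂ ≤ 8 / Real.pi * (p₂ * (1 - p₂)) ^ 2)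
    (k3 : y₃ ≤ 8 / Real.pi * (p₃ * (1 - p₃)) ^ 2) (k4 : y₄ ≤ 8 / Real.pi * (p₄ * (1 - p₄)) ^ 2)
    (hs : c0 < y₁ + y₂ + y₃ + y₄) (hp : p₁ + p₂ + p₃ + p₄ = 1) : False := by
  have a1 := P1 c1 l1
  have a2 := P1 c2 l2
  have a3 := P1 c3 l3
  have a4 := P1 c4 l4
  have b1 := cap_other a1 c1.2.1 k1
  have b2 := cap_other a2 c2.2.1 k2
  have b3 := cap_other a3 c3.2.1 k3
  have b4 := cap_other a4 c4.2.1 k4
  have hc := c0_gt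
  rcases le_total p₁ 0.1377 with h1 | h1
  · have := K1 c1 a1 h1; linarith
  rcases le_total p₂ 0.1377 with h2 | h2
  · have := K1 c2 a2 h2; linarith
  rcases le_total p₃ 0.1377 with h3 | h3
  · have := K1 c3 a3 h3; linarith
  rcases le_total p₄ 0.1377 with h4 | h4
  · have := K1 c4 a4 h4; linarith
  have d1 := cap_quarter h1 c1.2.1
  have d2 := cap_quarter h2 c2.2.1
  have d3 := cap_quarter h3 c3.2.1
  have d4 := cap_quarter h4 c4.2.1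
  have hpos : 0 ≤ 8 / Real.pi := by have := Real.pi_pos; positivity
  have hsum : (p₁ * (1 - p₁)) ^ 2 + (p₂ * (1 - p₂)) ^ 2 + (p₃ * (1 - p₃)) ^ 2 +
      (p₄ * (1 - p₄)) ^ 2 ≤ 9 / 64 := by linarith
  have := mul_le_mul_of_nonneg_left hsum hpos
  have e : 8 / Real.pi * (9 / 64) = c0 := by unfold c0; ring
  linarith

end Crest.Agent.R215.Fin6
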