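import Crest.Agent.R215.Defs2

/-! Row 215: numerics of the Gaussian density and distribution function. -/

set_option autoImplicit false

namespace Crest.Agent.R215

open Set Filter Topology
open scoped Real

namespace Numer

theorem le_of_deriv {f f' : ℝ → ℝ} (hf : ∀ x, HasDerivAt f (f' x) x) {a b : ℝ} (hab : a ≤ b)
    (h : ∀ x ∈ Icc a b, 0 ≤ f' x) : f a ≤ f b :=
  monotoneOn_of_deriv_nonneg (convex_Icc a b)
    (fun x _ => (hf x).continuousAt.continuousWithinAt)
    (fun x _ => (hf x).differentiableAt.differentiableWithinAt)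
    (fun x hx => by rw [(hf x).deriv]; exact h x (interior_subset hx))
    (left_mem_Icc.mpr hab) (right_mem_Icc.mpr hab) hab

theorem ge_of_deriv {f f' : ℝ → ℝ} (hf : ∀ x, HasDerivAt f (f' x) x) {a b : ℝ} (hab : a ≤ b)
    (h : ∀ x ∈ Icc a b, f' x ≤ 0) : f b ≤ f a :=
  neg_le_neg_iff.mp (le_of_deriv (f := fun x => -f x) (fun x => (hf x).neg) hab
    fun x hx => neg_nonneg.mpr (h x hx))

/-- Taylor polynomial of `exp (-u)`. -/
noncomputable def En (n : ℕ) (u : ℝ) : ℝ := ∑ k ∈ Finset.range (n + 1), (-u) ^ k / k.factorial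

/-- Taylor polynomial of `∫₀ˣ exp (-t²/2)`. -/
noncomputable def Tn (n : ℕ) (x : ℝ) : ℝ :=
  ∑ k ∈ Finset.range (n + 1), (-1) ^ k * x ^ (2 * k + 1) / (2 ^ k * k.factorial * (2 * k + 1))

theorem hasDerivAt_En (n : ℕ) (u : ℝ) : HasDerivAt (En (n + 1)) (-En n u) u := by
  have e : En (n + 1) = fun u : ℝ => ∑ k ∈ Finset.range (n + 1),
      (-u) ^ (k + 1) / (k + 1).factorial + 1 := by
    funext u; rw [En, Finset.sum_range_succ']; simp
  rw [e, En, ← Finset.sum_neg_distrib]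
  refine HasDerivAt.add_const _ (HasDerivAt.fun_sum fun k _ => ?_)
  refine (((hasDerivAt_neg u).fun_pow (k + 1)).div_const _).congr_deriv ?_
  rw [Nat.factorial_succ]
  push_cast
  field_simp

theorem En_zero (n : ℕ) : En n 0 = 1 := by rw [En, Finset.sum_range_succ']; simp

theorem En_sign (n : ℕ) : ∀ u : ℝ, 0 ≤ u → 0 ≤ (-1) ^ n * (En n u - Real.exp (-u)) := by
  induction n with
  | zero => intro u hu; simpa [En] using hu
  | succ n ih =>
    intro u hu
    have := le_of_deriv (f := fun u => (-1) ^ (n + 1) * (En (n + 1) u - Real.exp (-u)))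
      (f' := fun u => (-1) ^ n * (En n u - Real.exp (-u)))
      (fun x => (((hasDerivAt_En n x).sub (hasDerivAt_neg x).exp).const_mul _).congr_deriv
        (by ring)) hu (fun x hx => ih x hx.1)
    simpa [En_zero] using this

theorem hasDerivAt_Tn (n : ℕ) (x : ℝ) : HasDerivAt (Tn n) (En n (x ^ 2 / 2)) x := by
  unfold Tn En
  refine HasDerivAt.fun_sum fun k _ => ?_
  refine (((hasDerivAt_pow (2 * k + 1) x).const_mul _).div_const _).congr_deriv ?_
  rw [neg_pow (x ^ 2 / 2), div_pow, ← pow_mul]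
  push_cast
  field_simp

theorem Tn_sign (n : ℕ) {x : ℝ} (hx : 0 ≤ x) :
    0 ≤ (-1) ^ n * (gphi 0 * Tn n x - (1 / 2 - gPhi (-x))) := by
  have := le_of_deriv (f := fun x => (-1) ^ n * (gphi 0 * Tn n x + gPhi (-x)))
    (f' := fun x => gphi 0 * ((-1) ^ n * (En n (x ^ 2 / 2) - Real.exp (-(x ^ 2 / 2)))))
    (fun x => ((((hasDerivAt_Tn n x).const_mul _).add
      ((hasDerivAt_gPhi (-x)).comp x (hasDerivAt_neg x))).const_mul _).congr_deriv
      (by rw [gphi_neg, gphi_zero, gphi, neg_div]; ring)) hx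
    (fun x _ => mul_nonneg (gphi_pos 0).le (En_sign n _ (by positivity)))
  have e : Tn n 0 = 0 := by simp [Tn]
  rw [e, neg_zero, gPhi_zero] at this
  linarith

theorem phi0 : 0.398942 ≤ gphi 0 ∧ gphi 0 ≤ 0.398943 := by
  have h1 := Real.pi_gt_d20
  have h2 := Real.pi_lt_d20
  have h := gphi_zero_sq
  have h0 := gphi_pos 0
  rw [eq_div_iff (by positivity)] at h
  constructor
  · by_contra hc
    push Not at hc
    have : gphi 0 ^ 2 < 0.398942 ^ 2 := by gcongr
    nlinarith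
  · by_contra hc
    push Not at hc
    have : 0.398943 ^ 2 < gphi 0 ^ 2 := by gcongr
    nlinarith

/-- Enclosures of `φ`, `Φ`, `h` at `-x`. -/
def Val (x pl ph Pl Ph hh : ℝ) : Prop :=
  pl ≤ gphi (-x) ∧ gphi (-x) ≤ ph ∧ Pl ≤ gPhi (-x) ∧ gPhi (-x) ≤ Ph ∧ hfun (-x) ≤ hh

theorem val_of {x pl ph Pl Ph hh : ℝ} (hx : 0 ≤ x) (h1 : pl ≤ 0.398942 * En 11 (x ^ 2 / 2))
    (h2 : 0.398943 * En 10 (x ^ 2 / 2) ≤ ph) (h3 : Pl ≤ 1 / 2 - 0.398943 * Tn 10 x)
    (h4 : 1 / 2 - 0.398942 * Tn 11 x ≤ Ph) (h5 : 0 ≤ Tn 10 x) (h6 : 0 ≤ Tn 11 x)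
    (h7 : ph * (ph - x * Pl) ≤ hh) : Val x pl ph Pl Ph hh := by
  have a1 := En_sign 11 (x ^ 2 / 2) (by positivity)
  have a2 := En_sign 10 (x ^ 2 / 2) (by positivity)
  have a3 := Tn_sign 11 hx
  have a4 := Tn_sign 10 hx
  have e : gphi (-x) = gphi 0 * Real.exp (-(x ^ 2 / 2)) := by
    rw [gphi_neg, gphi_zero, gphi, neg_div]
  have a5 := Real.exp_pos (-(x ^ 2 / 2))
  obtain ⟨p1, p2⟩ := phi0
  norm_num at a1 a2 a3 a4
  have b2 : gphi (-x) ≤ ph := by rw [e]; nlinarith
  have b3 : Pl ≤ gPhi (-x) := by nlinarith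
  refine ⟨by rw [e]; nlinarith, b2, b3, by nlinarith, le_trans ?_ h7⟩
  refine mul_le_mul b2 ?_ (gphi_add_mul_pos _).le ((gphi_pos _).le.trans b2)
  nlinarith

theorem val_1_55 : Val 1.55 0.1200089 0.1200093 0.0605699 0.0605711 0.0031354 := by
  refine val_of (by norm_num) ?_ ?_ ?_ ?_ ?_ ?_ (by norm_num) <;>
    simp only [En, Tn, Finset.sum_range_succ, Finset.sum_range_zero, Nat.factorial] <;> norm_num

theorem val_1_34 : Val 1.34 0.1625549 0.1625554 0.0901219 0.0901230 0.0067936 := by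
  refine val_of (by norm_num) ?_ ?_ ?_ ?_ ?_ ?_ (by norm_num) <;>
    simp only [En, Tn, Finset.sum_range_succ, Finset.sum_range_zero, Nat.factorial] <;> norm_num

theorem val_1_11 : Val 1.11 0.2154580 0.2154586 0.1334988 0.1334998 0.0144950 := by
  refine val_of (by norm_num) ?_ ?_ ?_ ?_ ?_ ?_ (by norm_num) <;>
    simp only [En, Tn, Finset.sum_range_succ, Finset.sum_range_zero, Nat.factorial] <;> norm_num

theorem val_0_95 : Val 0.95 0.2540588 0.2540596 0.1710555 0.1710564 0.0232610 := by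
  refine val_of (by norm_num) ?_ ?_ ?_ ?_ ?_ ?_ (by norm_num) <;>
    simp only [En, Tn, Finset.sum_range_succ, Finset.sum_range_zero, Nat.factorial] <;> norm_num

theorem val_0_8 : Val 0.8 0.2896913 0.2896921 0.2118548 0.2118557 0.0348234 := by
  refine val_of (by norm_num) ?_ ?_ ?_ ?_ ?_ ?_ (by norm_num) <;>
    simp only [En, Tn, Finset.sum_range_succ, Finset.sum_range_zero, Nat.factorial] <;> norm_num

theorem val_0_66 : Val 0.66 0.3208635 0.3208644 0.2546264 0.2546271 0.0490317 := by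
  refine val_of (by norm_num) ?_ ?_ ?_ ?_ ?_ ?_ (by norm_num) <;>
    simp only [En, Tn, Finset.sum_range_succ, Finset.sum_range_zero, Nat.factorial] <;> norm_num

theorem val_0_52 : Val 0.52 0.3484922 0.3484932 0.3015314 0.3015320 0.0668051 := by
  refine val_of (by norm_num) ?_ ?_ ?_ ?_ ?_ ?_ (by norm_num) <;>
    simp only [En, Tn, Finset.sum_range_succ, Finset.sum_range_zero, Nat.factorial] <;> norm_num

theorem val_0_36 : Val 0.36 0.3739103 0.3739113 0.3594233 0.3594237 0.0914284 := by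
  refine val_of (by norm_num) ?_ ?_ ?_ ?_ ?_ ?_ (by norm_num) <;>
    simp only [En, Tn, Finset.sum_range_succ, Finset.sum_range_zero, Nat.factorial] <;> norm_num

theorem val_0_2 : Val 0.2 0.3910424 0.3910434 0.4207401 0.4207404 0.1200095 := by
  refine val_of (by norm_num) ?_ ?_ ?_ ?_ ?_ ?_ (by norm_num) <;>
    simp only [En, Tn, Finset.sum_range_succ, Finset.sum_range_zero, Nat.factorial] <;> norm_num

/-- The bracket in the derivative of `h`. -/
noncomputable def gg (a : ℝ) : ℝ := gPhi a * (1 - a ^ 2) - a * gphi a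

theorem hasDerivAt_hfun (a : ℝ) : HasDerivAt hfun (gphi a * gg a) a :=
  ((hasDerivAt_gphi a).mul ((hasDerivAt_gphi a).add
    ((hasDerivAt_id a).mul (hasDerivAt_gPhi a)))).congr_deriv (by simp [gg]; ring)

theorem hasDerivAt_gg (a : ℝ) : HasDerivAt gg (-2 * a * gPhi a) a :=
  (((hasDerivAt_gPhi a).mul ((hasDerivAt_pow 2 a).const_sub 1)).sub
    ((hasDerivAt_id a).mul (hasDerivAt_gphi a))).congr_deriv (by simp; ring)

theorem gg_mono {a b : ℝ} (hab : a ≤ b) (hb : b ≤ 0) : gg a ≤ gg b :=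
  le_of_deriv hasDerivAt_gg hab fun x hx =>
    mul_nonneg (by linarith [hx.2]) (gPhi_nonneg x)

theorem hfun_le_sq {a : ℝ} (ha : a ≤ 0) : hfun a ≤ gphi a ^ 2 := by
  have := mul_nonneg (gphi_pos a).le (mul_nonneg (neg_nonneg.mpr ha) (gPhi_nonneg a))
  rw [hfun]; linarith

theorem hfun_le (a : ℝ) : hfun a ≤ gPhi a ^ 2 := by
  have h1 : ∀ b ≤ a, hfun a - gPhi a ^ 2 ≤ hfun b - gPhi b ^ 2 := fun b hb =>
    ge_of_deriv (f := fun x => hfun x - gPhi x ^ 2) (f' := fun x => gphi x * (gg x - 2 * gPhi x))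
      (fun x => ((hasDerivAt_hfun x).sub ((hasDerivAt_gPhi x).fun_pow 2)).congr_deriv
        (by simp; ring)) hb fun x _ => mul_nonpos_of_nonneg_of_nonpos (gphi_pos x).le (by
          have := mills (-x)
          rw [neg_neg, gphi_neg] at this
          rw [gg]; linarith)
  have h2 : Tendsto (fun b => gphi b ^ 2) atBot (𝓝 0) := by
    simpa using tendsto_gphi_atBot.pow 2
  refine sub_nonpos.mp (ge_of_tendsto h2 ?_)
  filter_upwards [eventually_le_atBot a, eventually_le_atBot 0] with b hb hb0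
  linarith [h1 b hb, hfun_le_sq hb0, sq_nonneg (gPhi b)]

theorem quasi {A lam l r x : ℝ} (hA : 0 ≤ A) (hl : l ≤ x) (hr : x ≤ r) (h0 : r ≤ 0) :
    A * hfun x - lam * gPhi x ≤ A * hfun l - lam * gPhi l ∨
      A * hfun x - lam * gPhi x ≤ A * hfun r - lam * gPhi r := by
  have hd : ∀ x, HasDerivAt (fun x => A * hfun x - lam * gPhi x) (gphi x * (A * gg x - lam)) x :=
    fun x => (((hasDerivAt_hfun x).const_mul A).sub
      ((hasDerivAt_gPhi x).const_mul lam)).congr_deriv (by ring)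
  rcases le_total (A * gg x - lam) 0 with h | h
  · exact Or.inl (ge_of_deriv hd hl fun z hz => mul_nonpos_of_nonneg_of_nonpos (gphi_pos z).le
      (by linarith [mul_le_mul_of_nonneg_left (gg_mono hz.2 (hr.trans h0)) hA]))
  · exact Or.inr (le_of_deriv hd hr fun z hz => mul_nonneg (gphi_pos z).le
      (by linarith [mul_le_mul_of_nonneg_left (gg_mono hz.1 (hz.2.trans h0)) hA]))

theorem piece {l r pl ph Pl Ph hh pl' ph' Pl' Ph' hh' α y lam mu h0 : ℝ}
    (v : Val l pl ph Pl Ph hh) (v' : Val r pl' ph' Pl' Ph' hh') (hl : -l ≤ α) (hr : α ≤ -r)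
    (hr0 : 0 ≤ r) (hA : 0 ≤ 2 - 2 * h0 / 0.3581) (hlam : 0 ≤ lam)
    (c1 : (2 - 2 * h0 / 0.3581) * hh + h0 ^ 2 / 0.3581 - lam * Pl ≤ mu)
    (c2 : (2 - 2 * h0 / 0.3581) * hh' + h0 ^ 2 / 0.3581 - lam * Pl' ≤ mu)
    (hy : y ≤ 2 * hfun α - hfun α ^ 2 / 0.3581) :
    Pl ≤ gPhi α ∧ gPhi α ≤ Ph' ∧ y ≤ lam * gPhi α + mu := by
  refine ⟨v.2.2.1.trans (gPhi_le_iff.mpr hl), (gPhi_le_iff.mpr hr).trans v'.2.2.2.1, ?_⟩
  have a1 : y ≤ (2 - 2 * h0 / 0.3581) * hfun α + h0 ^ 2 / 0.3581 := by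
    have : 0 ≤ (hfun α - h0) ^ 2 / 0.3581 := by positivity
    refine hy.trans (le_of_sub_nonneg (this.trans_eq ?_))
    ring
  have a2 := mul_le_mul_of_nonneg_left v.2.2.2.2 hA
  have a3 := mul_le_mul_of_nonneg_left v'.2.2.2.2 hA
  have a4 := mul_le_mul_of_nonneg_left v.2.2.1 hlam
  have a5 := mul_le_mul_of_nonneg_left v'.2.2.1 hlam
  rcases quasi (lam := lam) hA hl hr (by linarith) with h | h <;> linarith

theorem tangent {x pl ph Pl Ph hh α : ℝ} (v : Val x pl ph Pl Ph hh) (hx0 : 0 ≤ x) (hx1 : x ≤ 1)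
    (hpl : 0 ≤ pl) (hPl : 0 ≤ Pl) (h1 : -1 ≤ α) (h0 : α ≤ 0) :
    gphi α ^ 2 ≤ ph ^ 2 + 2 * x * (ph * gPhi α - pl * Pl) := by
  have hm : ∀ a b, -1 ≤ a → a ≤ b → b ≤ 0 → -2 * b * gphi b ≤ -2 * a * gphi a :=
    fun a b ha hab hb => ge_of_deriv (f := fun a => -2 * a * gphi a)
      (f' := fun a => -2 * gphi a * (1 - a ^ 2))
      (fun a => (((hasDerivAt_id a).const_mul (-2)).mul (hasDerivAt_gphi a)).congr_deriv
        (by simp; ring)) hab fun z hz => mul_nonpos_of_nonpos_of_nonneg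
          (by linarith [gphi_pos z]) (by nlinarith [hz.1, hz.2])
  have hd : ∀ a, HasDerivAt (fun a => gphi a ^ 2 - 2 * x * gphi (-x) * gPhi a)
      (gphi a * (-2 * a * gphi a - 2 * x * gphi (-x))) a := fun a =>
    (((hasDerivAt_gphi a).fun_pow 2).sub ((hasDerivAt_gPhi a).const_mul _)).congr_deriv
      (by simp; ring)
  have a1 : gphi α ^ 2 - 2 * x * gphi (-x) * gPhi α
      ≤ gphi (-x) ^ 2 - 2 * x * gphi (-x) * gPhi (-x) := by
    rcases le_total α (-x) with h | h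
    · exact le_of_deriv hd h fun z hz => mul_nonneg (gphi_pos z).le
        (by linarith [hm z (-x) (h1.trans hz.1) hz.2 (by linarith)])
    · exact ge_of_deriv hd h fun z hz => mul_nonpos_of_nonneg_of_nonpos (gphi_pos z).le
        (by linarith [hm (-x) z (by linarith) hz.1 (hz.2.trans h0)])
  obtain ⟨v1, v2, v3, -, -⟩ := v
  have a2 : gphi (-x) ^ 2 ≤ ph ^ 2 := pow_le_pow_left₀ (gphi_pos _).le v2 2
  have a3 := mul_le_mul_of_nonneg_right v2 (gPhi_nonneg α)
  have a4 := mul_le_mul v1 v3 hPl (gphi_pos _).le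
  nlinarith

end Numer

open Numer in
theorem numStmt : NumStmt := by
  intro α y s κ hα hκ1 hκ2 hs hy0 hy hrem
  have hc1 := c0_gt
  have hc2 := c0_lt
  have hphi : gphi α ^ 2 ≤ 0.15916 := by
    have := pow_le_pow_left₀ (gphi_pos α).le ((gphi_le_zero α).trans phi0.2) 2
    norm_num at this ⊢
    linarith
  have h0 := hfun_pos α
  have h1 := hfun_le_sq hα
  have h2 := hfun_le α
  have hsq : (s - hfun α * κ) ^ 2 ≤ c0 * (s - y * κ) := by
    rw [← Real.sq_sqrt c0_pos.le, ← Real.sq_sqrt (show 0 ≤ s - y * κ by nlinarith), ← mul_pow]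
    exact pow_le_pow_left₀ (by nlinarith) (by linarith) 2
  have hy2 : 2 * hfun α * κ ≤ c0 → y ≤ 2 * hfun α - hfun α ^ 2 / 0.3581 := fun h => by
    have a1 : c0 * y * κ ≤ (2 * c0 * hfun α - hfun α ^ 2 * κ) * κ := by
      nlinarith [mul_nonneg (sub_nonneg.mpr hs.le) (sub_nonneg.mpr h), sq_nonneg (s - c0)]
    have a2 := le_of_mul_le_mul_right a1 (by linarith)
    have a3 : c0 * (hfun α ^ 2 / 0.3581) ≤ hfun α ^ 2 * κ := by
      rw [mul_div_assoc', div_le_iff₀ (by norm_num)]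
      nlinarith [sq_nonneg (hfun α)]
    exact le_of_mul_le_mul_left (by linarith) c0_pos
  have hp : gPhi α ≤ 1 / 2 := gPhi_zero ▸ gPhi_le_iff.mpr hα
  have hy' : α ≤ -0.52 → y ≤ 2 * hfun α - hfun α ^ 2 / 0.3581 := fun h => hy2 (by
    have a1 := (gPhi_le_iff.mpr h).trans val_0_52.2.2.2.1
    have a2 := pow_le_pow_left₀ (gPhi_nonneg α) a1 2
    nlinarith)
  refine ⟨gPhi_pos α, hp, hy0, ?_, ?_⟩
  · rcases le_or_gt (2 * hfun α * κ) c0 with h | h
    · have := hy2 h
      have : 0 ≤ hfun α ^ 2 / 0.3581 := by positivity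
      linarith
    · nlinarith
  rcases le_or_gt α (-1.55) with c0 | c0
  · exact Or.inl (by linarith [(gPhi_le_iff.mpr c0).trans val_1_55.2.2.2.1])
  rcases le_or_gt α (-1.34) with c1 | c1
  · obtain ⟨b1, b2, b3⟩ := piece val_1_55 val_1_34 c0.le c1 (by norm_num) (lam := 0.244)
      (mu := -0.00849) (h0 := 0.005) (by norm_num) (by norm_num) (by norm_num) (by norm_num)
      (hy' (by linarith))
    exact Or.inr (Or.inl ⟨by linarith, by linarith, by linarith⟩)
  rcases le_or_gt α (-1.11) with c2 | c2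
  · obtain ⟨b1, b2, b3⟩ := piece val_1_34 val_1_11 c1.le c2 (by norm_num) (lam := 0.345)
      (mu := -0.01756) (h0 := 0.0106) (by norm_num) (by norm_num) (by norm_num) (by norm_num)
      (hy' (by linarith))
    exact Or.inr (Or.inr (Or.inl ⟨by linarith, by linarith, by linarith⟩))
  rcases le_or_gt α (-0.95) with c3 | c3
  · obtain ⟨b1, b2, b3⟩ := piece val_1_11 val_0_95 c2.le c3 (by norm_num) (lam := 0.442)
      (mu := -0.03051) (h0 := 0.0189) (by norm_num) (by norm_num) (by norm_num) (by norm_num)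
      (hy' (by linarith))
    exact Or.inr (Or.inr (Or.inr (Or.inl ⟨by linarith, by linarith, by linarith⟩)))
  rcases le_or_gt α (-0.8) with c4 | c4
  · obtain ⟨b1, b2, b3⟩ := piece val_0_95 val_0_8 c3.le c4 (by norm_num) (lam := 0.521)
      (mu := -0.04398) (h0 := 0.029) (by norm_num) (by norm_num) (by norm_num) (by norm_num)
      (hy' (by linarith))
    exact Or.inr (Or.inr (Or.inr (Or.inr (Or.inl ⟨by linarith, by linarith, by linarith⟩))))
  rcases le_or_gt α (-0.66) with c5 | c5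
  · obtain ⟨b1, b2, b3⟩ := piece val_0_8 val_0_66 c4.le c5 (by norm_num) (lam := 0.587)
      (mu := -0.05792) (h0 := 0.0419) (by norm_num) (by norm_num) (by norm_num) (by norm_num)
      (hy' (by linarith))
    exact Or.inr (Or.inr (Or.inr (Or.inr (Or.inr (Or.inl ⟨by linarith, by linarith, by linarith⟩)))))
  rcases le_or_gt α (-0.52) with c6 | c6
  · obtain ⟨b1, b2, b3⟩ := piece val_0_66 val_0_52 c5.le c6 (by norm_num) (lam := 0.635)
      (mu := -0.07007) (h0 := 0.0579) (by norm_num) (by norm_num) (by norm_num) (by norm_num)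
      (hy' (by linarith))
    exact Or.inr (Or.inr (Or.inr (Or.inr (Or.inr (Or.inr (Or.inl ⟨by linarith, by linarith, by linarith⟩))))))
  have b0 := val_0_52.2.2.1.trans (gPhi_le_iff.mpr c6.le)
  have b1 := tangent val_0_52 (by norm_num) (by norm_num) (by norm_num) (by norm_num)
    (by linarith) hα
  have b2 := tangent val_0_36 (by norm_num) (by norm_num) (by norm_num) (by norm_num)
    (by linarith) hα
  have b3 := tangent val_0_2 (by norm_num) (by norm_num) (by norm_num) (by norm_num)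
    (by linarith) hα
  exact Or.inr (Or.inr (Or.inr (Or.inr (Or.inr (Or.inr (Or.inr
    ⟨by linarith, by linarith, by linarith, by linarith, by linarith⟩))))))

end Crest.Agent.R215
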