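import Crest.Agent.R215.Basic

/-! Row 215: Neyman-Pearson bound and the Ehrhard bound on the mean margin of a cell. -/

set_option autoImplicit false

namespace Crest.Agent.R215

open MeasureTheory ProbabilityTheory Set Filter Topology
open scoped RealInnerProductSpace

universe u

namespace Rm

variable {E : Type u} [NormedAddCommGroup E] [InnerProductSpace ℝ E] [FiniteDimensional ℝ E]
  [MeasurableSpace E] [BorelSpace E]

lemma integral_cexp (w t : E) :
    ∫ x, Complex.exp ((⟪w, x⟫ : ℝ) + (⟪x, t⟫ : ℝ) * Complex.I) ∂(stdGaussian E) =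
      Complex.exp (((‖w‖ ^ 2 / 2 : ℝ) : ℂ) + (⟪w, t⟫ : ℝ) * Complex.I - (‖t‖ : ℂ) ^ 2 / 2) := by
  set b := stdOrthonormalBasis ℝ E with hb
  rw [stdGaussian, integral_map (Measurable.aemeasurable (by fun_prop))
    (Measurable.aestronglyMeasurable (by fun_prop))]
  have h1 : ∀ x : Fin (Module.finrank ℝ E) → ℝ,
      Complex.exp ((⟪w, ∑ i, x i • stdOrthonormalBasis ℝ E i⟫ : ℝ) +
        (⟪∑ i, x i • stdOrthonormalBasis ℝ E i, t⟫ : ℝ) * Complex.I) =
      ∏ i, Complex.exp ((((⟪w, b i⟫ : ℝ) : ℂ) + (⟪b i, t⟫ : ℝ) * Complex.I) * (x i : ℂ)) := by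
    intro x
    rw [← Complex.exp_sum, inner_sum, sum_inner]
    congr 1
    simp only [real_inner_smul_left, real_inner_smul_right, Complex.ofReal_sum,
      Complex.ofReal_mul, Finset.sum_mul, ← Finset.sum_add_distrib, ← hb]
    refine Finset.sum_congr rfl fun i _ => ?_
    ring
  simp_rw [h1]
  rw [integral_fintype_prod_eq_prod (f := fun i (x : ℝ) =>
    Complex.exp ((((⟪w, b i⟫ : ℝ) : ℂ) + (⟪b i, t⟫ : ℝ) * Complex.I) * (x : ℂ)))]
  have h2 : ∀ z : ℂ, ∫ x : ℝ, Complex.exp (z * x) ∂(gaussianReal 0 1) = Complex.exp (z ^ 2 / 2) := by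
    intro z
    have := complexMGF_id_gaussianReal (μ := 0) (v := 1) z
    simpa [complexMGF] using this
  simp_rw [h2]
  rw [← Complex.exp_sum]
  congr 1
  have e1 := b.sum_sq_inner_left w
  have e2 := b.sum_sq_inner_right t
  have e3 := b.sum_inner_mul_inner w t
  have h3 : ∀ i, (((⟪w, b i⟫ : ℝ) : ℂ) + (⟪b i, t⟫ : ℝ) * Complex.I) ^ 2 / 2 =
      ((⟪w, b i⟫ ^ 2 : ℝ) : ℂ) / 2 + ((⟪w, b i⟫ * ⟪b i, t⟫ : ℝ) : ℂ) * Complex.I -
        ((⟪b i, t⟫ ^ 2 : ℝ) : ℂ) / 2 := by
    intro i
    push_cast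
    linear_combination ((⟪b i, t⟫ : ℝ) : ℂ) ^ 2 / 2 * Complex.I_sq
  simp_rw [h3]
  rw [Finset.sum_sub_distrib, Finset.sum_add_distrib, ← Finset.sum_div, ← Finset.sum_div,
    ← Finset.sum_mul, ← Complex.ofReal_sum, ← Complex.ofReal_sum, ← Complex.ofReal_sum, e1, e2, e3]
  push_cast
  ring

lemma integrable_exp_inner (w : E) :
    Integrable (fun x => Real.exp (⟪w, x⟫ - ‖w‖ ^ 2 / 2)) (stdGaussian E) := by
  have h := IsGaussian.map_eq_gaussianReal (μ := stdGaussian E) (innerSL ℝ w)
  have h2 := integrable_exp_mul_gaussianReal (μ := (stdGaussian E)[innerSL ℝ w])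
    (v := Var[innerSL ℝ w; stdGaussian E].toNNReal) 1
  rw [← h, integrable_map_measure (Measurable.aestronglyMeasurable (by fun_prop))
    (Measurable.aemeasurable (by fun_prop))] at h2
  refine (h2.mul_const (Real.exp (-(‖w‖ ^ 2 / 2)))).congr (Eventually.of_forall fun x => ?_)
  simp [sub_eq_add_neg, Real.exp_add]

/-- The Cameron-Martin formula. -/
lemma map_add (w : E) : (stdGaussian E).map (fun x => x + w) =
    (stdGaussian E).withDensity fun x => ENNReal.ofReal (Real.exp (⟪w, x⟫ - ‖w‖ ^ 2 / 2)) := by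
  have : IsProbabilityMeasure ((stdGaussian E).map (fun x => x + w)) :=
    Measure.isProbabilityMeasure_map (by fun_prop)
  have : IsFiniteMeasure ((stdGaussian E).withDensity
      fun x => ENNReal.ofReal (Real.exp (⟪w, x⟫ - ‖w‖ ^ 2 / 2))) :=
    isFiniteMeasure_withDensity_ofReal (integrable_exp_inner w).2
  apply Measure.ext_of_charFun
  ext t
  rw [charFun_map_add_const, charFun_stdGaussian, charFun_apply,
    integral_withDensity_eq_integral_toReal_smul (by fun_prop)
      (ae_of_all _ fun _ => ENNReal.ofReal_lt_top)]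
  have h1 : ∀ x : E, (ENNReal.ofReal (Real.exp (⟪w, x⟫ - ‖w‖ ^ 2 / 2))).toReal •
      Complex.exp ((⟪x, t⟫ : ℝ) * Complex.I) =
      Complex.exp ((⟪w, x⟫ : ℝ) + (⟪x, t⟫ : ℝ) * Complex.I) *
        Complex.exp (-((‖w‖ ^ 2 / 2 : ℝ) : ℂ)) := by
    intro x
    rw [ENNReal.toReal_ofReal (Real.exp_pos _).le, Complex.real_smul, Complex.ofReal_exp,
      ← Complex.exp_add, ← Complex.exp_add]
    congr 1
    push_cast
    ring
  simp_rw [h1]
  rw [integral_mul_const, integral_cexp, ← Complex.exp_add, ← Complex.exp_add]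
  congr 1
  ring

lemma real_preimage_add (w : E) {A : Set E} (hA : MeasurableSet A) :
    (stdGaussian E).real ((fun x => x + w) ⁻¹' A) =
      ∫ x in A, Real.exp (⟪w, x⟫ - ‖w‖ ^ 2 / 2) ∂(stdGaussian E) := by
  rw [← map_measureReal_apply (by fun_prop) hA, map_add, Measure.real, withDensity_apply _ hA,
    integral_eq_lintegral_of_nonneg_ae (ae_of_all _ fun _ => (Real.exp_pos _).le)
      (Measurable.aestronglyMeasurable (by fun_prop))]

lemma shift_le (w : E) {A : Set E} (hA : MeasurableSet A) :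
    (stdGaussian E).real ((fun x => x + w) ⁻¹' A) ≤
      (stdGaussian E).real A + ∫ x in A, ⟪w, x⟫ ∂(stdGaussian E) + ‖w‖ ^ 2 / 2 := by
  have i1 := integrable_exp_inner w
  have i2 := integrable_inner_std w
  have i3 : Integrable (fun x : E => ⟪w, x⟫ + (1 - ‖w‖ ^ 2 / 2)) (stdGaussian E) :=
    i2.add (integrable_const _)
  have h1 : ∫ x in A, (Real.exp (⟪w, x⟫ - ‖w‖ ^ 2 / 2) - (⟪w, x⟫ + (1 - ‖w‖ ^ 2 / 2)))
      ∂(stdGaussian E) ≤
      ∫ x, (Real.exp (⟪w, x⟫ - ‖w‖ ^ 2 / 2) - (⟪w, x⟫ + (1 - ‖w‖ ^ 2 / 2))) ∂(stdGaussian E) := by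
    refine setIntegral_le_integral (i1.sub i3) (ae_of_all _ fun x => ?_)
    have := Real.add_one_le_exp (⟪w, x⟫ - ‖w‖ ^ 2 / 2)
    simp only [Pi.zero_apply]
    linarith
  have h2 := real_preimage_add w (A := univ) MeasurableSet.univ
  rw [preimage_univ, probReal_univ, Measure.restrict_univ] at h2
  have h3 : ∫ x, ⟪w, x⟫ ∂(stdGaussian E) = 0 := by
    rw [integral_inner integrable_id_std, integral_id_stdGaussian, inner_zero_right]
  rw [integral_sub i1.integrableOn i3.integrableOn, integral_sub i1 i3,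
    integral_add i2.integrableOn (integrable_const _), integral_add i2 (integrable_const _),
    ← h2, h3, ← real_preimage_add w hA] at h1
  simp only [integral_const, probReal_univ, smul_eq_mul, measureReal_restrict_apply_univ] at h1
  have h4 : 0 ≤ (stdGaussian E).real A := measureReal_nonneg
  nlinarith [sq_nonneg ‖w‖]

/-- Neyman-Pearson bound. -/
lemma np_bound {A : Set E} {α : ℝ} (hα : gPhi α = (stdGaussian E).real A) :
    ‖∫ x in A, x ∂(stdGaussian E)‖ ≤ gphi α := by
  set z := ∫ x in A, x ∂(stdGaussian E) with hz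
  rcases eq_or_ne z 0 with h0 | h0
  · rw [h0, norm_zero]; exact (gphi_pos α).le
  have hn : 0 < ‖z‖ := norm_pos_iff.2 h0
  set e : E := (‖z‖⁻¹ : ℝ) • z with he
  have hu : ‖e‖ = 1 := by rw [he, norm_smul, norm_inv, norm_norm]; field_simp
  have h1 : ∫ x in A, ⟪e, x⟫ ∂(stdGaussian E) = ‖z‖ := by
    rw [integral_inner integrable_id_std.integrableOn, ← hz, he, real_inner_smul_left,
      real_inner_self_eq_norm_sq]
    field_simp
  have i2 := integrable_inner_std e
  have i3 : Integrable (fun x : E => ⟪e, x⟫ + α) (stdGaussian E) := i2.add (integrable_const _)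
  have i4 : Integrable (fun x : E => max 0 (⟪e, x⟫ + α)) (stdGaussian E) :=
    (integrable_const (0 : ℝ)).sup i3
  have h2 : ∫ x, max 0 (⟪e, x⟫ + α) ∂(stdGaussian E) = gphi α + α * gPhi α := by
    rw [← integral_posPart, ← map_inner_unit hu, integral_map (by fun_prop) (by fun_prop)]
  have h3 : ∫ x in A, (⟪e, x⟫ + α) ∂(stdGaussian E) ≤
      ∫ x, max 0 (⟪e, x⟫ + α) ∂(stdGaussian E) :=
    (integral_mono i3.integrableOn i4.integrableOn fun x => le_max_right _ _).trans
      (setIntegral_le_integral i4 (ae_of_all _ fun x => le_max_left _ _))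
  rw [integral_add i2.integrableOn (integrable_const _), h1, h2] at h3
  simp only [integral_const, smul_eq_mul, measureReal_restrict_apply_univ, ← hα] at h3
  linarith

omit [MeasurableSpace E] [BorelSpace E] in
lemma exists_dual {J : Type} {n : J → E} (hn : LinearIndependent ℝ n) :
    ∃ v : E, ∀ j, ⟪n j, v⟫ = 1 := by
  obtain ⟨f, hf⟩ := ((Module.Basis.span hn).constr ℝ fun _ => (1 : ℝ)).exists_extend
  refine ⟨(InnerProductSpace.toDual ℝ E).symm (LinearMap.toContinuousLinearMap f), fun j => ?_⟩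
  rw [real_inner_comm, InnerProductSpace.toDual_symm_apply]
  have h1 := LinearMap.congr_fun hf (Module.Basis.span hn j)
  rw [Module.Basis.constr_basis] at h1
  simpa using h1

/-- The shifted cells. -/
def cellT {ι : Type} (z : ι → E) (i : ι) (t : ℝ) : Set E := {x | ∀ j, j ≠ i → t < ⟪z i - z j, x⟫}

omit [FiniteDimensional ℝ E] [MeasurableSpace E] [BorelSpace E] in
lemma cellT_comb {ι : Type} (z : ι → E) (i : ι) {s t θ : ℝ} (h0 : 0 ≤ θ) (h1 : θ ≤ 1) {a b : E}
    (ha : a ∈ cellT z i s) (hb : b ∈ cellT z i t) :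
    (1 - θ) • a + θ • b ∈ cellT z i ((1 - θ) * s + θ * t) := by
  intro j hj
  have h2 := ha j hj
  have h3 := hb j hj
  rw [inner_add_right, real_inner_smul_right, real_inner_smul_right]
  rcases h0.eq_or_lt with rfl | h
  · simpa using h2
  · have := mul_lt_mul_of_pos_left h3 h
    have := mul_le_mul_of_nonneg_left h2.le (sub_nonneg.2 h1)
    linarith

omit [FiniteDimensional ℝ E] [MeasurableSpace E] [BorelSpace E] in
lemma convex_cellT {ι : Type} (z : ι → E) (i : ι) (t : ℝ) : Convex ℝ (cellT z i t) := by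
  intro a ha b hb x y hx hy hxy
  have := cellT_comb z i hy (by linarith) ha hb
  rw [show 1 - y = x by linarith, show x * t + y * t = t by rw [← add_mul, hxy, one_mul]] at this
  exact this

omit [FiniteDimensional ℝ E] in
lemma measurableSet_cellT {ι : Type} [Fintype ι] (z : ι → E) (i : ι) (t : ℝ) :
    MeasurableSet (cellT z i t) := by
  have : cellT z i t = ⋂ j : {j // j ≠ i}, {x | t < ⟪z i - z j.1, x⟫} := by
    ext x; simp [cellT]
  rw [this]
  exact (isOpen_iInter_of_finite fun j => isOpen_lt continuous_const (by fun_prop)).measurableSet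

lemma cellT_le {ι : Type} [Fintype ι] {z : ι → E} (h : Config z) (i : ι) :
    ∃ C : ℝ, ∀ t : ℝ, (stdGaussian E).real (cellT z i t) ≤ (stdGaussian E).real (cell z i) -
      t * (((Fintype.card ι : ℝ) - 1) / Fintype.card ι) + t ^ 2 * C := by
  classical
  obtain ⟨v, hv⟩ := exists_dual (linearIndependent_normals h.sum_zero h.neg i)
  have hk : (0 : ℝ) < Fintype.card ι := by
    have := h.card
    have : 0 < Fintype.card ι := by omega
    exact_mod_cast this
  have h1 : ⟪z i, v⟫ = ((Fintype.card ι : ℝ) - 1) / Fintype.card ι := by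
    have e1 : ∑ j, ⟪z i - z j, v⟫ = Fintype.card ι * ⟪z i, v⟫ := by
      have e0 : ∑ j, ⟪z j, v⟫ = 0 := by rw [← sum_inner, h.sum_zero, inner_zero_left]
      simp only [inner_sub_left, Finset.sum_sub_distrib, e0]
      simp
    have e2 : ∑ j, ⟪z i - z j, v⟫ = (Fintype.card ι : ℝ) - 1 := by
      have : ∀ j, ⟪z i - z j, v⟫ = 1 - if j = i then 1 else 0 := by
        intro j
        by_cases hj : j = i
        · simp [hj]
        · simpa [hj] using hv ⟨j, hj⟩
      simp [this]
    rw [eq_div_iff hk.ne']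
    linarith
  refine ⟨‖v‖ ^ 2 / 2, fun t => ?_⟩
  have h2 := shift_le (-(t • v)) (measurableSet_cell z i)
  have h3 : (fun x => x + -(t • v)) ⁻¹' cell z i = cellT z i t := by
    ext x
    simp only [cell, cellT, mem_preimage, mem_ofPred_eq]
    refine forall_congr' fun j => forall_congr' fun hj => ?_
    rw [inner_add_right, inner_neg_right, real_inner_smul_right, hv ⟨j, hj⟩]
    constructor <;> intro h <;> linarith
  rw [h3, integral_inner integrable_id_std.integrableOn, h.moment i, inner_neg_left,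
    real_inner_smul_left, real_inner_comm, h1, norm_neg, norm_smul, mul_pow, Real.norm_eq_abs,
    sq_abs] at h2
  linarith

lemma cellT_le_gPhi (hE : EhrhardProp (stdGaussian E)) {ι : Type} [Fintype ι] {z : ι → E}
    (h : Config z) (i : ι) {α : ℝ} (hα : gPhi α = (stdGaussian E).real (cell z i)) (t : ℝ) :
    (stdGaussian E).real (cellT z i t) ≤
      gPhi (α - t * (((Fintype.card ι : ℝ) - 1) / Fintype.card ι) / gphi α) := by
  obtain ⟨C, hC⟩ := cellT_le h i
  set κ := ((Fintype.card ι : ℝ) - 1) / Fintype.card ι with hκ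
  have key : ∀ y, gPhi y < (stdGaussian E).real (cellT z i t) → gphi α * (y - α) + t * κ ≤ 0 := by
    intro y hy
    have h1 : ∀ θ : ℝ, 0 ≤ θ → θ ≤ 1 →
        gPhi ((1 - θ) * α + θ * y) ≤ (stdGaussian E).real (cellT z i (θ * t)) := by
      intro θ h0 h1
      have hc : Continuous fun y0 : ℝ => gPhi ((1 - θ) * y0 + θ * y) := by fun_prop
      have ht : Tendsto (fun y0 : ℝ => gPhi ((1 - θ) * y0 + θ * y)) (𝓝[<] α)
          (𝓝 (gPhi ((1 - θ) * α + θ * y))) := (hc.tendsto α).mono_left nhdsWithin_le_nhds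
      refine le_of_tendsto ht ?_
      filter_upwards [self_mem_nhdsWithin] with y0 hy0
      refine (hE θ h0 h1 (cellT z i 0) (cellT z i t) (cellT z i (θ * t)) (measurableSet_cellT _ _ _)
        (measurableSet_cellT _ _ _) (measurableSet_cellT _ _ _) (convex_cellT _ _ _)
        (convex_cellT _ _ _) (convex_cellT _ _ _) (fun a ha b hb => ?_) y0 y ?_ hy).le
      · simpa using cellT_comb z i h0 h1 ha hb
      · exact (strictMono_gPhi hy0).trans_eq hα
    let F : ℝ → ℝ := fun θ => gPhi ((1 - θ) * α + θ * y) + θ * (t * κ) - θ ^ 2 * (t ^ 2 * C)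
    have hF : HasDerivAt F (gphi α * (y - α) + t * κ) 0 := by
      have a1 : HasDerivAt (fun θ : ℝ => (1 - θ) * α + θ * y) (y - α) 0 :=
        ((((hasDerivAt_id (0 : ℝ)).const_sub 1).mul_const α).add
          ((hasDerivAt_id (0 : ℝ)).mul_const y)).congr_deriv (by ring)
      have a2 := (hasDerivAt_gPhi _).comp (0 : ℝ) a1
      refine ((a2.add ((hasDerivAt_id (0 : ℝ)).mul_const (t * κ))).sub
        ((hasDerivAt_pow 2 (0 : ℝ)).mul_const (t ^ 2 * C))).congr_deriv ?_
      simp
    refine le_of_tendsto hF.tendsto_slope_zero_right ?_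
    filter_upwards [Ioc_mem_nhdsGT (zero_lt_one' ℝ)] with θ hθ
    have b1 := h1 θ hθ.1.le hθ.2
    have b2 := hC (θ * t)
    have b3 : F (0 + θ) - F 0 ≤ 0 := by
      simp only [F, zero_add, sub_zero, one_mul, zero_mul, add_zero]
      rw [hα]
      nlinarith
    exact mul_nonpos_of_nonneg_of_nonpos (inv_nonneg.2 hθ.1.le) b3
  by_contra hcon
  push Not at hcon
  have hp := gphi_pos α
  obtain ⟨y, hy⟩ := exists_gPhi_eq
    (p := (gPhi (α - t * κ / gphi α) + (stdGaussian E).real (cellT z i t)) / 2)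
    (by have := gPhi_pos (α - t * κ / gphi α); linarith)
    (by
      have : (stdGaussian E).real (cellT z i t) ≤ 1 := measureReal_le_one
      linarith)
  have h1 : α - t * κ / gphi α < y := gPhi_lt_iff.1 (by linarith)
  have h2 := key y (by linarith)
  have h3 : -(t * κ) / gphi α < y - α := by rw [neg_div]; linarith
  rw [div_lt_iff₀ hp] at h3
  linarith

omit [FiniteDimensional ℝ E] in
lemma measurable_gap {ι : Type} [Fintype ι] (z : ι → E) (i : ι) : Measurable (gap z i) := by
  unfold gap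
  refine measurable_const.max (Measurable.iInf fun j => ?_)
  exact Continuous.measurable (by fun_prop)

lemma integral_gap_le (hE : EhrhardProp (stdGaussian E)) {ι : Type} [Fintype ι] {z : ι → E}
    (h : Config z) (i : ι) {α : ℝ} (hα : gPhi α = (stdGaussian E).real (cell z i)) :
    ∫ x, gap z i x ∂(stdGaussian E) ≤
      hfun α * ((Fintype.card ι : ℝ) / ((Fintype.card ι : ℝ) - 1)) := by
  have hk : (1 : ℝ) < Fintype.card ι := by
    have := h.card
    have : 1 < Fintype.card ι := by omega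
    exact_mod_cast this
  set k : ℝ := (Fintype.card ι : ℝ) with hkdef
  have hp := gphi_pos α
  have hk1 : 0 < k - 1 := by linarith
  have hk0 : 0 < k := by linarith
  set c : ℝ := gphi α * (k / (k - 1)) with hc
  have hc0 : 0 < c := by positivity
  let Y : ℝ → ℝ := fun x => c * max 0 (x + α)
  have hY0 : ∀ x, 0 ≤ Y x := fun x => mul_nonneg hc0.le (le_max_left _ _)
  have hYi : Integrable Y g1 :=
    ((integrable_const (0 : ℝ)).sup (integrable_id_g1.add (integrable_const α))).const_mul c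
  have hYm : Measurable Y := by fun_prop
  have hg0 : ∀ x, 0 ≤ gap z i x := fun x => le_max_left _ _
  have h1 : ∫⁻ x, ENNReal.ofReal (gap z i x) ∂(stdGaussian E) ≤ ∫⁻ x, ENNReal.ofReal (Y x) ∂g1 := by
    rw [lintegral_eq_lintegral_meas_lt _ (ae_of_all _ hg0) (measurable_gap z i).aemeasurable,
      lintegral_eq_lintegral_meas_lt _ (ae_of_all _ hY0) hYm.aemeasurable]
    refine setLIntegral_mono' measurableSet_Ioi fun t ht => ?_
    have ht0 : 0 < t := ht
    have e1 : {a | t < Y a} = Ioi (t / c - α) := by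
      ext x
      simp only [Y, mem_ofPred_eq, mem_Ioi]
      rw [← div_lt_iff₀' hc0, lt_max_iff, or_iff_right (not_lt.2 (by positivity))]
      constructor <;> intro h <;> linarith
    have e2 : {a | t < gap z i a} ⊆ cellT z i t := by
      intro x hx j hj
      simp only [gap, mem_ofPred_eq, lt_max_iff, or_iff_right (not_lt.2 ht0.le)] at hx
      exact hx.trans_le (ciInf_le (Set.finite_range _).bddBelow (⟨j, hj⟩ : {j // j ≠ i}))
    refine (measure_mono e2).trans ?_
    rw [e1, ← ENNReal.toReal_le_toReal (measure_ne_top _ _) (measure_ne_top _ _)]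
    change (stdGaussian E).real _ ≤ g1.real _
    rw [g1_real_Ioi]
    refine (cellT_le_gPhi hE h i hα t).trans_eq ?_
    congr 1
    rw [hc, ← hkdef]
    field_simp
    ring
  have h2 : ∫ x, Y x ∂g1 = hfun α * (k / (k - 1)) := by
    simp only [Y]
    rw [integral_const_mul, integral_posPart, hc, hfun]
    ring
  rw [← h2, integral_eq_lintegral_of_nonneg_ae (ae_of_all _ hg0)
    (measurable_gap z i).aestronglyMeasurable,
    integral_eq_lintegral_of_nonneg_ae (ae_of_all _ hY0) hYm.aestronglyMeasurable]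
  refine ENNReal.toReal_mono ?_ h1
  exact ((hasFiniteIntegral_iff_ofReal (ae_of_all _ hY0)).1 hYi.2).ne

end Rm

theorem cellStmt_of (h : EhrStmt.{u}) : CellStmt.{u} := by
  intro E _ _ _ _ _ ι _ z hz i
  have h1 := hz.p_pos i
  have h2 := hz.p_le_half i
  obtain ⟨α, hα⟩ := exists_gPhi_eq h1 (by linarith)
  refine ⟨α, gPhi_le_iff.1 (by rw [gPhi_zero]; linarith), hα, ?_, Rm.integral_gap_le (h E) hz i hα⟩
  have := Rm.np_bound hα
  rwa [hz.moment i] at this

end Crest.Agent.R215
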