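import Crest.Agent.R215.Basic

/-! Row 215, subtask S: induction on the number of cells. -/

set_option autoImplicit false
set_option linter.unusedSectionVars false
set_option linter.unusedVariables false

namespace Crest.Agent.R215

open MeasureTheory ProbabilityTheory Set Filter Topology
open scoped RealInnerProductSpace

universe u v

namespace St

variable {E : Type u} [NormedAddCommGroup E] [InnerProductSpace ℝ E] [FiniteDimensional ℝ E]
  [MeasurableSpace E] [BorelSpace E] {ι : Type*} [Fintype ι]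

/-- The maximum of finitely many linear forms. -/
noncomputable def mx (y : ι → E) (x : E) : ℝ := ⨆ i, ⟪y i, x⟫

/-- Its Gaussian mean. -/
noncomputable def F (y : ι → E) : ℝ := ∫ x, mx y x ∂stdGaussian E

lemma le_mx (y : ι → E) (x : E) (i : ι) : ⟪y i, x⟫ ≤ mx y x :=
  le_ciSup (f := fun i => ⟪y i, x⟫) (Finite.bddAbove_range _) i

lemma mx_le [Nonempty ι] {y : ι → E} {x : E} {c : ℝ} (h : ∀ i, ⟪y i, x⟫ ≤ c) : mx y x ≤ c :=
  ciSup_le h

lemma abs_mx_sub_le (y y' : ι → E) (x : E) : |mx y x - mx y' x| ≤ ‖y - y'‖ * ‖x‖ := by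
  cases isEmpty_or_nonempty ι
  · simp only [mx, Real.iSup_of_isEmpty, sub_self, abs_zero]
    positivity
  have h : ∀ i, |⟪y i, x⟫ - ⟪y' i, x⟫| ≤ ‖y - y'‖ * ‖x‖ := fun i => by
    rw [← inner_sub_left]
    exact (abs_real_inner_le_norm _ _).trans
      (mul_le_mul_of_nonneg_right (norm_le_pi_norm (y - y') i) (norm_nonneg _))
  have h1 : mx y x ≤ mx y' x + ‖y - y'‖ * ‖x‖ := mx_le fun i => by
    linarith [le_mx y' x i, (abs_le.1 (h i)).2]
  have h2 : mx y' x ≤ mx y x + ‖y - y'‖ * ‖x‖ := mx_le fun i => by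
    linarith [le_mx y x i, (abs_le.1 (h i)).1]
  rw [abs_le]
  constructor <;> linarith

lemma mx_zero (x : E) : mx (0 : ι → E) x = 0 := by simp [mx]

lemma measurable_mx (y : ι → E) : Measurable (mx y) := Measurable.iSup fun i => by fun_prop

lemma integrable_mx (y : ι → E) : Integrable (mx y) (stdGaussian E) :=
  Integrable.mono' (integrable_id_std.norm.const_mul ‖y‖) (measurable_mx y).aestronglyMeasurable
    (ae_of_all _ fun x => by simpa [mx_zero] using abs_mx_sub_le y 0 x)

lemma continuous_F : Continuous (F : (ι → E) → ℝ) := by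
  refine (LipschitzWith.of_dist_le' (K := ∫ x, ‖x‖ ∂stdGaussian E) fun y y' => ?_).continuous
  rw [Real.dist_eq, F, F, ← integral_sub (integrable_mx y) (integrable_mx y'), dist_eq_norm,
    mul_comm, ← integral_const_mul]
  exact abs_integral_le_integral_abs.trans (integral_mono
    ((integrable_mx y).sub (integrable_mx y')).abs (integrable_id_std.norm.const_mul _)
    fun x => abs_mx_sub_le y y' x)

lemma F_smul {c : ℝ} (hc : 0 ≤ c) (y : ι → E) : F (c • y) = c * F y := by
  rw [F, F, ← integral_const_mul]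
  congr 1
  ext x
  simp only [mx, Real.mul_iSup_of_nonneg hc, Pi.smul_apply, real_inner_smul_left]

lemma integral_inner_std (v : E) : ∫ x, ⟪v, x⟫ ∂stdGaussian E = 0 := by
  rw [integral_inner integrable_id_std, integral_id_stdGaussian, inner_zero_right]

lemma F_add [Nonempty ι] (y : ι → E) (v : E) : F (fun i => y i + v) = F y := by
  have : mx (fun i => y i + v) = fun x => mx y x + ⟪v, x⟫ := by
    ext x
    simp only [mx, inner_add_left]
    exact (ciSup_add (Finite.bddAbove_range _) _).symm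
  rw [F, this, integral_add (integrable_mx y) (integrable_inner_std v), integral_inner_std,
    add_zero, F]

lemma sum_inner_eq {A : ι → Set E} (hA : ∀ i, MeasurableSet (A i)) (w : ι → E) :
    ∑ i, ⟪w i, ∫ x in A i, x ∂stdGaussian E⟫ = ∑ i, ∫ x in A i, ⟪w i, x⟫ ∂stdGaussian E :=
  Finset.sum_congr rfl fun i _ => (integral_inner integrable_id_std.integrableOn _).symm

lemma F_eq_sum {A : ι → Set E} (hA : ∀ i, MeasurableSet (A i))
    (hd : Pairwise fun i j => Disjoint (A i) (A j)) (hU : ⋃ i, A i = univ) (w : ι → E) :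
    F w = ∑ i, ∫ x in A i, mx w x ∂stdGaussian E := by
  rw [← integral_iUnion_fintype hA hd fun i => (integrable_mx w).integrableOn, hU,
    Measure.restrict_univ, F]

lemma sum_inner_le {A : ι → Set E} (hA : ∀ i, MeasurableSet (A i))
    (hd : Pairwise fun i j => Disjoint (A i) (A j)) (hU : ⋃ i, A i = univ) (w : ι → E) :
    ∑ i, ⟪w i, ∫ x in A i, x ∂stdGaussian E⟫ ≤ F w := by
  rw [sum_inner_eq hA, F_eq_sum hA hd hU]
  exact Finset.sum_le_sum fun i _ => integral_mono (integrable_inner_std _).integrableOn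
    (integrable_mx w).integrableOn fun x => le_mx w x i

lemma le_sq_of_le_mul_sqrt {s m : ℝ} (hs : 0 ≤ s) (h : s ≤ m * √s) : s ≤ m ^ 2 := by
  have h1 := Real.sq_sqrt hs
  nlinarith [sq_nonneg (m - √s)]

lemma sum_sq_le {A : ι → Set E} (hA : ∀ i, MeasurableSet (A i))
    (hd : Pairwise fun i j => Disjoint (A i) (A j)) (hU : ⋃ i, A i = univ) {m : ℝ}
    (h : ∀ y : ι → E, F y ≤ m * √(∑ i, ‖y i‖ ^ 2)) :
    ∑ i, ‖∫ x in A i, x ∂stdGaussian E‖ ^ 2 ≤ m ^ 2 := by
  refine le_sq_of_le_mul_sqrt (Finset.sum_nonneg fun _ _ => sq_nonneg _) (le_trans ?_ (h _))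
  simpa only [real_inner_self_eq_norm_sq] using
    sum_inner_le hA hd hU fun i => ∫ x in A i, x ∂stdGaussian E

variable (E) in
/-- The inequality for `k` cells. -/
def M (k : ℕ) : Prop := ∀ y : Fin k → E, F y ≤ √c0 * √(∑ i, ‖y i‖ ^ 2)

lemma M.any {k : ℕ} (h : M E k) (hk : Fintype.card ι = k) (y : ι → E) :
    F y ≤ √c0 * √(∑ i, ‖y i‖ ^ 2) := by
  have e := (Fintype.equivFinOfCardEq hk).symm
  have h1 := h (y ∘ e)
  have h2 : mx (y ∘ e) = mx y := funext fun x => e.iSup_comp (g := fun i => ⟪y i, x⟫)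
  rwa [F, h2, Function.comp_def, e.sum_comp fun i => ‖y i‖ ^ 2] at h1

lemma M.pred {k : ℕ} (h : M E (k + 1)) : M E k := fun y => by
  have h1 := h.any (ι := Option (Fin k)) (by simp) fun o => o.elim 0 y
  rw [Fintype.sum_option] at h1
  simp only [Option.elim_none, norm_zero, Option.elim_some, ne_eq, OfNat.ofNat_ne_zero,
    not_false_eq_true, zero_pow, zero_add] at h1
  refine le_trans (integral_mono (integrable_mx _) (integrable_mx _) fun x => ?_) h1
  exact Real.iSup_le (fun i => le_mx (fun o : Option (Fin k) => o.elim 0 y) x (some i))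
    (by simpa using le_mx (fun o : Option (Fin k) => o.elim 0 y) x none)

lemma M_three : M E 3 := fun y => by
  have h1 : ∀ x, mx y x + mx y (-x) ≤
      (|⟪y 0 - y 1, x⟫| + |⟪y 0 - y 2, x⟫| + |⟪y 1 - y 2, x⟫|) / 2 := fun x => by
    obtain ⟨i, hi⟩ := exists_eq_ciSup_of_finite (f := fun i => ⟪y i, x⟫)
    obtain ⟨j, hj⟩ := exists_eq_ciSup_of_finite (f := fun i => ⟪y i, -x⟫)
    rw [mx, mx, ← hi, ← hj]
    simp only [inner_sub_left, inner_neg_right]
    have a1 := le_abs_self (⟪y 0, x⟫ - ⟪y 1, x⟫)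
    have a2 := neg_abs_le (⟪y 0, x⟫ - ⟪y 1, x⟫)
    have a3 := le_abs_self (⟪y 0, x⟫ - ⟪y 2, x⟫)
    have a4 := neg_abs_le (⟪y 0, x⟫ - ⟪y 2, x⟫)
    have a5 := le_abs_self (⟪y 1, x⟫ - ⟪y 2, x⟫)
    have a6 := neg_abs_le (⟪y 1, x⟫ - ⟪y 2, x⟫)
    fin_cases i <;> fin_cases j <;> simp only [Fin.zero_eta, Fin.mk_one, Fin.reduceFinMk] <;>
      linarith
  have h2 : ∫ x, mx y (-x) ∂stdGaussian E = F y := by
    rw [F]
    conv_rhs => rw [← std_map_neg]
    rw [integral_map (by fun_prop) (measurable_mx y).aestronglyMeasurable]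
  have i1 : Integrable (fun x => mx y (-x)) (stdGaussian E) := by
    have := integrable_mx y
    rw [← std_map_neg] at this
    exact this.comp_measurable (by fun_prop)
  have i2 := fun a : E => (integrable_inner_std a).abs
  have h3 := integral_mono ((integrable_mx y).add i1)
    ((((i2 _).add (i2 _)).add (i2 _)).div_const 2) h1
  simp only [Pi.add_apply] at h3
  have i3 : Integrable (fun x => |⟪y 0 - y 1, x⟫| + |⟪y 0 - y 2, x⟫|) (stdGaussian E) :=
    (i2 _).add (i2 _)
  rw [integral_add (integrable_mx y) i1, h2, integral_div, integral_add i3 (i2 _),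
    integral_add (i2 _) (i2 _), integral_abs_inner, integral_abs_inner, integral_abs_inner] at h3
  have h4 : √c0 = 3 / 2 * gphi 0 := by
    have : c0 = (3 / 2 * gphi 0) ^ 2 := by
      rw [mul_pow, gphi_zero_sq, c0]
      ring
    rw [this, Real.sqrt_sq (by have := gphi_pos 0; positivity)]
  have h5 : (‖y 0 - y 1‖ + ‖y 0 - y 2‖ + ‖y 1 - y 2‖) / 3 ≤ √(∑ i, ‖y i‖ ^ 2) := by
    refine Real.le_sqrt_of_sq_le ?_
    have e1 := norm_sub_sq_real (y 0) (y 1)
    have e2 := norm_sub_sq_real (y 0) (y 2)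
    have e3 := norm_sub_sq_real (y 1) (y 2)
    have e4 := norm_add_sq_real (y 0 + y 1) (y 2)
    rw [norm_add_sq_real (y 0) (y 1), inner_add_left] at e4
    rw [Fin.sum_univ_three]
    nlinarith [sq_nonneg ‖y 0 + y 1 + y 2‖, sq_nonneg (‖y 0 - y 1‖ - ‖y 0 - y 2‖),
      sq_nonneg (‖y 0 - y 1‖ - ‖y 1 - y 2‖), sq_nonneg (‖y 0 - y 2‖ - ‖y 1 - y 2‖)]
  rw [h4]
  change F y + F y ≤ _ at h3
  nlinarith [mul_le_mul_of_nonneg_left h5 (gphi_pos 0).le]

lemma exists_argmax {k : ℕ} (y : Fin (k + 1) → E) : ∃ A : Fin (k + 1) → Set E,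
    (∀ i, MeasurableSet (A i)) ∧ (Pairwise fun i j => Disjoint (A i) (A j)) ∧ ⋃ i, A i = univ ∧
      ∀ i, ∀ x ∈ A i, ∀ j, ⟪y j, x⟫ ≤ ⟪y i, x⟫ := by
  refine ⟨disjointed fun i => {x | ∀ j, ⟪y j, x⟫ ≤ ⟪y i, x⟫}, fun i => ?_, disjoint_disjointed _,
    ?_, fun i x hx => disjointed_subset _ i hx⟩
  · rw [disjointed_eq_inter_compl]
    have h : ∀ i, MeasurableSet {x | ∀ j, ⟪y j, x⟫ ≤ ⟪y i, x⟫} := fun i => by
      rw [ofPred_forall]
      exact MeasurableSet.iInter fun j => measurableSet_le (by fun_prop) (by fun_prop)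
    exact (h i).inter (MeasurableSet.iInter fun j => MeasurableSet.iInter fun _ => (h j).compl)
  · rw [iUnion_disjointed, eq_univ_iff_forall]
    intro x
    obtain ⟨i, hi⟩ := Finite.exists_max fun i => ⟪y i, x⟫
    exact mem_iUnion.2 ⟨i, hi⟩

lemma M.erase [DecidableEq ι] {k : ℕ} (h : M E k) (hk : Fintype.card ι = k + 1) (j : ι)
    (w : ι → E) :
    F (fun l : {l // l ≠ j} => w l) ≤ √c0 * √(∑ l ∈ Finset.univ.erase j, ‖w l‖ ^ 2) := by
  have h1 := h.any (ι := {l // l ≠ j}) (by simp [hk]) fun l => w l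
  rwa [← Finset.sum_subtype (Finset.univ.erase j) (by simp) fun l => ‖w l‖ ^ 2] at h1

lemma exists_max (ι : Type*) [Fintype ι] : ∃ y : ι → E, ∑ i, ‖y i‖ ^ 2 ≤ 1 ∧
    ∀ w : ι → E, F w ≤ F y * √(∑ i, ‖w i‖ ^ 2) := by
  have hc : IsCompact {y : ι → E | ∑ i, ‖y i‖ ^ 2 ≤ 1} := by
    refine (isCompact_closedBall (0 : ι → E) 1).of_isClosed_subset
      (isClosed_le (by fun_prop) continuous_const) fun y hy => ?_
    rw [mem_closedBall_zero_iff, pi_norm_le_iff_of_nonneg zero_le_one]
    intro i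
    have := (Finset.single_le_sum (f := fun i => ‖y i‖ ^ 2) (fun _ _ => sq_nonneg _)
      (Finset.mem_univ i)).trans hy
    nlinarith [norm_nonneg (y i)]
  obtain ⟨y, hy, hmax⟩ := hc.exists_isMaxOn ⟨0, by simp⟩ continuous_F.continuousOn
  refine ⟨y, hy, fun w => ?_⟩
  have h0 : 0 ≤ ∑ i, ‖w i‖ ^ 2 := Finset.sum_nonneg fun _ _ => sq_nonneg _
  rcases h0.eq_or_lt with h | h
  · have : w = 0 := funext fun i => by
      have := (Finset.sum_eq_zero_iff_of_nonneg fun _ _ => sq_nonneg _).1 h.symm i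
        (Finset.mem_univ i)
      simpa using this
    simp [this, F, mx_zero]
  · have h1 : 0 < √(∑ i, ‖w i‖ ^ 2) := Real.sqrt_pos.2 h
    have h2 : F ((√(∑ i, ‖w i‖ ^ 2))⁻¹ • w) ≤ F y := hmax (by
      simp only [mem_ofPred_eq, Pi.smul_apply, norm_smul, mul_pow, norm_inv, Real.norm_eq_abs,
        inv_pow, sq_abs, Real.sq_sqrt h0, ← Finset.mul_sum]
      rw [inv_mul_cancel₀ h.ne'])
    rwa [F_smul (by positivity), inv_mul_le_iff₀ h1, mul_comm] at h2

lemma integrable_gap {ι : Type} [Fintype ι] (z : ι → E) (i : ι) [Nonempty {j // j ≠ i}] :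
    Integrable (gap z i) (stdGaussian E) := by
  obtain ⟨j⟩ := ‹Nonempty {j // j ≠ i}›
  refine Integrable.mono' (integrable_inner_std (z i - z j.1)).abs
    (measurable_const.max (Measurable.iInf fun j => by fun_prop)).aestronglyMeasurable
    (ae_of_all _ fun x => ?_)
  rw [Real.norm_eq_abs, gap, abs_of_nonneg (le_max_left _ _)]
  exact max_le (abs_nonneg _) ((ciInf_le (Finite.bddBelow_range _) j).trans (le_abs_self _))

lemma step (hno : ∀ (ι : Type) [Fintype ι] (z : ι → E), ¬ Config z) {k : ℕ} (hk : 3 ≤ k)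
    (h : M E k) : M E (k + 1) := by
  by_contra hM
  obtain ⟨y, hy, hmax⟩ := exists_max (E := E) (Fin (k + 1))
  set m := F y with hm
  have hm0 : √c0 < m := by
    by_contra hle
    exact hM fun w => (hmax w).trans
      (mul_le_mul_of_nonneg_right (not_lt.1 hle) (Real.sqrt_nonneg _))
  have hm1 : 0 < m := (Real.sqrt_nonneg _).trans_lt hm0
  obtain ⟨A, hA, hd, hU, hAy⟩ := exists_argmax y
  set z : Fin (k + 1) → E := fun i => ∫ x in A i, x ∂stdGaussian E with hz
  have h1 : ∑ i, ⟪y i, z i⟫ = m := by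
    rw [sum_inner_eq hA, hm, F_eq_sum hA hd hU]
    exact Finset.sum_congr rfl fun i _ => setIntegral_congr_fun (hA i) fun x hx =>
      le_antisymm (le_mx y x i) (mx_le (hAy i x hx))
  have h2 : ∑ i, ‖z i‖ ^ 2 ≤ m ^ 2 := sum_sq_le hA hd hU hmax
  have h3 : ∀ i, z i = m • y i := by
    have e : ∑ i, ‖z i - m • y i‖ ^ 2 =
        ∑ i, ‖z i‖ ^ 2 - 2 * m * ∑ i, ⟪y i, z i⟫ + m ^ 2 * ∑ i, ‖y i‖ ^ 2 := by
      rw [Finset.mul_sum, Finset.mul_sum, ← Finset.sum_sub_distrib, ← Finset.sum_add_distrib]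
      refine Finset.sum_congr rfl fun i _ => ?_
      rw [norm_sub_sq_real, real_inner_smul_right, norm_smul, mul_pow, Real.norm_eq_abs, sq_abs,
        real_inner_comm]
      ring
    have e2 : ∑ i, ‖z i - m • y i‖ ^ 2 = 0 :=
      le_antisymm (by rw [e, h1]; nlinarith [mul_le_mul_of_nonneg_left hy (sq_nonneg m)])
        (Finset.sum_nonneg fun _ _ => sq_nonneg _)
    intro i
    have := (Finset.sum_eq_zero_iff_of_nonneg fun _ _ => sq_nonneg _).1 e2 i (Finset.mem_univ i)
    simpa [sub_eq_zero] using this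
  have h4 : ∑ i, ‖z i‖ ^ 2 = m ^ 2 := by
    rw [sq m]
    calc _ = m * ∑ i, ⟪y i, z i⟫ := by
          rw [Finset.mul_sum]
          exact Finset.sum_congr rfl fun i _ => by
            rw [← real_inner_smul_left, ← h3, real_inner_self_eq_norm_sq]
      _ = _ := by rw [h1]
  have h5 : c0 < ∑ i, ‖z i‖ ^ 2 := by
    rw [h4]
    exact Real.lt_sq_of_sqrt_lt hm0
  have h6 : ∑ i, z i = 0 := by
    rw [← integral_iUnion_fintype hA hd fun i => integrable_id_std.integrableOn, hU,
      Measure.restrict_univ, integral_id_stdGaussian]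
  have h7 : ∀ i j, i ≠ j → ⟪z i, z j⟫ < 0 := by
    intro i j hij
    set w : Fin (k + 1) → E := fun l => if l = i ∨ l = j then z i + z j else z l with hw
    have hi : i ∈ Finset.univ.erase j := by simpa using hij
    have hl : ∀ l ∈ (Finset.univ.erase j).erase i, w l = z l := fun l hl =>
      if_neg (by simpa using hl)
    have hwi : w i = z i + z j := if_pos (Or.inl rfl)
    have hwj : w j = z i + z j := if_pos (Or.inr rfl)
    set T := ∑ l ∈ (Finset.univ.erase j).erase i, ‖z l‖ ^ 2 with hT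
    have e1 : ∑ l, ‖z l‖ ^ 2 = ‖z j‖ ^ 2 + (‖z i‖ ^ 2 + T) := by
      rw [hT, Finset.add_sum_erase _ (fun l => ‖z l‖ ^ 2) hi,
        Finset.add_sum_erase _ (fun l => ‖z l‖ ^ 2) (Finset.mem_univ j)]
    have e2 : ∑ l ∈ Finset.univ.erase j, ‖w l‖ ^ 2 = ‖z i + z j‖ ^ 2 + T := by
      rw [← Finset.add_sum_erase _ (fun l => ‖w l‖ ^ 2) hi, hwi, hT]
      congr 1
      exact Finset.sum_congr rfl fun l h => by rw [hl l h]
    have e3 : ∑ l, ⟪w l, z l⟫ = ‖z i + z j‖ ^ 2 + T := by
      rw [← Finset.add_sum_erase _ (fun l => ⟪w l, z l⟫) (Finset.mem_univ j),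
        ← Finset.add_sum_erase _ (fun l => ⟪w l, z l⟫) hi, hwi, hwj, ← add_assoc,
        ← inner_add_right, add_comm (z j), real_inner_self_eq_norm_sq, hT]
      congr 1
      exact Finset.sum_congr rfl fun l h => by rw [hl l h, real_inner_self_eq_norm_sq]
    have : Nonempty {l // l ≠ j} := ⟨⟨i, hij⟩⟩
    have e4 : F w ≤ F fun l : {l // l ≠ j} => w l :=
      integral_mono (integrable_mx _) (integrable_mx _) fun x => mx_le fun l => by
        by_cases hl : l = j
        · rw [hl, hwj, ← hwi]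
          exact le_mx (fun l : {l // l ≠ j} => w l) x ⟨i, hij⟩
        · exact le_mx (fun l : {l // l ≠ j} => w l) x ⟨l, hl⟩
    have e5 := (sum_inner_le hA hd hU w).trans (e4.trans (h.erase (by simp) j w))
    have hT0 : 0 ≤ T := Finset.sum_nonneg fun _ _ => sq_nonneg _
    rw [e2, e3] at e5
    have e6 := le_sq_of_le_mul_sqrt (by positivity) e5
    rw [Real.sq_sqrt c0_pos.le, norm_add_sq_real] at e6
    linarith
  have h8 : ∀ i, cell z i =ᵐ[stdGaussian E] A i := by
    intro i
    have hae : ∀ᵐ x ∂stdGaussian E, ∀ j, j ≠ i → ⟪z i - z j, x⟫ ≠ 0 :=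
      ae_all_iff.2 fun j => by
        by_cases hj : j = i
        · simp [hj]
        · filter_upwards [compl_mem_ae_iff.2
            (std_hyperplane (sub_ne_zero_of_neg h7 (Ne.symm hj)) 0)] with x hx _ using hx
    have hin : ∀ i j x, ⟪z i - z j, x⟫ = m * (⟪y i, x⟫ - ⟪y j, x⟫) := fun i j x => by
      rw [h3, h3, inner_sub_left, real_inner_smul_left, real_inner_smul_left, mul_sub]
    filter_upwards [hae] with x hx
    refine propext ⟨fun hc => ?_, fun hc j hj => ?_⟩
    · obtain ⟨j, hj⟩ := mem_iUnion.1 (hU.symm ▸ mem_univ x : x ∈ ⋃ i, A i)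
      by_cases hji : j = i
      · exact hji ▸ hj
      · have f1 := hc j hji
        have f2 := hAy j x hj i
        rw [hin] at f1
        nlinarith
    · refine lt_of_le_of_ne ?_ (hx j hj).symm
      rw [hin]
      exact mul_nonneg hm1.le (sub_nonneg.2 (hAy i x hc j))
  refine hno (Fin (k + 1)) z ⟨by simp; omega, h5, h6, h7, fun i => setIntegral_congr_set (h8 i),
    ?_, fun i => ?_⟩
  · rw [Finset.sum_congr rfl fun i _ => measureReal_congr (h8 i),
      ← measureReal_iUnion_fintype hd hA, hU, probReal_univ]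
  · obtain ⟨j, hj⟩ := Fintype.exists_ne_of_one_lt_card (α := Fin (k + 1)) (by simp; omega) i
    have : Nonempty {l // l ≠ i} := ⟨⟨j, hj⟩⟩
    have hk0 : (0 : ℝ) < k := by exact_mod_cast (by omega : 0 < k)
    have e1 : ∑ l, ‖z l‖ ^ 2 ≤ F z := by
      simpa only [real_inner_self_eq_norm_sq] using
        (show ∑ l, ⟪z l, z l⟫ ≤ F z from sum_inner_le hA hd hU z)
    have e2 : F z ≤ F (fun l : {l // l ≠ i} => z l) + ∫ x, gap z i x ∂stdGaussian E := by
      rw [F, F, ← integral_add (integrable_mx _) (integrable_gap z i)]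
      refine integral_mono (integrable_mx _) ((integrable_mx _).add (integrable_gap z i))
        fun x => mx_le fun l => ?_
      have g1 : 0 ≤ gap z i x := le_max_left _ _
      by_cases hl : l = i
      · obtain ⟨j, hj⟩ := exists_eq_ciInf_of_finite
          (f := fun j : {j // j ≠ i} => ⟪z i - z j.1, x⟫)
        have g2 : ⟪z i - z j.1, x⟫ ≤ gap z i x := hj.le.trans (le_max_right _ _)
        have g3 := le_mx (fun l : {l // l ≠ i} => z l) x j
        rw [inner_sub_left] at g2
        simp only [hl]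
        linarith
      · have g3 := le_mx (fun l : {l // l ≠ i} => z l) x ⟨l, hl⟩
        simp only at g3 ⊢
        linarith
    have e3 := h.erase (by simp) i fun l => z l + (k : ℝ)⁻¹ • z i
    rw [F_add (fun l : {l // l ≠ i} => z l)] at e3
    have e4 : ∑ l ∈ Finset.univ.erase i, ‖z l + (k : ℝ)⁻¹ • z i‖ ^ 2 =
        ∑ j, ‖z j‖ ^ 2 - ‖z i‖ ^ 2 * ((Fintype.card (Fin (k + 1)) : ℝ) /
          ((Fintype.card (Fin (k + 1)) : ℝ) - 1)) := by
      have g1 : ∑ l ∈ Finset.univ.erase i, z l = -z i :=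
        eq_neg_of_add_eq_zero_right (by rw [Finset.add_sum_erase _ _ (Finset.mem_univ i), h6])
      simp only [norm_add_sq_real]
      rw [Finset.sum_add_distrib, Finset.sum_add_distrib, ← Finset.mul_sum, ← sum_inner, g1,
        ← Finset.add_sum_erase _ (fun l => ‖z l‖ ^ 2) (Finset.mem_univ i), Finset.sum_const,
        Finset.card_erase_of_mem (Finset.mem_univ i), real_inner_smul_right, inner_neg_left,
        real_inner_self_eq_norm_sq, norm_smul, mul_pow, Real.norm_eq_abs, sq_abs]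
      simp only [Finset.card_univ, Fintype.card_fin, add_tsub_cancel_right, nsmul_eq_mul,
        Nat.cast_add, Nat.cast_one]
      field_simp
      ring
    rw [e4] at e3
    linarith

lemma M_all (hno : ∀ (ι : Type) [Fintype ι] (z : ι → E), ¬ Config z) (k : ℕ) : M E k := by
  rcases le_or_gt 3 k with hk | hk
  · induction k, hk using Nat.le_induction with
    | base => exact M_three
    | succ k hk ih => exact step hno hk ih
  · interval_cases k
    · exact M_three.pred.pred.pred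
    · exact M_three.pred.pred
    · exact M_three.pred

end St

theorem structStmt : StructStmt.{u, v} := fun E _ _ _ _ _ hno ι _ A hA hd hU => by
  have := St.sum_sq_le hA hd hU ((St.M_all hno _).any rfl)
  rwa [Real.sq_sqrt c0_pos.le] at this

end Crest.Agent.R215
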