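import Crest.Agent.R215.Disc

/-! The thin-cone lemma. -/

set_option autoImplicit false

namespace Crest.Agent.R215

open MeasureTheory ProbabilityTheory Set
open scoped RealInnerProductSpace Real

universe u

namespace Thin

theorem bathtub {K : Set (ℝ × ℝ)} (hK : MeasurableSet K) {V : ℝ} (hV : 0 ≤ V)
    (h : volume K ≤ ENNReal.ofReal V) : (g1.prod g1).real K ≤ 1 - Real.exp (-V / (2 * π)) := by
  have hpi := Real.pi_pos
  set ρ : ℝ × ℝ → ℝ := fun q => Real.exp (-(q.1 ^ 2 + q.2 ^ 2) / 2) / (2 * π) with hρ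
  have hρi : Integrable ρ := by
    have := ((integrable_exp_neg_mul_sq (b := 1 / 2) (by norm_num)).mul_prod
      (integrable_exp_neg_mul_sq (b := 1 / 2) (by norm_num))).div_const (2 * π)
    refine this.congr (ae_of_all _ fun q => ?_)
    simp only [hρ, ← Real.exp_add]
    congr 2; ring
  set c := Real.exp (-(V / π) / 2) / (2 * π) with hc
  set D := {q : ℝ × ℝ | q.1 ^ 2 + q.2 ^ 2 ≤ V / π} with hD
  have hDm : MeasurableSet D := measurableSet_le (by fun_prop) measurable_const
  set g := D.indicator fun q => ρ q - c with hg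
  have hc0 : 0 < c := by positivity
  have hg0 : ∀ q, 0 ≤ g q := fun q => indicator_nonneg (fun q hq => by
    have : q.1 ^ 2 + q.2 ^ 2 ≤ V / π := hq
    simp only [hρ, hc, sub_nonneg]
    gcongr) q
  have hg1 : ∀ q, g q ≤ ρ q := fun q => by
    simp only [hg, indicator]
    split_ifs
    · linarith
    · positivity
  have hg2 : ∀ q, ρ q ≤ g q + c := fun q => by
    simp only [hg, indicator]
    split_ifs with hq
    · linarith
    · have : V / π ≤ q.1 ^ 2 + q.2 ^ 2 := (not_le.mp hq).le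
      simp only [hρ, hc, zero_add]
      gcongr
  have hgi : Integrable g := hρi.mono' (Measurable.aestronglyMeasurable
    (Measurable.indicator (by simp only [hρ]; fun_prop) hDm))
    (ae_of_all _ fun q => by rw [Real.norm_of_nonneg (hg0 q)]; exact hg1 q)
  have hfin : volume K ≠ ⊤ := ne_top_of_le_ne_top ENNReal.ofReal_ne_top h
  have hci : IntegrableOn (fun _ => c) K := integrableOn_const hfin
  have a1 : ∫ q in K, ρ q ≤ ∫ q in K, (g q + c) :=
    setIntegral_mono hρi.integrableOn (hgi.integrableOn.add hci) hg2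
  rw [integral_add hgi.integrableOn hci, setIntegral_const, smul_eq_mul] at a1
  have a2 : ∫ q in K, g q ≤ ∫ q, g q := setIntegral_le_integral hgi (ae_of_all _ hg0)
  have a3 : volume.real K ≤ V := ENNReal.toReal_le_of_le_ofReal hV h
  have a2' : ∫ q, g q = 1 - Real.exp (-(V / π) / 2) - c * π * (V / π) := by
    rw [hg, integral_indicator hDm, hD, radial_disc (by positivity)]
  rw [a2'] at a2
  rw [g2_real hK]
  have a4 := mul_le_mul_of_nonneg_right a3 hc0.le
  have a5 : c * π * (V / π) = V * c := by field_simp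
  have a6 : -(V / π) / 2 = -V / (2 * π) := by ring
  rw [a5, a6] at a2
  linarith

theorem vol_triangle (m₁ m₂ be : ℝ) {al de L : ℝ} (hal : 0 < al) (hde : 0 < de) (hL : 0 ≤ L) :
    volume {q : ℝ × ℝ | 0 ≤ m₁ + al * q.1 ∧ 0 ≤ m₂ + be * q.1 + de * q.2 ∧
      m₁ + al * q.1 + (m₂ + be * q.1 + de * q.2) ≤ L} ≤ ENNReal.ofReal (L ^ 2 / (2 * (al * de))) := by
  have hle : -m₁ / al ≤ (L - m₁) / al := by gcongr; linarith
  rw [Measure.volume_eq_prod, Measure.prod_apply (by measurability)]
  calc _ ≤ ∫⁻ t, (Icc (-m₁ / al) ((L - m₁) / al)).indicator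
        (fun t => ENNReal.ofReal ((L - m₁ - al * t) / de)) t := by
        refine lintegral_mono fun t => ?_
        by_cases ht : t ∈ Icc (-m₁ / al) ((L - m₁) / al)
        · rw [indicator_of_mem ht]
          refine (measure_mono (t := Icc ((-m₂ - be * t) / de)
            ((L - m₁ - al * t - m₂ - be * t) / de)) fun s hs => ?_).trans (le_of_eq ?_)
          · obtain ⟨-, h2, h3⟩ := hs
            simp only at h2 h3
            rw [mem_Icc, div_le_iff₀ hde, le_div_iff₀ hde]
            constructor <;> linarith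
          · rw [Real.volume_Icc]; congr 1; ring
        · rw [indicator_of_notMem ht]
          refine le_of_eq (measure_mono_null (t := ∅) (fun s hs => ht ?_) measure_empty)
          obtain ⟨h1, h2, h3⟩ := hs
          simp only at h1 h2 h3
          rw [mem_Icc, div_le_iff₀ hal, le_div_iff₀ hal]
          constructor <;> linarith
    _ = _ := by
        rw [lintegral_indicator measurableSet_Icc, ← ofReal_integral_eq_lintegral_ofReal
          (Continuous.integrableOn_Icc (by fun_prop))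
          ((ae_restrict_iff' measurableSet_Icc).mpr (ae_of_all _ fun t ht => by
            have := ht.2
            rw [le_div_iff₀ hal] at this
            exact div_nonneg (by linarith) hde.le)),
          integral_Icc_eq_integral_Ioc, ← intervalIntegral.integral_of_le hle,
          intervalIntegral.integral_eq_sub_of_hasDerivAt
            (f := fun t => ((L - m₁) * t - al * t ^ 2 / 2) / de)
            (fun t _ => ((((hasDerivAt_id t).const_mul (L - m₁)).sub
              (((hasDerivAt_pow 2 t).const_mul al).div_const 2)).div_const de).congr_deriv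
              (by simp; ring))
            (Continuous.intervalIntegrable (by fun_prop) _ _)]
        congr 1
        field_simp
        ring

theorem half_integral {a : ℝ} (ha : 0 ≤ a) :
    ∫ s in Ioi (0 : ℝ), (1 - Real.exp (-a * s ^ 2)) ∂g1 = (1 - 1 / √(1 + 2 * a)) / 2 := by
  have hpi := Real.pi_pos
  rw [integral_sub (integrable_const _) ((integrable_const (1 : ℝ)).mono'
    (Continuous.aestronglyMeasurable (by fun_prop)) (ae_of_all _ fun s => by
      rw [Real.norm_of_nonneg (Real.exp_pos _).le, Real.exp_le_one_iff]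
      nlinarith [sq_nonneg s])), setIntegral_const, g1_real_Ioi, neg_zero, gPhi_zero,
    setIntegral_g1 _ measurableSet_Ioi]
  have e : ∀ s : ℝ, gphi s * Real.exp (-a * s ^ 2)
      = (√(2 * π))⁻¹ * Real.exp (-((1 + 2 * a) / 2) * s ^ 2) := fun s => by
    rw [gphi, mul_assoc, ← Real.exp_add]; congr 2; ring
  simp only [e]
  rw [integral_const_mul, integral_gaussian_Ioi,
    show π / ((1 + 2 * a) / 2) = 2 * π / (1 + 2 * a) by field_simp,
    Real.sqrt_div (by positivity)]
  have : 0 < √(2 * π) := by positivity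
  simp only [smul_eq_mul]
  field_simp

theorem exists_frame {E : Type*} [NormedAddCommGroup E] [InnerProductSpace ℝ E] (a b ξ : E)
    {D0 : ℝ} (hξ : ξ ≠ 0) (hD : 0 < D0) (hg : D0 ^ 2 ≤ gram2 (perp ξ a) (perp ξ b)) :
    ∃ (u e₁ e₂ : E) (ma mb al be de : ℝ), Orthonormal ℝ ![u, e₁, e₂] ∧ 0 < al ∧ 0 < de ∧
      D0 ≤ al * de ∧ ξ = ‖ξ‖ • u ∧ a = ma • u + al • e₁ ∧ b = mb • u + be • e₁ + de • e₂ := by
  have hn : 0 < ‖ξ‖ := norm_pos_iff.mpr hξ
  have hp : ∀ a : E, ⟪ξ, perp ξ a⟫ = 0 := fun a => by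
    rw [perp, inner_sub_right, inner_smul_right, real_inner_self_eq_norm_sq, real_inner_comm]
    field_simp
    ring
  set a' := perp ξ a with ha'
  set b' := perp ξ b with hb'
  have hD2 : 0 < D0 ^ 2 := by positivity
  have hal : 0 < ‖a'‖ := norm_pos_iff.mpr fun h => by
    simp only [gram2, h, norm_zero, inner_zero_left] at hg
    linarith
  set b'' := b' - (⟪a', b'⟫ / ‖a'‖ ^ 2) • a' with hb''
  have h1 : ⟪a', b''⟫ = 0 := by
    rw [hb'', inner_sub_right, inner_smul_right, real_inner_self_eq_norm_sq]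
    field_simp
    ring
  have h2 : ⟪ξ, b''⟫ = 0 := by
    rw [hb'', inner_sub_right, inner_smul_right, hp, hp]; simp
  have h3 : (‖a'‖ * ‖b''‖) ^ 2 = gram2 a' b' := by
    rw [mul_pow, hb'', norm_sub_sq_real, inner_smul_right, norm_smul, mul_pow, Real.norm_eq_abs,
      sq_abs, gram2, real_inner_comm a' b']
    field_simp
    ring
  have h4 : D0 ≤ ‖a'‖ * ‖b''‖ := by
    refine (pow_le_pow_iff_left₀ hD.le (by positivity) two_ne_zero).mp ?_
    rwa [h3]
  have hde : 0 < ‖b''‖ := (mul_pos_iff_of_pos_left hal).mp (hD.trans_le h4)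
  have hu : ∀ v : E, 0 < ‖v‖ → ‖‖v‖⁻¹ • v‖ = 1 := fun v hv => by
    rw [norm_smul, norm_inv, norm_norm, inv_mul_cancel₀ hv.ne']
  refine ⟨‖ξ‖⁻¹ • ξ, ‖a'‖⁻¹ • a', ‖b''‖⁻¹ • b'', ⟪a, ξ⟫ / ‖ξ‖, ⟪b, ξ⟫ / ‖ξ‖, ‖a'‖,
    ⟪a', b'⟫ / ‖a'‖, ‖b''‖, ?_, hal, hde, h4, ?_, ?_, ?_⟩
  · simp only [orthonormal_vecCons_iff, hu _ hn, hu _ hal, hu _ hde, Fin.forall_fin_two,
      Fin.forall_fin_one, Matrix.cons_val_zero, Matrix.cons_val_one, inner_smul_left,
      inner_smul_right, hp a, h1, h2, mul_zero, true_and, IsEmpty.forall_iff, ← ha']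
    exact ⟨⟨by rw [hp a]; simp, trivial⟩, by simp [Orthonormal]⟩
  · rw [smul_smul, mul_inv_cancel₀ hn.ne', one_smul]
  · rw [smul_smul, smul_smul, mul_inv_cancel₀ hal.ne', one_smul, ha', perp,
      show ⟪a, ξ⟫ / ‖ξ‖ * ‖ξ‖⁻¹ = ⟪a, ξ⟫ / ‖ξ‖ ^ 2 by field_simp]
    abel
  · rw [smul_smul, smul_smul, smul_smul, mul_inv_cancel₀ hde.ne', one_smul, hb'',
      show ⟪a', b'⟫ / ‖a'‖ * ‖a'‖⁻¹ = ⟪a', b'⟫ / ‖a'‖ ^ 2 by field_simp,
      show ⟪b, ξ⟫ / ‖ξ‖ * ‖ξ‖⁻¹ = ⟪b, ξ⟫ / ‖ξ‖ ^ 2 by field_simp, add_assoc, add_sub_cancel,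
      hb', perp, add_sub_cancel]

end Thin

open Thin in
theorem thinStmt : ThinStmt.{u} := by
  intro E _ _ _ _ _ a b ξ D0 A hξ hD hg hA
  have hpi := Real.pi_pos
  obtain ⟨u, e₁, e₂, ma, mb, al, be, de, ho, hal, hde, hD', h1, h2, h3⟩ :=
    exists_frame a b ξ hξ hD hg
  set n := ‖ξ‖ with hn
  have hn0 : 0 < n := norm_pos_iff.mpr hξ
  set B : Set (ℝ × ℝ × ℝ) := {p | 0 ≤ ma * p.1 + al * p.2.1 ∧ 0 ≤ mb * p.1 + be * p.2.1 + de * p.2.2
    ∧ ma * p.1 + al * p.2.1 + (mb * p.1 + be * p.2.1 + de * p.2.2) ≤ n * p.1} with hB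
  have hBm : MeasurableSet B := by
    rw [hB, measurableSet_setOfPred]
    refine Measurable.and ?_ (Measurable.and ?_ ?_) <;>
      refine measurableSet_setOfPred.mp (measurableSet_le ?_ ?_) <;> fun_prop
  set α := n ^ 2 / (4 * π * D0) with hα
  have hα0 : 0 ≤ α := by positivity
  have hi : Integrable (fun s : ℝ => 1 - Real.exp (-α * s ^ 2)) g1 :=
    (integrable_const (1 : ℝ)).mono' (Continuous.aestronglyMeasurable (by fun_prop))
      (ae_of_all _ fun s => by
        have : Real.exp (-α * s ^ 2) ≤ 1 := Real.exp_le_one_iff.mpr (by nlinarith [sq_nonneg s])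
        rw [Real.norm_of_nonneg (by linarith)]
        linarith [Real.exp_pos (-α * s ^ 2)])
  have a1 : stdGaussian E A ≤ ENNReal.ofReal ((1 - 1 / √(1 + 2 * α)) / 2) := by
    refine (measure_mono (t := (fun x => (⟪u, x⟫, ⟪e₁, x⟫, ⟪e₂, x⟫)) ⁻¹' B) fun x hx => ?_).trans ?_
    · have := hA x hx
      rw [h1, h2, h3] at this
      simp only [inner_add_left, real_inner_smul_left] at this
      exact this
    rw [(measurePreserving_triple ho).measure_preimage hBm.nullMeasurableSet,
      Measure.prod_apply hBm, ← half_integral hα0,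
      ofReal_integral_eq_lintegral_ofReal hi.integrableOn (ae_of_all _ fun s => by
        have : Real.exp (-α * s ^ 2) ≤ 1 := Real.exp_le_one_iff.mpr (by nlinarith [sq_nonneg s])
        simpa using this), setLIntegral_congr Ioi_ae_eq_Ici,
      ← lintegral_indicator measurableSet_Ici]
    refine lintegral_mono fun s => ?_
    by_cases hs : s ∈ Ici (0 : ℝ)
    · rw [indicator_of_mem hs]
      have hs' : 0 ≤ n * s := mul_nonneg hn0.le hs
      have b1 := bathtub (measurable_prodMk_left hBm) (by positivity)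
        (vol_triangle (ma * s) (mb * s) be hal hde hs')
      rw [← ofReal_measureReal]
      refine ENNReal.ofReal_le_ofReal (b1.trans ?_)
      gcongr
      rw [neg_div, neg_mul, neg_le_neg_iff, hα, div_div, div_mul_eq_mul_div, mul_pow]
      refine div_le_div_of_nonneg_left (by positivity) (by positivity) ?_
      nlinarith
    · rw [indicator_of_notMem hs]
      refine le_of_eq (measure_mono_null (t := ∅) (fun q hq => hs ?_) measure_empty)
      obtain ⟨c1, c2, c3⟩ := hq
      exact (mul_nonneg_iff_of_pos_left hn0).mp ((add_nonneg c1 c2).trans c3)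
  have hs1 : 1 ≤ √(1 + 2 * α) := Real.one_le_sqrt.mpr (by linarith)
  have hs2 : 1 / √(1 + 2 * α) ≤ 1 := by rw [div_le_one (by linarith)]; exact hs1
  have a2 : (stdGaussian E).real A ≤ (1 - 1 / √(1 + 2 * α)) / 2 :=
    ENNReal.toReal_le_of_le_ofReal (by linarith) a1
  have a3 : 1 + n ^ 2 / (2 * π * D0) = √(1 + 2 * α) ^ 2 := by
    rw [Real.sq_sqrt (by linarith), hα]; field_simp; ring
  rw [a3, ← mul_pow]
  refine one_le_pow₀ ?_
  rw [← div_le_iff₀ (by linarith)]
  linarith

end Crest.Agent.R215
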