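import Crest.Agent.R215.Geo
import Crest.Agent.R215.Num
import Crest.Agent.R215.Ehr1
import Crest.Agent.R215.EhrN
import Crest.Agent.R215.Struct
import Crest.Agent.R215.Thin
import Crest.Agent.R215.Cap
import Crest.Agent.R215.Removal

/-! Row 215: no minimal counterexample exists. -/

set_option autoImplicit false

namespace Crest.Agent.R215.Fin6

open MeasureTheory ProbabilityTheory Finset
open scoped RealInnerProductSpace

universe u

lemma exists_top {ι : Type} [DecidableEq ι] (y : ι → ℝ) (s : Finset ι) (n : ℕ)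
    (hs : n + 1 ≤ s.card) :
    ∃ a ∈ s, (∀ l ∈ s, y l ≤ y a) ∧ n ≤ (s.erase a).card ∧ (s.erase a).card + 1 = s.card := by
  obtain ⟨a, ha, hmax⟩ := exists_max_image s y (card_pos.1 (by omega))
  have := card_erase_add_one ha
  exact ⟨a, ha, hmax, by omega, this⟩

lemma tail_le {ι : Type} {p y : ι → ℝ} {T : Finset ι} {r : ℝ} (h : ∀ l ∈ T, y l ≤ r * p l) :
    ∑ l ∈ T, y l ≤ r * ∑ l ∈ T, p l := by
  rw [mul_sum]; exact sum_le_sum h

lemma tail_sq {ι : Type} {p y : ι → ℝ} {T : Finset ι} (h : ∀ l, CellP (p l) (y l)) :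
    ∑ l ∈ T, y l ≤ 2 * (∑ l ∈ T, p l) ^ 2 := by
  have : ∑ l ∈ T, y l ≤ (2 * ∑ l ∈ T, p l) * ∑ l ∈ T, p l := by
    refine tail_le fun l hl => ?_
    have h1 : p l ≤ ∑ l ∈ T, p l := single_le_sum (fun j _ => (h j).1.le) hl
    have h2 := (h l).2.2.2.1
    have h3 := mul_le_mul_of_nonneg_right h1 (h l).1.le
    linarith
  linarith

variable {E : Type u} [NormedAddCommGroup E] [InnerProductSpace ℝ E] [FiniteDimensional ℝ E]
  [MeasurableSpace E] [BorelSpace E] {ι : Type} [Fintype ι] {z : ι → E}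

lemma cellP_of_config (h : Config z) (i : ι) :
    CellP ((stdGaussian E).real (cell z i)) (‖z i‖ ^ 2) := by
  obtain ⟨α, h0, h1, h2, h3⟩ := cellStmt_of (ehrStmt_of ehr1Stmt iso1Stmt) E ι z h i
  have hk : (4 : ℝ) ≤ Fintype.card ι := by exact_mod_cast h.card
  rw [← h1]
  refine numStmt α _ (∑ j, ‖z j‖ ^ 2) ((Fintype.card ι : ℝ) / ((Fintype.card ι : ℝ) - 1)) h0 ?_ ?_
    h.big (sq_nonneg _) (pow_le_pow_left₀ (norm_nonneg _) h2 2) ?_
  · rw [le_div_iff₀ (by linarith)]; linarith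
  · rw [div_le_iff₀ (by linarith)]; linarith
  · linarith [h.removal i]

theorem not_config (h : Config z) : False := by
  classical
  set p : ι → ℝ := fun i => (stdGaussian E).real (cell z i) with hp
  set y : ι → ℝ := fun i => ‖z i‖ ^ 2 with hy
  have hc : ∀ i, CellP (p i) (y i) := cellP_of_config h
  have hcard := h.card
  obtain ⟨a, -, ma, na, ca⟩ := exists_top y univ 3 (by simpa using hcard)
  obtain ⟨b, hb, mb, nb, cb⟩ := exists_top y _ 2 na
  obtain ⟨c, hc', mc, nc, cc⟩ := exists_top y _ 1 nb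
  obtain ⟨d, hd, md, -, cd⟩ := exists_top y _ 0 nc
  set T := (((univ.erase a).erase b).erase c).erase d with hT
  have hsum : ∀ f : ι → ℝ, ∑ l, f l = f a + f b + f c + f d + ∑ l ∈ T, f l := by
    intro f
    rw [← add_sum_erase _ _ (mem_univ a), ← add_sum_erase _ _ hb, ← add_sum_erase _ _ hc',
      ← add_sum_erase _ _ hd]
    simp only [add_assoc, hT]
  have hba : b ≠ a := ne_of_mem_erase hb
  have hcb : c ≠ b := ne_of_mem_erase hc'
  have hca : c ≠ a := ne_of_mem_erase (mem_of_mem_erase hc')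
  have hdc : d ≠ c := ne_of_mem_erase hd
  have hdb : d ≠ b := ne_of_mem_erase (mem_of_mem_erase hd)
  have hda : d ≠ a := ne_of_mem_erase (mem_of_mem_erase (mem_of_mem_erase hd))
  have hTm : ∀ l, l ∈ T ↔ l ≠ a ∧ l ≠ b ∧ l ≠ c ∧ l ≠ d := by
    intro l; simp only [hT, mem_erase, mem_univ]; tauto
  have o1 : y b ≤ y a := ma b (mem_univ _)
  have o2 : y c ≤ y b := mb c (mem_of_mem_erase hc')
  have o3 : y d ≤ y c := mc d (mem_of_mem_erase hd)
  have o4 : ∀ l ∈ T, y l ≤ y d := fun l hl => md l (mem_of_mem_erase hl)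
  have hs0 : c0 < y a + y b + y c + y d + ∑ l ∈ T, y l := by rw [← hsum]; exact h.big
  have hs : 0.35809 < y a + y b + y c + y d + ∑ l ∈ T, y l := c0_gt.trans hs0
  have hp1 : p a + p b + p c + p d + ∑ l ∈ T, p l = 1 := by rw [← hsum]; exact h.total
  have hσ : ∀ S : Finset ι, 0 ≤ ∑ l ∈ S, y l := fun S => sum_nonneg fun l _ => (hc l).2.2.1
  have hδ : ∀ S : Finset ι, 0 ≤ ∑ l ∈ S, p l := fun S => sum_nonneg fun l _ => (hc l).1.le
  have hsq : ∀ (i : ι) (S : Finset ι), (∀ l ∈ S, y l ≤ y i) →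
      ∑ l ∈ S, y l ≤ 2 * p i * ∑ l ∈ S, p l := fun i S hS =>
    tail_le fun l hl => tail_ratio (hc l) (hS l hl) (by linarith [(hc i).1])
      (by linarith [(hc i).2.2.2.1])
  -- Fact A
  have fA : 0.046 ≤ y c := by
    by_contra hlt
    push Not at hlt
    have e1 := A1 (hc a)
    have e2 := A1 (hc b)
    have e3 := A2 (hc c) hlt.le
    have e4 := A2 (hc d) (by linarith)
    have e5 : ∑ l ∈ T, y l ≤ 0.27 * ∑ l ∈ T, p l :=
      tail_le fun l hl => A2 (hc l) (by linarith [o4 l hl])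
    linarith
  have H4 := thinNum4 thinStmt h hba.symm hca.symm hcb.symm hda hdb hdc hTm
  by_cases h4 : p d ≤ 0.0606
  · exact caseIa (hc a) (hc b) (hc c) (hc d) (by linarith) (by linarith) fA (hσ T) (hδ T) hs hp1
      (hsq d T o4) h4 H4
  push Not at h4
  -- Fact C
  have fC : y d ≤ 0.03 → 0.066 ≤ y c := by
    intro hd3
    by_contra hlt
    push Not at hlt
    have e1 := C1 (hc a)
    have e2 := C1 (hc b)
    have e3 := C2 (hc c) hlt.le
    have e4 := C3 (hc d) h4.le hd3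
    have e5 : ∑ l ∈ T, y l ≤ 0.22 * ∑ l ∈ T, p l :=
      tail_le fun l hl => A3 (hc l) (by linarith [o4 l hl])
    have := hδ T
    linarith
  by_cases h5 : y d ≤ 0.01349
  · have l3 := fC (by linarith)
    exact caseIc (hc a) (hc b) (hc c) (hc d) (by linarith) (by linarith) l3 (hσ T) (hδ T) hs hp1
      (tail_le fun l hl => tail_ratio (hc l) ((o4 l hl).trans h5) (by norm_num) (by norm_num))
      h4.le h5 H4
  push Not at h5
  rcases T.eq_empty_or_nonempty with hT0 | hT0
  · have hk : Fintype.card ι = 4 := by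
      rw [hT0, card_empty] at cd
      rw [card_univ] at ca
      omega
    rw [hT0, sum_empty, add_zero] at hs0 hp1
    have K := capStmt E ι z h hk
    exact caseII (hc a) (hc b) (hc c) (hc d) (by linarith) (by linarith) (by linarith) h5.le
      (K a) (K b) (K c) (K d) hs0 hp1
  obtain ⟨e, he, me⟩ := exists_max_image T y hT0
  obtain ⟨hea, heb, hec, hed⟩ := (hTm e).1 he
  have hT5 : ∀ l, l ∈ T.erase e ↔ l ≠ a ∧ l ≠ b ∧ l ≠ c ∧ l ≠ d ∧ l ≠ e := by
    intro l; rw [mem_erase, hTm]; tauto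
  have H5 := thinNum5 thinStmt h hba.symm hca.symm hcb.symm hda.symm hdb.symm hdc.symm
    hea heb hec hed hT5
  rw [← add_sum_erase _ _ he, ← add_assoc] at hs hp1
  have o5 : ∀ l ∈ T.erase e, y l ≤ y e := fun l hl => me l (mem_of_mem_erase hl)
  have o6 := o4 e he
  rcases le_total (y d) 0.03 with h6 | h6
  · have l3 := fC h6
    exact caseIIIA (hc a) (hc b) (hc c) (hc d) (hc e) (by linarith) (by linarith) l3 h5.le h6
      (by linarith) (hσ _) (hδ _) hs hp1 (hsq e _ o5)
      (tail_le fun l hl => A3 (hc l) (by linarith [o5 l hl])) (tail_sq hc) H5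
  · exact caseIIIB (hc a) (hc b) (hc c) (hc d) (hc e) (by linarith) (by linarith) fA
      (by linarith) (by linarith) o3 h6 (hσ _) (hδ _) hs hp1 (hsq e _ o5)
      (tail_le fun l _ => A4 (hc l)) (tail_sq hc) H5

end Crest.Agent.R215.Fin6
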