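import Crest.Agent.R215.EndGame

/-! Row 215: from the thin-cone lemma to its numerical form. -/

set_option autoImplicit false

namespace Crest.Agent.R215.Fin6

open MeasureTheory ProbabilityTheory Finset
open scoped RealInnerProductSpace

universe u

section Alg

variable {E : Type u} [NormedAddCommGroup E] [InnerProductSpace ℝ E]
  {ι : Type} [Fintype ι] [DecidableEq ι] {z : ι → E}

omit [DecidableEq ι] in
lemma normSq_sum (c : ι → ℝ) :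
    ‖∑ j, c j • z j‖ ^ 2 = ∑ j, ∑ l, c j * c l * ⟪z j, z l⟫ := by
  rw [← real_inner_self_eq_norm_sq, sum_inner]
  refine sum_congr rfl fun j _ => ?_
  rw [inner_sum]
  refine sum_congr rfl fun l _ => ?_
  rw [real_inner_smul_left, real_inner_smul_right]; ring

omit [DecidableEq ι] in
lemma row_zero (hs : ∑ i, z i = 0) (j : ι) : ∑ l, ⟪z j, z l⟫ = 0 := by
  rw [← inner_sum, hs, inner_zero_right]

omit [DecidableEq ι] in
lemma lap (hs : ∑ i, z i = 0) (c : ι → ℝ) :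
    2 * ‖∑ j, c j • z j‖ ^ 2 = ∑ j, ∑ l, (-⟪z j, z l⟫) * (c j - c l) ^ 2 := by
  have h1 : ∑ j, ∑ l, c j ^ 2 * ⟪z j, z l⟫ = 0 := by
    simp only [← mul_sum, row_zero hs, mul_zero, sum_const_zero]
  have h2 : ∑ j, ∑ l, c l ^ 2 * ⟪z j, z l⟫ = 0 := by
    rw [sum_comm]
    simpa only [real_inner_comm] using h1
  have h3 : ∀ j l, (-⟪z j, z l⟫) * (c j - c l) ^ 2 =
      2 * (c j * c l * ⟪z j, z l⟫) - c j ^ 2 * ⟪z j, z l⟫ - c l ^ 2 * ⟪z j, z l⟫ := by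
    intro j l; ring
  simp only [h3, sum_sub_distrib]
  rw [h1, h2, normSq_sum, sub_zero, sub_zero, mul_sum]
  simp only [mul_sum]

lemma normSq_le (hneg : ∀ i j, i ≠ j → ⟪z i, z j⟫ < 0) (c : ι → ℝ) (hc : ∀ j, 0 ≤ c j) :
    ‖∑ j, c j • z j‖ ^ 2 ≤ ∑ j, c j ^ 2 * ‖z j‖ ^ 2 := by
  rw [normSq_sum]
  refine sum_le_sum fun j _ => ?_
  rw [← add_sum_erase _ _ (mem_univ j), real_inner_self_eq_norm_sq]
  have : ∑ l ∈ univ.erase j, c j * c l * ⟪z j, z l⟫ ≤ 0 :=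
    sum_nonpos fun l hl => mul_nonpos_of_nonneg_of_nonpos (mul_nonneg (hc j) (hc l))
      (hneg j l (ne_of_mem_erase hl).symm).le
  nlinarith

lemma pairs_le (f : ι → ι → ℝ) (h0 : ∀ j l, 0 ≤ f j l) (hsym : ∀ j l, f j l = f l j) {a b : ι}
    (hab : a ≠ b) {R : Finset ι} (ha : a ∉ R) (hb : b ∉ R) :
    2 * (f a b + ∑ r ∈ R, f a r + ∑ r ∈ R, f b r) ≤ ∑ j, ∑ l, f j l := by
  have hrow : ∀ j (s : Finset ι), ∑ l ∈ s, f j l ≤ ∑ l, f j l := fun j s =>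
    sum_le_sum_of_subset_of_nonneg (subset_univ _) fun l _ _ => h0 j l
  have h1 : ∑ j ∈ insert a (insert b R), ∑ l, f j l ≤ ∑ j, ∑ l, f j l :=
    sum_le_sum_of_subset_of_nonneg (subset_univ _) fun j _ _ => sum_nonneg fun l _ => h0 j l
  rw [sum_insert (by simp [hab, ha]), sum_insert hb] at h1
  have h2 := hrow a (insert b R)
  rw [sum_insert hb] at h2
  have h3 := hrow b (insert a R)
  rw [sum_insert ha, hsym b a] at h3
  have h4 : ∑ r ∈ R, (f a r + f b r) ≤ ∑ r ∈ R, ∑ l, f r l := by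
    refine sum_le_sum fun r _ => ?_
    have := hrow r {a, b}
    rwa [sum_pair hab, hsym r a, hsym r b] at this
  rw [sum_add_distrib] at h4
  linarith

omit [Fintype ι] [DecidableEq ι] in
lemma det_mono {u v : E} {A B C : ℝ} (hA : 0 ≤ A) (hC : 0 ≤ C) (hB : B ^ 2 ≤ A * C)
    (h : ∀ s t : ℝ, A * s ^ 2 - 2 * B * s * t + C * t ^ 2 ≤ ‖s • u + t • v‖ ^ 2) :
    A * C - B ^ 2 ≤ gram2 u v := by
  have e : ∀ s t : ℝ, ‖s • u + t • v‖ ^ 2 =
      ‖u‖ ^ 2 * s ^ 2 + 2 * ⟪u, v⟫ * s * t + ‖v‖ ^ 2 * t ^ 2 := by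
    intro s t
    rw [@norm_add_sq_real, norm_smul, norm_smul, real_inner_smul_left, real_inner_smul_right,
      mul_pow, mul_pow, Real.norm_eq_abs, Real.norm_eq_abs, sq_abs, sq_abs]
    ring
  set a := ‖u‖ ^ 2 - A with ha
  set c := ‖v‖ ^ 2 - C with hc
  set b := ⟪u, v⟫ + B with hb
  have ha0 : 0 ≤ a := by have := h 1 0; rw [e] at this; simp only [ha]; linarith
  have hc0 : 0 ≤ c := by have := h 0 1; rw [e] at this; simp only [hc]; linarith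
  have hd : b ^ 2 ≤ a * c := by
    have := discrim_le_zero (a := a) (b := 2 * b) (c := c) fun s => by
      have := h s 1; rw [e] at this; simp only [ha, hb, hc]; linarith
    rw [discrim] at this
    linarith
  have hm : |2 * b * B| ≤ A * c + C * a := by
    refine abs_le_of_sq_le_sq ?_ (by positivity)
    have h1 : b ^ 2 * B ^ 2 ≤ (a * c) * (A * C) :=
      mul_le_mul hd hB (sq_nonneg _) (mul_nonneg ha0 hc0)
    nlinarith [sq_nonneg (A * c - C * a)]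
  have := (abs_le.1 hm).1
  have e2 : gram2 u v = (A + a) * (C + c) - (b - B) ^ 2 := by
    simp only [gram2, ha, hb, hc]; ring
  rw [e2]
  nlinarith

lemma sum_split {M : Type*} [AddCommMonoid M] {i a b : ι} {R T : Finset ι} (hia : i ≠ a)
    (hib : i ≠ b) (hab : a ≠ b) (hi : i ∉ R) (ha : a ∉ R) (hb : b ∉ R)
    (hT : ∀ l, l ∈ T ↔ l ≠ i ∧ l ≠ a ∧ l ≠ b ∧ l ∉ R) (f : ι → M) :
    ∑ l, f l = f i + f a + f b + ∑ r ∈ R, f r + ∑ l ∈ T, f l := by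
  have h1 : T = (insert i (insert a (insert b R)))ᶜ := by
    ext l; simp [hT]
  rw [h1, ← sum_add_sum_compl (insert i (insert a (insert b R))), sum_insert (by simp [*]),
    sum_insert (by simp [*]), sum_insert hb]
  simp only [add_assoc]

end Alg

variable {E : Type u} [NormedAddCommGroup E] [InnerProductSpace ℝ E] [FiniteDimensional ℝ E]
  [MeasurableSpace E] [BorelSpace E] {ι : Type} [Fintype ι] [DecidableEq ι] {z : ι → E}

lemma thin_gen (hthin : ThinStmt.{u}) (h : Config z) {i a b : ι} {R T : Finset ι} (hia : i ≠ a)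
    (hib : i ≠ b) (hab : a ≠ b) (hi : i ∉ R) (ha : a ∉ R) (hb : b ∉ R)
    (hT : ∀ l, l ∈ T ↔ l ≠ i ∧ l ≠ a ∧ l ≠ b ∧ l ∉ R) {D0 : ℝ} (hD : 0 < D0)
    (hdet : D0 ^ 2 ≤ (-⟪z a, z b⟫ + ∑ r ∈ R, -⟪z a, z r⟫) * (-⟪z a, z b⟫ + ∑ r ∈ R, -⟪z b, z r⟫)
      - (-⟪z a, z b⟫) ^ 2) :
    1 ≤ (1 - 2 * (stdGaussian E).real (cell z i)) ^ 2 *
      (1 + (((R.card : ℝ) + 3) ^ 2 * ‖z i‖ ^ 2 + ∑ l ∈ T, ‖z l‖ ^ 2) / (2 * Real.pi * D0)) := by
  have hTi : i ∉ T := by simp [hT]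
  have hTa : a ∉ T := by simp [hT]
  have hTb : b ∉ T := by simp [hT]
  have hTR : ∀ r ∈ R, r ∉ T := fun r hr => by simp [hT, hr]
  let e : ι → ℝ := fun l => if l = i then (R.card : ℝ) + 3 else if l ∈ T then 1 else 0
  have ei : e i = R.card + 3 := by simp [e]
  have ea : e a = 0 := by simp [e, hia.symm, hTa]
  have eb : e b = 0 := by simp [e, hib.symm, hTb]
  have eR : ∀ r ∈ R, e r = 0 := fun r hr => by
    have : r ≠ i := fun h => hi (h ▸ hr)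
    simp [e, this, hTR r hr]
  have eT : ∀ l ∈ T, e l = 1 := fun l hl => by
    have : l ≠ i := fun h => hTi (h ▸ hl)
    simp [e, this, hl]
  have e0 : ∀ l, 0 ≤ e l := fun l => by
    show 0 ≤ (if l = i then (R.card : ℝ) + 3 else if l ∈ T then 1 else 0)
    have : (0 : ℝ) ≤ R.card := Nat.cast_nonneg _
    by_cases h1 : l = i
    · rw [if_pos h1]; linarith
    · rw [if_neg h1]
      by_cases h2 : l ∈ T
      · rw [if_pos h2]; norm_num
      · rw [if_neg h2]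
  set ξ : E := ∑ l, e l • z l with hξ
  have split := fun {M : Type u} [AddCommMonoid M] (f : ι → M) =>
    sum_split hia hib hab hi ha hb hT f
  have splitR := fun (f : ι → ℝ) => sum_split hia hib hab hi ha hb hT f
  have hξ2 : ξ = (z i - z a) + (z i - z b) + ∑ r ∈ R, (z i - z r) := by
    have h1 := h.sum_zero
    rw [split] at h1
    have s1 : ∑ r ∈ R, e r • z r = 0 := sum_eq_zero fun r hr => by rw [eR r hr, zero_smul]
    have s2 : ∑ l ∈ T, e l • z l = ∑ l ∈ T, z l := sum_congr rfl fun l hl => by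
      rw [eT l hl, one_smul]
    rw [hξ, split, ei, ea, eb, s1, s2]
    simp only [zero_smul, add_zero, sum_sub_distrib, sum_const]
    have h2 : ∑ l ∈ T, z l = -(z i + z a + z b + ∑ r ∈ R, z r) := eq_neg_of_add_eq_zero_right h1
    rw [h2, ← Nat.cast_smul_eq_nsmul ℝ]
    module
  have hξ0 : ξ ≠ 0 := by
    intro h0
    have := kernel_const h.sum_zero h.neg e h0 i a
    rw [ei, ea] at this
    have : (0 : ℝ) ≤ R.card := Nat.cast_nonneg _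
    linarith
  have hn : ‖ξ‖ ^ 2 ≤ ((R.card : ℝ) + 3) ^ 2 * ‖z i‖ ^ 2 + ∑ l ∈ T, ‖z l‖ ^ 2 := by
    refine (normSq_le h.neg e e0).trans (le_of_eq ?_)
    have s1 : ∑ r ∈ R, e r ^ 2 * ‖z r‖ ^ 2 = 0 := sum_eq_zero fun r hr => by simp [eR r hr]
    have s2 : ∑ l ∈ T, e l ^ 2 * ‖z l‖ ^ 2 = ∑ l ∈ T, ‖z l‖ ^ 2 := sum_congr rfl fun l hl => by
      simp [eT l hl]
    rw [splitR, ei, ea, eb, s1, s2]
    simp
  have hβ : ∀ j l, j ≠ l → 0 ≤ -⟪z j, z l⟫ := fun j l hjl => by linarith [h.neg j l hjl]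
  have hA : 0 ≤ -⟪z a, z b⟫ + ∑ r ∈ R, -⟪z a, z r⟫ :=
    add_nonneg (hβ _ _ hab) (sum_nonneg fun r hr => hβ _ _ fun h => ha (h ▸ hr))
  have hC : 0 ≤ -⟪z a, z b⟫ + ∑ r ∈ R, -⟪z b, z r⟫ :=
    add_nonneg (hβ _ _ hab) (sum_nonneg fun r hr => hβ _ _ fun h => hb (h ▸ hr))
  have hgram : D0 ^ 2 ≤ gram2 (perp ξ (z i - z a)) (perp ξ (z i - z b)) := by
    refine hdet.trans (det_mono hA hC (by nlinarith [sq_nonneg D0]) fun s t => ?_)
    set μ : ℝ := s * (⟪z i - z a, ξ⟫ / ‖ξ‖ ^ 2) + t * (⟪z i - z b, ξ⟫ / ‖ξ‖ ^ 2) with hμ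
    let c : ι → ℝ := fun l => (if l = i then s + t else 0) - (if l = a then s else 0) -
      (if l = b then t else 0) - μ * e l
    have hc : s • perp ξ (z i - z a) + t • perp ξ (z i - z b) = ∑ l, c l • z l := by
      simp only [c, sub_smul, sum_sub_distrib, ite_smul, zero_smul, sum_ite_eq', mem_univ,
        if_true, mul_smul, ← smul_sum, ← hξ, perp, hμ]
      module
    have ca : c a = -s := by simp [c, hia.symm, hab, ea]
    have cb : c b = -t := by simp [c, hib.symm, hab.symm, eb]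
    have cR : ∀ r ∈ R, c r = 0 := fun r hr => by
      have h1 : r ≠ i := fun h => hi (h ▸ hr)
      have h2 : r ≠ a := fun h => ha (h ▸ hr)
      have h3 : r ≠ b := fun h => hb (h ▸ hr)
      simp [c, h1, h2, h3, eR r hr]
    have h1 := lap h.sum_zero c
    have h2 := pairs_le (fun j l => (-⟪z j, z l⟫) * (c j - c l) ^ 2) (fun j l => by
      rcases eq_or_ne j l with rfl | hjl
      · simp
      · exact mul_nonneg (hβ _ _ hjl) (sq_nonneg _))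
      (fun j l => by rw [real_inner_comm]; ring) hab ha hb
    have s1 : ∀ j, ∑ r ∈ R, (-⟪z j, z r⟫) * (c j - c r) ^ 2 = (∑ r ∈ R, -⟪z j, z r⟫) * c j ^ 2 := by
      intro j
      rw [sum_mul]
      exact sum_congr rfl fun r hr => by rw [cR r hr, sub_zero]
    rw [s1, s1, ca, cb, ← h1] at h2
    rw [hc]
    linarith
  have H := hthin E (z i - z a) (z i - z b) ξ D0 (cell z i) hξ0 hD hgram fun x hx => by
    refine ⟨(hx a hia.symm).le, (hx b hib.symm).le, ?_⟩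
    rw [hξ2, inner_add_left, inner_add_left, sum_inner]
    have : 0 ≤ ∑ r ∈ R, ⟪z i - z r, x⟫ :=
      sum_nonneg fun r hr => (hx r fun h => hi (h ▸ hr)).le
    linarith
  refine H.trans (mul_le_mul_of_nonneg_left ?_ (sq_nonneg _))
  have := Real.pi_pos
  gcongr

/-- The loss `B j = β j i + ∑_{l ∈ T} β j l`. -/
lemma loss_sum (h : Config z) {i a b : ι} {R T : Finset ι} (hia : i ≠ a)
    (hib : i ≠ b) (hab : a ≠ b) (hi : i ∉ R) (ha : a ∉ R) (hb : b ∉ R)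
    (hT : ∀ l, l ∈ T ↔ l ≠ i ∧ l ≠ a ∧ l ≠ b ∧ l ∉ R) :
    -⟪z a, z i + ∑ l ∈ T, z l⟫ + -⟪z b, z i + ∑ l ∈ T, z l⟫ +
      ∑ r ∈ R, -⟪z r, z i + ∑ l ∈ T, z l⟫ ≤ ‖z i‖ ^ 2 + ∑ l ∈ T, ‖z l‖ ^ 2 := by
  have hTi : i ∉ T := by simp [hT]
  set w := z i + ∑ l ∈ T, z l with hw
  have h1 := h.sum_zero
  rw [sum_split hia hib hab hi ha hb hT] at h1
  have h2 : z a + z b + ∑ r ∈ R, z r = -w := by
    rw [hw]; exact eq_neg_of_add_eq_zero_left (by rw [← h1]; abel)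
  have h3 : -⟪z a, w⟫ + -⟪z b, w⟫ + ∑ r ∈ R, -⟪z r, w⟫ = ‖w‖ ^ 2 := by
    rw [sum_neg_distrib, ← sum_inner, ← neg_add, ← neg_add, ← inner_add_left, ← inner_add_left, h2,
      inner_neg_left, neg_neg, real_inner_self_eq_norm_sq]
  rw [h3]
  have h4 := normSq_le h.neg (fun l => if l ∈ insert i T then 1 else 0) fun l => by
    split_ifs <;> norm_num
  simp only [ite_smul, one_smul, zero_smul, ite_pow, one_pow, ne_eq, OfNat.ofNat_ne_zero,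
    not_false_eq_true, zero_pow, ite_mul, one_mul, zero_mul, sum_ite_mem, univ_inter,
    sum_insert hTi] at h4
  exact h4

omit [DecidableEq ι] in
lemma loss_nonneg (h : Config z) {i j : ι} {T : Finset ι} (hij : j ≠ i) (hj : j ∉ T) :
    0 ≤ -⟪z j, z i + ∑ l ∈ T, z l⟫ := by
  rw [inner_add_right, inner_sum]
  have h1 := h.neg j i hij
  have h2 : ∑ l ∈ T, ⟪z j, z l⟫ ≤ 0 := sum_nonpos fun l hl => (h.neg j l fun e => hj (e ▸ hl)).le
  linarith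

lemma thinNum4 (hthin : ThinStmt.{u}) (h : Config z) {a b c i : ι} {T : Finset ι}
    (hab : a ≠ b) (hac : a ≠ c) (hbc : b ≠ c) (hia : i ≠ a) (hib : i ≠ b) (hic : i ≠ c)
    (hT : ∀ l, l ∈ T ↔ l ≠ a ∧ l ≠ b ∧ l ≠ c ∧ l ≠ i) :
    ThinNum (‖z a‖ ^ 2) (‖z b‖ ^ 2) (‖z c‖ ^ 2) (‖z i‖ ^ 2 + ∑ l ∈ T, ‖z l‖ ^ 2)
      (16 * ‖z i‖ ^ 2 + ∑ l ∈ T, ‖z l‖ ^ 2) ((stdGaussian E).real (cell z i)) := by
  have hT' : ∀ l, l ∈ T ↔ l ≠ i ∧ l ≠ a ∧ l ≠ b ∧ l ∉ ({c} : Finset ι) := by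
    intro l; rw [hT]; simp only [mem_singleton]; tauto
  have hi : i ∉ ({c} : Finset ι) := by simpa
  have ha : a ∉ ({c} : Finset ι) := by simpa
  have hb : b ∉ ({c} : Finset ι) := by simpa
  set w := z i + ∑ l ∈ T, z l with hw
  have hY : ∀ j, ⟪z j, z a⟫ + ⟪z j, z b⟫ + ⟪z j, z c⟫ + ⟪z j, w⟫ = 0 := by
    intro j
    have := row_zero h.sum_zero j
    rw [sum_split hia hib hab hi ha hb hT', sum_singleton] at this
    rw [hw, inner_add_right, inner_sum]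
    linarith
  refine ⟨-⟪z a, w⟫, -⟪z b, w⟫, -⟪z c, w⟫, loss_nonneg h hia.symm (by simp [hT]),
    loss_nonneg h hib.symm (by simp [hT]), loss_nonneg h hic.symm (by simp [hT]), ?_, ?_⟩
  · simpa only [sum_singleton] using loss_sum h hia hib hab hi ha hb hT'
  intro D0 hD hΘ
  have H := thin_gen hthin h hia hib hab hi ha hb hT' hD (by
    have y1 := hY a
    have y2 := hY b
    have y3 := hY c
    rw [real_inner_self_eq_norm_sq] at y1 y2 y3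
    rw [real_inner_comm (z a)] at y2 y3
    rw [real_inner_comm (z b)] at y3
    have e1 : ‖z a‖ ^ 2 - -⟪z a, w⟫ = -⟪z a, z b⟫ + -⟪z a, z c⟫ := by linarith
    have e2 : ‖z b‖ ^ 2 - -⟪z b, w⟫ = -⟪z a, z b⟫ + -⟪z b, z c⟫ := by linarith
    have e3 : ‖z c‖ ^ 2 - -⟪z c, w⟫ = -⟪z a, z c⟫ + -⟪z b, z c⟫ := by linarith
    rw [e1, e2, e3, Theta] at hΘ
    simp only [sum_singleton]
    linarith)
  norm_num at H ⊢
  exact H

lemma thinNum5_aux (hthin : ThinStmt.{u}) (h : Config z) {a b c d i : ι} {T : Finset ι}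
    (hab : a ≠ b) (hac : a ≠ c) (hbc : b ≠ c) (had : a ≠ d) (hbd : b ≠ d) (hcd : c ≠ d)
    (hia : i ≠ a) (hib : i ≠ b) (hic : i ≠ c) (hid : i ≠ d)
    (hT : ∀ l, l ∈ T ↔ l ≠ a ∧ l ≠ b ∧ l ≠ c ∧ l ≠ d ∧ l ≠ i)
    (hmin : -⟪z c, z d⟫ ≤ -⟪z a, z d⟫ + -⟪z b, z d⟫) {D0 : ℝ} (hD : 0 < D0)
    (hΘ : 4 * D0 ^ 2 ≤ Theta (‖z a‖ ^ 2 - -⟪z a, z i + ∑ l ∈ T, z l⟫)
      (‖z b‖ ^ 2 - -⟪z b, z i + ∑ l ∈ T, z l⟫) (‖z c‖ ^ 2 - -⟪z c, z i + ∑ l ∈ T, z l⟫)) :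
    1 ≤ (1 - 2 * (stdGaussian E).real (cell z i)) ^ 2 *
      (1 + (25 * ‖z i‖ ^ 2 + ∑ l ∈ T, ‖z l‖ ^ 2) / (2 * Real.pi * D0)) := by
  have hT' : ∀ l, l ∈ T ↔ l ≠ i ∧ l ≠ a ∧ l ≠ b ∧ l ∉ ({c, d} : Finset ι) := by
    intro l; rw [hT]; simp only [mem_insert, mem_singleton]; tauto
  have hi : i ∉ ({c, d} : Finset ι) := by simp [*]
  have ha : a ∉ ({c, d} : Finset ι) := by simp [*]
  have hb : b ∉ ({c, d} : Finset ι) := by simp [*]
  set w := z i + ∑ l ∈ T, z l with hw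
  have hY : ∀ j, ⟪z j, z a⟫ + ⟪z j, z b⟫ + ⟪z j, z c⟫ + ⟪z j, z d⟫ + ⟪z j, w⟫ = 0 := by
    intro j
    have := row_zero h.sum_zero j
    rw [sum_split hia hib hab hi ha hb hT', sum_pair hcd] at this
    rw [hw, inner_add_right, inner_sum]
    linarith
  have H := thin_gen hthin h hia hib hab hi ha hb hT' hD (by
    have y1 := hY a
    have y2 := hY b
    have y3 := hY c
    rw [real_inner_self_eq_norm_sq] at y1 y2 y3
    rw [real_inner_comm (z a)] at y2 y3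
    rw [real_inner_comm (z b)] at y3
    have e1 : ‖z a‖ ^ 2 - -⟪z a, w⟫ = -⟪z a, z b⟫ + -⟪z a, z c⟫ + -⟪z a, z d⟫ := by linarith
    have e2 : ‖z b‖ ^ 2 - -⟪z b, w⟫ = -⟪z a, z b⟫ + -⟪z b, z c⟫ + -⟪z b, z d⟫ := by linarith
    have e3 : ‖z c‖ ^ 2 - -⟪z c, w⟫ = -⟪z a, z c⟫ + -⟪z b, z c⟫ + -⟪z c, z d⟫ := by linarith
    rw [e1, e2, e3, Theta] at hΘ
    simp only [sum_pair hcd]
    have t0 : 0 ≤ -⟪z a, z d⟫ + -⟪z b, z d⟫ - -⟪z c, z d⟫ := by linarith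
    have t1 := mul_nonneg t0 (by linarith [h.neg a b hab] :
      0 ≤ 4 * -⟪z a, z b⟫ + (-⟪z a, z d⟫ + -⟪z b, z d⟫ - -⟪z c, z d⟫))
    linarith)
  rw [card_pair hcd] at H
  norm_num at H ⊢
  exact H

lemma Theta_swap (a b c : ℝ) : Theta a b c = Theta a c b := by simp only [Theta]; ring
lemma Theta_rot (a b c : ℝ) : Theta a b c = Theta b c a := by simp only [Theta]; ring

lemma thinNum5 (hthin : ThinStmt.{u}) (h : Config z) {a b c d i : ι} {T : Finset ι}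
    (hab : a ≠ b) (hac : a ≠ c) (hbc : b ≠ c) (had : a ≠ d) (hbd : b ≠ d) (hcd : c ≠ d)
    (hia : i ≠ a) (hib : i ≠ b) (hic : i ≠ c) (hid : i ≠ d)
    (hT : ∀ l, l ∈ T ↔ l ≠ a ∧ l ≠ b ∧ l ≠ c ∧ l ≠ d ∧ l ≠ i) :
    ThinNum (‖z a‖ ^ 2) (‖z b‖ ^ 2) (‖z c‖ ^ 2) (‖z i‖ ^ 2 + ∑ l ∈ T, ‖z l‖ ^ 2)
      (25 * ‖z i‖ ^ 2 + ∑ l ∈ T, ‖z l‖ ^ 2) ((stdGaussian E).real (cell z i)) := by
  have hT' : ∀ l, l ∈ T ↔ l ≠ i ∧ l ≠ a ∧ l ≠ b ∧ l ∉ ({c, d} : Finset ι) := by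
    intro l; rw [hT]; simp only [mem_insert, mem_singleton]; tauto
  refine ⟨-⟪z a, z i + ∑ l ∈ T, z l⟫, -⟪z b, z i + ∑ l ∈ T, z l⟫, -⟪z c, z i + ∑ l ∈ T, z l⟫,
    loss_nonneg h hia.symm (by simp [hT]),
    loss_nonneg h hib.symm (by simp [hT]), loss_nonneg h hic.symm (by simp [hT]), ?_, ?_⟩
  · have h1 := loss_sum h hia hib hab (by simp [*]) (by simp [*]) (by simp [*]) hT'
    rw [sum_pair hcd] at h1
    have h2 := loss_nonneg (T := T) h hid.symm (by simp [hT])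
    linarith
  intro D0 hD hΘ
  have na := h.neg a d had
  have nb := h.neg b d hbd
  have nc := h.neg c d hcd
  by_cases h1 : -⟪z c, z d⟫ ≤ -⟪z a, z d⟫ + -⟪z b, z d⟫
  · exact thinNum5_aux hthin h hab hac hbc had hbd hcd hia hib hic hid hT h1 hD hΘ
  · refine thinNum5_aux hthin h hac hab hbc.symm had hcd hbd hia hic hib hid
      (fun l => by rw [hT]; tauto) (by linarith) hD ?_
    rwa [Theta_swap]

end Crest.Agent.R215.Fin6
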